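import Crest.Agent.X212.Int54.Jac
import Crest.Agent.X212.Dr59.Coh

/-!
X212 / NUM (helper57), part 5: components of forms in a spanning frame (pointwise algebra).

* `e1 c v`, `e2 c v w`, `e3`, `e4` : values of a form on vectors;
* `Cf e t P` : `t` is the coframe of the spanning family `e` with Gram projector `P`;
* `Cf.eq1`, `Cf.eq2` : expansion of forms of degree one and two;
* `Vo P o` : components of a unit volume form, `Cf.vl`, `Cf.ph`, `tp_div_vl`, `ph_mul`.
-/

set_option autoImplicit false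
set_option linter.unusedSectionVars false

open Finset Module
open Crest.Agent.R208 Crest.Agent.R208.F Crest.Agent.R208.FI Crest.Agent.X212.Dr59
open Crest.Agent.X212.Int54

noncomputable section

namespace Crest.Agent.X212.Num57

variable {E : Type*} [NormedAddCommGroup E] [NormedSpace ℝ E] [FiniteDimensional ℝ E]
  {ι : Type*} [Fintype ι]

/-- value on one vector -/
def e1 (c : Ext E) (v : E) : ℝ := evA E 1 c ![v]
/-- value on two vectors -/
def e2 (c : Ext E) (v w : E) : ℝ := evA E 2 c ![v, w]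
/-- value on three vectors -/
def e3 (c : Ext E) (u v w : E) : ℝ := evA E 3 c ![u, v, w]
/-- value on four vectors -/
def e4 (c : Ext E) (s u v w : E) : ℝ := evA E 4 c ![s, u, v, w]

theorem e1_add (a b : Ext E) (v : E) : e1 (a + b) v = e1 a v + e1 b v := by simp [e1]
theorem e1_sub (a b : Ext E) (v : E) : e1 (a - b) v = e1 a v - e1 b v := by simp [e1]
theorem e1_smul (r : ℝ) (a : Ext E) (v : E) : e1 (r • a) v = r * e1 a v := by simp [e1]
theorem e1_sum {α : Type*} (s : Finset α) (a : α → Ext E) (v : E) :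
    e1 (∑ i ∈ s, a i) v = ∑ i ∈ s, e1 (a i) v := by
  induction s using Finset.cons_induction <;> simp_all [e1]
theorem e2_add (a b : Ext E) (v w : E) : e2 (a + b) v w = e2 a v w + e2 b v w := by simp [e2]
theorem e2_sub (a b : Ext E) (v w : E) : e2 (a - b) v w = e2 a v w - e2 b v w := by simp [e2]
theorem e2_neg (a : Ext E) (v w : E) : e2 (-a) v w = -e2 a v w := by simp [e2]
theorem e2_zero (v w : E) : e2 (0 : Ext E) v w = 0 := by simp [e2]
theorem e2_smul (r : ℝ) (a : Ext E) (v w : E) : e2 (r • a) v w = r * e2 a v w := by simp [e2]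
theorem e2_sum {α : Type*} (s : Finset α) (a : α → Ext E) (v w : E) :
    e2 (∑ i ∈ s, a i) v w = ∑ i ∈ s, e2 (a i) v w := by
  induction s using Finset.cons_induction <;> simp_all [e2]
theorem e3_add (a b : Ext E) (u v w : E) : e3 (a + b) u v w = e3 a u v w + e3 b u v w := by
  simp [e3]
theorem e3_smul (r : ℝ) (a : Ext E) (u v w : E) : e3 (r • a) u v w = r * e3 a u v w := by simp [e3]
theorem e3_sum {α : Type*} (s : Finset α) (a : α → Ext E) (u v w : E) :
    e3 (∑ i ∈ s, a i) u v w = ∑ i ∈ s, e3 (a i) u v w := by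
  induction s using Finset.cons_induction <;> simp_all [e3]
theorem e4_add (a b : Ext E) (s u v w : E) : e4 (a + b) s u v w = e4 a s u v w + e4 b s u v w := by
  simp [e4]
theorem e4_smul (r : ℝ) (a : Ext E) (s u v w : E) : e4 (r • a) s u v w = r * e4 a s u v w := by
  simp [e4]
theorem e4_sum {α : Type*} (t : Finset α) (a : α → Ext E) (s u v w : E) :
    e4 (∑ i ∈ t, a i) s u v w = ∑ i ∈ t, e4 (a i) s u v w := by
  induction t using Finset.cons_induction <;> simp_all [e4]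

theorem e1_io (l : Dual ℝ E) (v : E) : e1 (io l) v = l v := evA_io l _

theorem e2_io_mul (l : Dual ℝ E) (c : Ext E) (v w : E) :
    e2 (io l * c) v w = l v * e1 c w - l w * e1 c v := by
  have h1 : (fun j => (![v, w] : Fin 2 → E) (Fin.succAbove 0 j)) = ![w] := by
    funext j; fin_cases j; rfl
  have h2 : (fun j => (![v, w] : Fin 2 → E) (Fin.succAbove 1 j)) = ![v] := by
    funext j; fin_cases j; rfl
  rw [e2, evA_io_mul, Fin.sum_univ_two, h1, h2]
  simp [e1, sub_eq_add_neg]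

theorem e3_io_mul (l : Dual ℝ E) (c : Ext E) (u v w : E) :
    e3 (io l * c) u v w = l u * e2 c v w - l v * e2 c u w + l w * e2 c u v := by
  have h1 : (fun j => (![u, v, w] : Fin 3 → E) (Fin.succAbove 0 j)) = ![v, w] := by
    funext j; fin_cases j <;> rfl
  have h2 : (fun j => (![u, v, w] : Fin 3 → E) (Fin.succAbove 1 j)) = ![u, w] := by
    funext j; fin_cases j <;> rfl
  have h3 : (fun j => (![u, v, w] : Fin 3 → E) (Fin.succAbove 2 j)) = ![u, v] := by
    funext j; fin_cases j <;> rfl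
  rw [e3, evA_io_mul, Fin.sum_univ_three, h1, h2, h3]
  simp [e2, sub_eq_add_neg]

theorem e4_io_mul (l : Dual ℝ E) (c : Ext E) (s u v w : E) :
    e4 (io l * c) s u v w
      = l s * e3 c u v w - l u * e3 c s v w + l v * e3 c s u w - l w * e3 c s u v := by
  have h1 : (fun j => (![s, u, v, w] : Fin 4 → E) (Fin.succAbove 0 j)) = ![u, v, w] := by
    funext j; fin_cases j <;> rfl
  have h2 : (fun j => (![s, u, v, w] : Fin 4 → E) (Fin.succAbove 1 j)) = ![s, v, w] := by
    funext j; fin_cases j <;> rfl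
  have h3 : (fun j => (![s, u, v, w] : Fin 4 → E) (Fin.succAbove 2 j)) = ![s, u, w] := by
    funext j; fin_cases j <;> rfl
  have h4 : (fun j => (![s, u, v, w] : Fin 4 → E) (Fin.succAbove 3 j)) = ![s, u, v] := by
    funext j; fin_cases j <;> rfl
  rw [e4, evA_io_mul, Fin.sum_univ_four, h1, h2, h3, h4]
  have e : ((3 : Fin 4) : ℕ) = 3 := rfl
  have e' : ((2 : Fin 4) : ℕ) = 2 := rfl
  simp only [e3, e, e', Fin.val_zero, Fin.val_one, Matrix.cons_val]
  ring

theorem e2_io_io (l m : Dual ℝ E) (v w : E) : e2 (io l * io m) v w = l v * m w - l w * m v := by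
  rw [e2_io_mul, e1_io, e1_io]

theorem e2_swap (c : Ext E) (v w : E) : e2 c w v = -e2 c v w := by
  have := (evA E 2 c).map_swap ![v, w] (i := 0) (j := 1) (by decide)
  rw [e2, e2, ← this]
  congr 1
  funext j; fin_cases j <;> rfl

theorem e1_eq (c : Ext E) (v : E) : e1 c v = evA E 0 (ii v c) ![] := evA_ii 0 c v _
theorem e2_eq (c : Ext E) (v w : E) : e2 c v w = e1 (ii v c) w := evA_ii 1 c v _
theorem e3_eq (c : Ext E) (u v w : E) : e3 c u v w = e2 (ii u c) v w := evA_ii 2 c u _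
theorem e4_eq (c : Ext E) (s u v w : E) : e4 c s u v w = e3 (ii s c) u v w := evA_ii 3 c s _

theorem e1_vsum {α : Type*} (s : Finset α) (c : Ext E) (r : α → ℝ) (v : α → E) :
    e1 c (∑ i ∈ s, r i • v i) = ∑ i ∈ s, r i * e1 c (v i) := by
  simp only [e1_eq, map_sum, map_smul, LinearMap.sum_apply, LinearMap.smul_apply]
  induction s using Finset.cons_induction <;> simp_all

theorem e2_vsum {α : Type*} (s : Finset α) (c : Ext E) (r : α → ℝ) (v : α → E) (w : E) :
    e2 c (∑ i ∈ s, r i • v i) w = ∑ i ∈ s, r i * e2 c (v i) w := by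
  simp only [e2_eq, map_sum, map_smul, LinearMap.sum_apply, LinearMap.smul_apply, e1_sum, e1_smul]

theorem e2_vsum' {α : Type*} (s : Finset α) (c : Ext E) (r : α → ℝ) (v : α → E) (w : E) :
    e2 c w (∑ i ∈ s, r i • v i) = ∑ i ∈ s, r i * e2 c w (v i) := by
  simp only [e2_eq, e1_vsum]

theorem ext1 {a b : Ext E} (ha : IsDeg 1 a) (hb : IsDeg 1 b) (h : ∀ v, e1 a v = e1 b v) : a = b := by
  refine T.ext_evA fun q => ?_
  by_cases hq : q = 1
  · subst hq
    ext v
    have : v = ![v 0] := by funext j; fin_cases j; rfl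
    rw [this]; exact h _
  · rw [ha q hq, hb q hq]

theorem ext2 {a b : Ext E} (ha : IsDeg 2 a) (hb : IsDeg 2 b) (h : ∀ v w, e2 a v w = e2 b v w) :
    a = b := by
  refine T.ext_evA fun q => ?_
  by_cases hq : q = 2
  · subst hq
    ext v
    have : v = ![v 0, v 1] := by funext j; fin_cases j <;> rfl
    rw [this]; exact h _ _
  · rw [ha q hq, hb q hq]

/-- the coframe of a spanning family -/
structure Cf (e : ι → E) (t : ι → Dual ℝ E) (P : ι → ι → ℝ) : Prop where
  te : ∀ a b, t a (e b) = P a b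
  ex : ∀ v, ∑ a, t a v • e a = v
  symm : ∀ a b, P a b = P b a

namespace Cf

variable {e : ι → E} {t : ι → Dual ℝ E} {P : ι → ι → ℝ} (h : Cf e t P)
include h

theorem pe (a : ι) : ∑ b, P a b • e b = e a := by
  conv_rhs => rw [← h.ex (e a)]
  exact sum_congr rfl fun b _ => by rw [h.te, h.symm]

theorem ext1' {a b : Ext E} (ha : IsDeg 1 a) (hb : IsDeg 1 b)
    (hab : ∀ k, e1 a (e k) = e1 b (e k)) : a = b :=
  ext1 ha hb fun v => by rw [← h.ex v, e1_vsum, e1_vsum]; simp only [hab]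

theorem ext2' {a b : Ext E} (ha : IsDeg 2 a) (hb : IsDeg 2 b)
    (hab : ∀ k l, e2 a (e k) (e l) = e2 b (e k) (e l)) : a = b :=
  ext2 ha hb fun v w => by
    rw [← h.ex v, ← h.ex w, e2_vsum, e2_vsum]; simp only [e2_vsum', hab]

theorem p1 (c : Ext E) (a : ι) : ∑ b, P a b * e1 c (e b) = e1 c (e a) := by
  rw [← e1_vsum, h.pe]

theorem p2 (c : Ext E) (a : ι) (w : E) : ∑ b, P a b * e2 c (e b) w = e2 c (e a) w := by
  rw [← e2_vsum, h.pe]

theorem p2' (c : Ext E) (a : ι) (w : E) : ∑ b, P a b * e2 c w (e b) = e2 c w (e a) := by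
  rw [← e2_vsum', h.pe]

omit h in
theorem deg1 (t : ι → Dual ℝ E) (α : ι → ℝ) : IsDeg 1 (∑ a, α a • io (t a)) :=
  IsDeg.sum _ fun _ _ => (isDeg_io _).smul _

omit h in
theorem deg2 (t : ι → Dual ℝ E) (β : ι → ι → ℝ) :
    IsDeg 2 (∑ a, ∑ b, β a b • (io (t a) * io (t b))) :=
  IsDeg.sum _ fun _ _ => IsDeg.sum _ fun _ _ => ((isDeg_io _).io_mul _).smul _

theorem e1_comb (α : ι → ℝ) (k : ι) : e1 (∑ a, α a • io (t a)) (e k) = ∑ a, P k a * α a := by
  simp only [e1_sum, e1_smul, e1_io, h.te]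
  exact sum_congr rfl fun a _ => by rw [h.symm, mul_comm]

theorem e2_comb (β : ι → ι → ℝ) (k l : ι) : e2 (∑ a, ∑ b, β a b • (io (t a) * io (t b))) (e k) (e l)
    = ∑ a, P k a * ∑ b, P l b * β a b - ∑ a, P l a * ∑ b, P k b * β a b := by
  simp only [e2_sum, e2_smul, e2_io_io, h.te, mul_sum, ← sum_sub_distrib]
  refine sum_congr rfl fun a _ => sum_congr rfl fun b _ => ?_
  rw [h.symm k a, h.symm l b, h.symm l a, h.symm k b]; ring

theorem eq1 {c : Ext E} (hc : IsDeg 1 c) : c = ∑ a, e1 c (e a) • io (t a) :=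
  h.ext1' hc (deg1 t _) fun k => by rw [h.e1_comb, h.p1]

theorem eq2 {c : Ext E} (hc : IsDeg 2 c) :
    c = ∑ a, ∑ b, (1 / 2 * e2 c (e a) (e b)) • (io (t a) * io (t b)) :=
  h.ext2' hc (deg2 t _) fun k l => by
    rw [h.e2_comb]
    have e1' : ∀ k l, ∑ a, P k a * ∑ b, P l b * (1 / 2 * e2 c (e a) (e b))
        = 1 / 2 * e2 c (e k) (e l) := fun k l => by
      rw [← h.p2 c k, mul_sum]
      refine sum_congr rfl fun a _ => ?_
      rw [← h.p2' c l, mul_sum, mul_sum, mul_sum]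
      exact sum_congr rfl fun b _ => by ring
    rw [e1', e1', e2_swap c (e k) (e l)]; ring

end Cf

/-- components of a unit volume form -/
structure Vo (P : ι → ι → ℝ) (o : ι → ι → ι → ι → ℝ) : Prop where
  a1 : ∀ a b c d, o b a c d = -o a b c d
  a2 : ∀ a b c d, o a c b d = -o a b c d
  a3 : ∀ a b c d, o a b d c = -o a b c d
  pr : ∀ a b c d, ∑ k, P a k * o k b c d = o a b c d
  nm : ∑ a, ∑ b, ∑ c, ∑ d, o a b c d ^ 2 = 24

/-- the top functional -/
def ph (e : ι → E) (o : ι → ι → ι → ι → ℝ) (x : Ext E) : ℝ :=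
  1 / 24 * ∑ a, ∑ b, ∑ c, ∑ d, o a b c d * e4 x (e a) (e b) (e c) (e d)

/-- the volume form -/
def vl (t : ι → Dual ℝ E) (o : ι → ι → ι → ι → ℝ) : Ext E :=
  ∑ a, ∑ b, ∑ c, ∑ d, (1 / 24 * o a b c d) • (io (t a) * (io (t b) * (io (t c) * io (t d))))

theorem ph_add (e : ι → E) (o : ι → ι → ι → ι → ℝ) (x y : Ext E) :
    ph e o (x + y) = ph e o x + ph e o y := by
  simp only [ph, e4_add, mul_add, sum_add_distrib]
theorem ph_smul (e : ι → E) (o : ι → ι → ι → ι → ℝ) (r : ℝ) (x : Ext E) :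
    ph e o (r • x) = r * ph e o x := by
  simp only [ph, e4_smul, mul_sum]
  refine sum_congr rfl fun a _ => sum_congr rfl fun b _ => sum_congr rfl fun c _ =>
    sum_congr rfl fun d _ => by ring
theorem ph_sum (e : ι → E) (o : ι → ι → ι → ι → ℝ) {α : Type*} (s : Finset α) (x : α → Ext E) :
    ph e o (∑ i ∈ s, x i) = ∑ i ∈ s, ph e o (x i) := by
  induction s using Finset.cons_induction with
  | empty => simpa using ph_smul e o 0 0
  | cons a s ha ih => rw [sum_cons, sum_cons, ph_add, ih]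

theorem alt2 {o : ι → ι → ℝ} (h : ∀ a b, o b a = -o a b) (f : ι → ι → ℝ) :
    ∑ a, ∑ b, o a b * (f a b - f b a) = 2 * ∑ a, ∑ b, o a b * f a b := by
  have : ∑ a, ∑ b, o a b * f b a = -∑ a, ∑ b, o a b * f a b := by
    rw [sum_comm]
    simp only [← sum_neg_distrib]
    exact sum_congr rfl fun a _ => sum_congr rfl fun b _ => by rw [h, neg_mul]
  simp only [mul_sub, sum_sub_distrib, this]; ring

theorem alt3 {o : ι → ι → ι → ℝ} (h1 : ∀ a b c, o b a c = -o a b c)
    (h2 : ∀ a b c, o a c b = -o a b c) (f : ι → ι → ι → ℝ) :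
    ∑ a, ∑ b, ∑ c, o a b c * (f a b c - f b a c + f c a b)
      = 3 * ∑ a, ∑ b, ∑ c, o a b c * f a b c := by
  have s1 : ∀ g : ι → ι → ι → ℝ, ∑ a, ∑ b, ∑ c, o a b c * g b a c
      = -∑ a, ∑ b, ∑ c, o a b c * g a b c := fun g => by
    rw [sum_comm]
    simp only [← sum_neg_distrib]
    exact sum_congr rfl fun a _ => sum_congr rfl fun b _ => sum_congr rfl fun c _ => by
      rw [h1, neg_mul]
  have s2 : ∀ g : ι → ι → ι → ℝ, ∑ a, ∑ b, ∑ c, o a b c * g a c b
      = -∑ a, ∑ b, ∑ c, o a b c * g a b c := fun g => by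
    simp only [← sum_neg_distrib]
    refine sum_congr rfl fun a _ => ?_
    rw [sum_comm]
    exact sum_congr rfl fun b _ => sum_congr rfl fun c _ => by rw [h2, neg_mul]
  have s3 := s2 fun a b c => f b a c
  simp only [mul_sub, mul_add, sum_sub_distrib, sum_add_distrib]
  rw [s3, s1 f]; ring

theorem alt4 {P : ι → ι → ℝ} {o : ι → ι → ι → ι → ℝ} (h : Vo P o) (f : ι → ι → ι → ι → ℝ) :
    ∑ a, ∑ b, ∑ c, ∑ d, o a b c d * (f a b c d - f b a c d + f c a b d - f d a b c)
      = 4 * ∑ a, ∑ b, ∑ c, ∑ d, o a b c d * f a b c d := by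
  have s1 : ∀ g : ι → ι → ι → ι → ℝ, ∑ a, ∑ b, ∑ c, ∑ d, o a b c d * g b a c d
      = -∑ a, ∑ b, ∑ c, ∑ d, o a b c d * g a b c d := fun g => by
    rw [sum_comm]
    simp only [← sum_neg_distrib]
    exact sum_congr rfl fun a _ => sum_congr rfl fun b _ => sum_congr rfl fun c _ =>
      sum_congr rfl fun d _ => by rw [h.a1, neg_mul]
  have s2 : ∀ g : ι → ι → ι → ι → ℝ, ∑ a, ∑ b, ∑ c, ∑ d, o a b c d * g a c b d
      = -∑ a, ∑ b, ∑ c, ∑ d, o a b c d * g a b c d := fun g => by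
    simp only [← sum_neg_distrib]
    refine sum_congr rfl fun a _ => ?_
    rw [sum_comm]
    exact sum_congr rfl fun b _ => sum_congr rfl fun c _ => sum_congr rfl fun d _ => by
      rw [h.a2, neg_mul]
  have s3 : ∀ g : ι → ι → ι → ι → ℝ, ∑ a, ∑ b, ∑ c, ∑ d, o a b c d * g a b d c
      = -∑ a, ∑ b, ∑ c, ∑ d, o a b c d * g a b c d := fun g => by
    simp only [← sum_neg_distrib]
    refine sum_congr rfl fun a _ => sum_congr rfl fun b _ => ?_
    rw [sum_comm]
    exact sum_congr rfl fun c _ => sum_congr rfl fun d _ => by rw [h.a3, neg_mul]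
  have t2 := s2 fun a b c d => f b a c d
  have t3 := s3 fun a b c d => f c a b d
  simp only [mul_sub, mul_add, sum_sub_distrib, sum_add_distrib]
  rw [t3, t2, s1 f]; ring

namespace Vo

variable {P : ι → ι → ℝ} {o : ι → ι → ι → ι → ℝ} (ho : Vo P o)
include ho

theorem pr2 (a b c d : ι) : ∑ k, P b k * o a k c d = o a b c d := by
  rw [ho.a1 b a, ← ho.pr b a, ← sum_neg_distrib]
  exact sum_congr rfl fun k _ => by rw [ho.a1 k a, mul_neg]

theorem pr3 (a b c d : ι) : ∑ k, P c k * o a b k d = o a b c d := by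
  rw [ho.a2 a c b, ← ho.pr2 a c, ← sum_neg_distrib]
  exact sum_congr rfl fun k _ => by rw [ho.a2 a k b, mul_neg]

theorem pr4 (a b c d : ι) : ∑ k, P d k * o a b c k = o a b c d := by
  rw [ho.a3 a b d c, ← ho.pr3 a b d, ← sum_neg_distrib]
  exact sum_congr rfl fun k _ => by rw [ho.a3 a b k c, mul_neg]

theorem pair (a b c d : ι) : o c d a b = o a b c d := by
  rw [ho.a2 c a d b, ho.a1 a c d b, ho.a3 a c b d, ho.a2 a b c d]; ring

theorem neg : Vo P fun a b c d => -o a b c d :=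
  ⟨fun a b c d => by rw [ho.a1], fun a b c d => by rw [ho.a2], fun a b c d => by rw [ho.a3],
    fun a b c d => by simp only [mul_neg, sum_neg_distrib, ho.pr], by simpa using ho.nm⟩

variable {e : ι → E} {t : ι → Dual ℝ E} (h : Cf e t P)
include h

theorem ph1 (k : ι) (x : Ext E) : ph e o (io (t k) * x)
    = 1 / 6 * ∑ b, ∑ c, ∑ d, o k b c d * e3 x (e b) (e c) (e d) := by
  simp only [ph, e4_io_mul, h.te]
  rw [alt4 ho fun a b c d => P k a * e3 x (e b) (e c) (e d), sum_comm, ← mul_assoc]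
  congr 1
  · norm_num
  refine sum_congr rfl fun b _ => ?_
  rw [sum_comm]
  refine sum_congr rfl fun c _ => ?_
  rw [sum_comm]
  refine sum_congr rfl fun d _ => ?_
  rw [← ho.pr k b c d, sum_mul]
  exact sum_congr rfl fun a _ => by ring

theorem ph2 (k l : ι) (x : Ext E) : ph e o (io (t k) * (io (t l) * x))
    = 1 / 2 * ∑ c, ∑ d, o k l c d * e2 x (e c) (e d) := by
  simp only [ho.ph1 h, e3_io_mul, h.te]
  rw [alt3 (ho.a2 k) (ho.a3 k) fun b c d => P l b * e2 x (e c) (e d), sum_comm, ← mul_assoc]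
  congr 1
  · norm_num
  refine sum_congr rfl fun c _ => ?_
  rw [sum_comm]
  refine sum_congr rfl fun d _ => ?_
  rw [← ho.pr2 k l c d, sum_mul]
  exact sum_congr rfl fun a _ => by ring

theorem ph3 (k l m : ι) (x : Ext E) : ph e o (io (t k) * (io (t l) * (io (t m) * x)))
    = ∑ d, o k l m d * e1 x (e d) := by
  simp only [ho.ph2 h, e2_io_mul, h.te]
  rw [alt2 (ho.a3 k l) fun c d => P m c * e1 x (e d), sum_comm, ← mul_assoc]
  norm_num
  refine sum_congr rfl fun d _ => ?_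
  rw [← ho.pr3 k l m d, sum_mul]
  exact sum_congr rfl fun a _ => by ring

theorem ph4 (k l m n : ι) :
    ph e o (io (t k) * (io (t l) * (io (t m) * io (t n)))) = o k l m n := by
  rw [ho.ph3 h, ← ho.pr4 k l m n]
  exact sum_congr rfl fun d _ => by rw [e1_io, h.te, mul_comm]

theorem ph_vl : ph e o (vl t o) = 1 := by
  simp only [vl, ph_sum, ph_smul, ho.ph4 h, mul_assoc, ← mul_sum, ← sq, ho.nm]
  norm_num

/-- the wedge product of two 2-forms -/
theorem ph_mul {x : Ext E} (hx : IsDeg 2 x) (y : Ext E) : ph e o (x * y)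
    = 1 / 4 * ∑ a, ∑ b, ∑ c, ∑ d, o a b c d * (e2 x (e a) (e b) * e2 y (e c) (e d)) := by
  conv_lhs => rw [h.eq2 hx]
  simp only [sum_mul, smul_mul_assoc, ph_sum, ph_smul, mul_assoc, ho.ph2 h, mul_sum]
  refine sum_congr rfl fun a _ => sum_congr rfl fun b _ => sum_congr rfl fun c _ =>
    sum_congr rfl fun d _ => by ring

/-- the wedge product of a 1-form and a 3-form -/
theorem ph_mul1 {x : Ext E} (hx : IsDeg 1 x) (y : Ext E) : ph e o (x * y)
    = 1 / 6 * ∑ a, ∑ b, ∑ c, ∑ d, o a b c d * (e1 x (e a) * e3 y (e b) (e c) (e d)) := by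
  conv_lhs => rw [h.eq1 hx]
  simp only [sum_mul, smul_mul_assoc, ph_sum, ph_smul, ho.ph1 h, mul_sum]
  refine sum_congr rfl fun a _ => sum_congr rfl fun b _ => sum_congr rfl fun c _ =>
    sum_congr rfl fun d _ => by ring

omit ho in
theorem e4_symm (a b c d k l m n : ι) :
    e4 (io (t a) * (io (t b) * (io (t c) * io (t d)))) (e k) (e l) (e m) (e n)
      = e4 (io (t k) * (io (t l) * (io (t m) * io (t n)))) (e a) (e b) (e c) (e d) := by
  simp only [e4_io_mul, e3_io_mul, e2_io_io, h.te]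
  rw [h.symm k a, h.symm k b, h.symm k c, h.symm k d, h.symm l a, h.symm l b, h.symm l c,
    h.symm l d, h.symm m a, h.symm m b, h.symm m c, h.symm m d, h.symm n a, h.symm n b,
    h.symm n c, h.symm n d]
  ring

theorem e4_vl (k l m n : ι) : e4 (vl t o) (e k) (e l) (e m) (e n) = o k l m n := by
  rw [← ho.ph4 h k l m n, ph, vl]
  simp only [e4_sum, e4_smul, mul_sum]
  refine sum_congr rfl fun a _ => sum_congr rfl fun b _ => sum_congr rfl fun c _ =>
    sum_congr rfl fun d _ => by rw [e4_symm h]; ring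

end Vo

theorem e4_tp (h4 : finrank ℝ E = 4) (s u v w : E) : ∃ r : ℝ, ∀ x : Ext E, e4 x s u v w = r * tp E x := by
  refine ⟨(finBasis ℝ E).det fun i => ![s, u, v, w] (finCongr h4 i), fun x => ?_⟩
  rw [← evA_top, e4, ← Int54.evA_cast h4.symm]

theorem ph_tp (h4 : finrank ℝ E = 4) (e : ι → E) (o : ι → ι → ι → ι → ℝ) :
    ∃ r : ℝ, ∀ x : Ext E, ph e o x = r * tp E x := by
  choose r hr using e4_tp h4
  refine ⟨1 / 24 * ∑ a, ∑ b, ∑ c, ∑ d, o a b c d * r (e a) (e b) (e c) (e d), fun x => ?_⟩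
  simp only [ph, hr, mul_assoc, sum_mul]

theorem Vo.tp_ne (h4 : finrank ℝ E = 4) {P : ι → ι → ℝ} {o : ι → ι → ι → ι → ℝ} (ho : Vo P o)
    {e : ι → E} {t : ι → Dual ℝ E} (h : Cf e t P) : tp E (vl t o) ≠ 0 := by
  obtain ⟨r, hr⟩ := ph_tp h4 e o
  intro h0
  have := ho.ph_vl h
  rw [hr, h0, mul_zero] at this
  exact zero_ne_one this

theorem Vo.tp_div (h4 : finrank ℝ E = 4) {P : ι → ι → ℝ} {o : ι → ι → ι → ι → ℝ} (ho : Vo P o)
    {e : ι → E} {t : ι → Dual ℝ E} (h : Cf e t P) (x : Ext E) :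
    tp E x / tp E (vl t o) = ph e o x := by
  obtain ⟨r, hr⟩ := ph_tp h4 e o
  have h1 := ho.ph_vl h
  rw [hr] at h1
  rw [div_eq_iff (ho.tp_ne h4 h), hr, mul_right_comm, h1, one_mul]

end Crest.Agent.X212.Num57
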