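import Crest.Agent.X212.Num57.Form
import Crest.Agent.X212.Int54.Stokes
import Crest.Agent.X212.Dr59.Coh

/-!
X212 / NUM (helper57), part 7: locality, naturality and the characteristic numbers.

* `c1_congr`, `c2_congr`, `pm_c1`, `pm_c2`, `Co.pm`, `Itw.pm`;
* `integ_c2` : independence of the connection (closed `M`), `integ_c2_rel` (compact support);
* `cw I o T` : the number `∫ tr (T F F)`; `cw_eq`, `cw_iso`, `cw_pm`, `cw_neg`, `cw_add`;
* `tp_c2_pm` : forms pulled back from a manifold of lower dimension have no top part.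
-/

set_option autoImplicit false
set_option linter.unusedSectionVars false

open Set Filter Topology Function Matrix Module
open scoped ContDiff Manifold
open Crest.Agent.R208 Crest.Agent.R208.F Crest.Agent.R208.FI Crest.Agent.X212.Dr59
open Crest.Agent.X212.Int54

noncomputable section

namespace Crest.Agent.X212.Num57

variable {E : Type*} [NormedAddCommGroup E] [NormedSpace ℝ E] [FiniteDimensional ℝ E]
  {H : Type*} [TopologicalSpace H] {I : ModelWithCorners ℝ E H}
  {M : Type*} [TopologicalSpace M] [ChartedSpace H M] [I.Boundaryless] [IsManifold I ∞ M]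
  {E' : Type*} [NormedAddCommGroup E'] [NormedSpace ℝ E'] [FiniteDimensional ℝ E']
  {H' : Type*} [TopologicalSpace H'] {J : ModelWithCorners ℝ E' H'}
  {N : Type*} [TopologicalSpace N] [ChartedSpace H' N] [J.Boundaryless] [IsManifold J ∞ N]
  {κ κ' : Type*} [Fintype κ] [Fintype κ'] [DecidableEq κ] [DecidableEq κ'] {m n : Type*}

/-- evaluation at a point -/
abbrev ea (x : M) : (M → Ext E) →ₐ[ℝ] Ext E := Pi.evalAlgHom ℝ (fun _ : M => Ext E) x

theorem c1_at (C T : Matrix κ κ (M → Ext E)) (x : M) : c1 I C T x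
    = trace (T.map (ea x) * cuP (C.map (ea x)) ((md I C).map (ea x))) := by
  rw [← mp_cuP, ← mp_mul, ← map_tr]; rfl

theorem c2_at (C T : Matrix κ κ (M → Ext E)) (x : M) : c2 I C T x
    = trace (T.map (ea x) * (cuP (C.map (ea x)) ((md I C).map (ea x))
      * cuP (C.map (ea x)) ((md I C).map (ea x)))) := by
  rw [← mp_cuP, ← mp_mul, ← mp_mul, ← map_tr]; rfl

section loc
variable {C C' T T' : Matrix κ κ (M → Ext E)} {x : M}

theorem ea_congr {X Y : Matrix m n (M → Ext E)} (h : ∀ i j, X i j x = Y i j x) :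
    X.map (ea x) = Y.map (ea x) := by
  ext i j; exact h i j

theorem ea_md_congr {X Y : Matrix m n (M → Ext E)} (h : ∀ i j, X i j =ᶠ[𝓝 x] Y i j) :
    (md I X).map (ea x) = (md I Y).map (ea x) := by
  ext i j; exact dM_congr (h i j)

theorem c1_congr (h : ∀ i j, C i j =ᶠ[𝓝 x] C' i j) (hT : ∀ i j, T i j x = T' i j x) :
    c1 I C T x = c1 I C' T' x := by
  rw [c1_at, c1_at, ea_congr hT, ea_md_congr h, ea_congr fun i j => (h i j).self_of_nhds]

theorem c2_congr (h : ∀ i j, C i j =ᶠ[𝓝 x] C' i j) (hT : ∀ i j, T i j x = T' i j x) :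
    c2 I C T x = c2 I C' T' x := by
  rw [c2_at, c2_at, ea_congr hT, ea_md_congr h, ea_congr fun i j => (h i j).self_of_nhds]

theorem tg1_zero (h : ∀ i j, C' i j x = C i j x) : tg1 C C' T x = 0 := by
  have : (C' - C).map (ea x) = 0 := by rw [mp_sub, ea_congr h, sub_self]
  change ea x (trace _) = 0
  rw [map_tr, mp_mul, this, Matrix.mul_zero, trace_zero]

theorem tg2_zero (h : ∀ i j, C' i j x = C i j x) : tg2 I C C' T x = 0 := by
  have : (C' - C).map (ea x) = 0 := by rw [mp_sub, ea_congr h, sub_self]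
  change ea x (trace _) = 0
  rw [map_tr, mp_mul, mp_csP, this, csP]
  simp

theorem c1_add (C T T' : Matrix κ κ (M → Ext E)) : c1 I C (T + T') = c1 I C T + c1 I C T' := by
  simp [c1, add_mul]
theorem c2_add (C T T' : Matrix κ κ (M → Ext E)) : c2 I C (T + T') = c2 I C T + c2 I C T' := by
  simp [c2, add_mul]
theorem c1_smul (C T : Matrix κ κ (M → Ext E)) (r : ℝ) : c1 I C (r • T) = r • c1 I C T := by
  simp [c1]
theorem c2_smul (C T : Matrix κ κ (M → Ext E)) (r : ℝ) : c2 I C (r • T) = r • c2 I C T := by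
  simp [c2]

end loc

section alg
variable {U : Set M} {C : Matrix κ κ (M → Ext E)} {C' : Matrix κ' κ' (M → Ext E)}
  {u u' : Matrix κ' κ (M → Ext E)}

theorem Itw.add (h : Itw I U C C' u) (h' : Itw I U C C' u') : Itw I U C C' (u + u') :=
  ⟨h.sm.add h'.sm, fun i j x hx => by
    rw [Matrix.add_apply, Pi.add_apply, map_add, h.ev i j x hx, h'.ev i j x hx],
    fun i j x hx => by
      have e : md I (u + u') i j x = (md I u + md I u') i j x :=
        dM_add ne0 (h.sm i j x hx) (h'.sm i j x hx)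
      have e1 := h.eq i j x hx
      have e2 := h'.eq i j x hx
      rw [Matrix.mul_add, Matrix.add_mul]
      simp only [Matrix.add_apply, Matrix.sub_apply, Pi.add_apply, Pi.sub_apply, Matrix.zero_apply,
        Pi.zero_apply] at e e1 e2 ⊢
      rw [e, ← add_zero (0 : Ext E)]
      nth_rewrite 1 [← e1]
      rw [← e2]; abel⟩

theorem Itw.smul (r : ℝ) (h : Itw I U C C' u) : Itw I U C C' (r • u) :=
  ⟨h.sm.smul r, fun i j x hx => by
    rw [Matrix.smul_apply, Pi.smul_apply, map_smul, h.ev i j x hx],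
    fun i j x hx => by
      have e : md I (r • u) i j x = r • md I u i j x := dM_smul ne0 r (h.sm i j x hx)
      have e1 := h.eq i j x hx
      rw [Matrix.mul_smul, Matrix.smul_mul]
      simp only [Matrix.add_apply, Matrix.sub_apply, Pi.add_apply, Pi.sub_apply, Matrix.zero_apply,
        Pi.zero_apply, Matrix.smul_apply, Pi.smul_apply] at e e1 ⊢
      rw [e, ← smul_add, ← smul_sub, e1, smul_zero]⟩

theorem Itw.congr (hU : IsOpen U) (h : Itw I U C C' u) (e : EqO U u' u) : Itw I U C C' u' := by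
  have ev : ∀ i j, ∀ x ∈ U, u' i j =ᶠ[𝓝 x] u i j := fun i j x hx =>
    mem_of_superset (hU.mem_nhds hx) fun y hy => e i j y hy
  refine ⟨fun i j x hx => (h.sm i j x hx).congr (ev i j x hx), fun i j x hx => by
    rw [e i j x hx, h.ev i j x hx], fun i j x hx => ?_⟩
  rw [← h.eq i j x hx]
  have : (md I u' + C' * u' - u' * C).map (ea x) = (md I u + C' * u - u * C).map (ea x) := by
    simp only [mp_sub, mp_add, mp_mul]
    rw [ea_md_congr fun i j => ev i j x hx, ea_congr fun i j => e i j x hx]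
  exact congrFun (congrFun this i) j

end alg

/-! ### pull-back -/

variable (J I) in
/-- pull-back as an algebra map -/
def pa (f : N → M) : (M → Ext E) →ₐ[ℝ] (N → Ext E') :=
  AlgHom.ofLinearMap
    { toFun := pm J I f, map_add' := pm_add f, map_smul' := pm_smul f }
    (funext fun _ => map_one (pb _)) (pm_mul f)

theorem pa_apply (f : N → M) (a : M → Ext E) : pa I J f a = pm J I f a := rfl

section pull
variable {f : N → M} {W : Set N} {U : Set M} {y : N}

theorem MS.pm {X : Matrix m n (M → Ext E)} (h : MS I U X) (hf : Mp J I W U f) :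
    MS J W (X.map (pa I J f)) := fun i j y hy => SmAt.pm (hf.sm y hy) (h i j _ (hf.maps hy))

theorem md_pm {X : Matrix m n (M → Ext E)} (hf : ContMDiffAt J I ∞ f y)
    (h : ∀ i j, SmAt I (X i j) (f y)) :
    (md J (X.map (pa I J f))).map (ea y) = ((md I X).map (pa I J f)).map (ea y) := by
  ext i j; exact dM_pm ne0 hf (h i j)

theorem pm_c1 {C : Matrix κ κ (M → Ext E)} (T : Matrix κ κ (M → Ext E))
    (hf : ContMDiffAt J I ∞ f y) (h : ∀ i j, SmAt I (C i j) (f y)) :
    c1 J (C.map (pa I J f)) (T.map (pa I J f)) y = pm J I f (c1 I C T) y := by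
  rw [c1_at, md_pm hf h, ← mp_cuP, ← mp_mul, ← map_tr, ← mp_cuP, ← mp_mul, ← map_tr]; rfl

theorem pm_c2 {C : Matrix κ κ (M → Ext E)} (T : Matrix κ κ (M → Ext E))
    (hf : ContMDiffAt J I ∞ f y) (h : ∀ i j, SmAt I (C i j) (f y)) :
    c2 J (C.map (pa I J f)) (T.map (pa I J f)) y = pm J I f (c2 I C T) y := by
  rw [c2_at, md_pm hf h, ← mp_cuP, ← mp_mul, ← mp_mul, ← map_tr, ← mp_cuP, ← mp_mul, ← mp_mul,
    ← map_tr]; rfl

theorem Ev.pm {X : Matrix m n (M → Ext E)} (h : Ev U X) (hf : MapsTo f W U) :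
    Ev W (X.map (pa I J f)) := fun i j y hy => by
  change F.inv (pb _ _) = pb _ _
  rw [← pb_inv, h i j _ (hf hy)]

theorem Od.pm {X : Matrix m n (M → Ext E)} (h : Od U X) (hf : MapsTo f W U) :
    Od W (X.map (pa I J f)) := fun i j y hy => by
  change F.inv (pb _ _) = -pb _ _
  rw [← pb_inv, h i j _ (hf hy), map_neg]

theorem EqO.pm {X Y : Matrix m n (M → Ext E)} (h : EqO U X Y) (hf : MapsTo f W U) :
    EqO W (X.map (pa I J f)) (Y.map (pa I J f)) := fun i j _ hy => pm_congr_right (h i j _ (hf hy))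

theorem Co.pm {C : Matrix κ κ (M → Ext E)} (h : Co I U C) (hf : Mp J I W U f) :
    Co J W (C.map (pa I J f)) := ⟨h.sm.pm hf, h.od.pm hf.maps⟩

theorem Itw.pm {C : Matrix κ κ (M → Ext E)} {C' : Matrix κ' κ' (M → Ext E)}
    {u : Matrix κ' κ (M → Ext E)} (h : Itw I U C C' u) (hf : Mp J I W U f) :
    Itw J W (C.map (pa I J f)) (C'.map (pa I J f)) (u.map (pa I J f)) := by
  refine ⟨h.sm.pm hf, h.ev.pm hf.maps, fun i j y hy => ?_⟩
  have e := h.eq.pm (J := J) (I := I) hf.maps i j y hy
  rw [mp_zero] at e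
  rw [← e]
  have : (md J (u.map (pa I J f)) + C'.map (pa I J f) * u.map (pa I J f)
      - u.map (pa I J f) * C.map (pa I J f)).map (ea y)
      = ((md I u + C' * u - u * C).map (pa I J f)).map (ea y) := by
    simp only [mp_sub, mp_add, mp_mul]
    rw [md_pm (hf.sm y hy) fun i j => h.sm i j _ (hf.maps hy)]
  exact congrFun (congrFun this i) j

/-- a form pulled back through a map of rank less than the dimension has no top part -/
theorem tp_pm_lt (h : finrank ℝ E < finrank ℝ E') (f : N → M) (a : M → Ext E) (y : N) :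
    tp E' (pm J I f a y) = 0 := by
  rw [tp_apply, pm_apply, evA_pb]
  apply AlternatingMap.map_linearDependent
  intro hl
  have := hl.fintype_card_le_finrank
  rw [Fintype.card_fin] at this
  omega

theorem tp_c2_pm (h : finrank ℝ E < finrank ℝ E') {C : Matrix κ κ (M → Ext E)}
    (T : Matrix κ κ (M → Ext E)) (hf : ContMDiffAt J I ∞ f y) (hC : ∀ i j, SmAt I (C i j) (f y)) :
    tp E' (c2 J (C.map (pa I J f)) (T.map (pa I J f)) y) = 0 := by
  rw [pm_c2 T hf hC, tp_pm_lt h]

end pull

/-! ### numbers -/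

variable [MeasurableSpace E] [BorelSpace E] [MeasurableSpace M] [BorelSpace M]
  [SecondCountableTopology M] [T2Space M]
  [MeasurableSpace E'] [BorelSpace E'] [MeasurableSpace N] [BorelSpace N]
  [SecondCountableTopology N] [T2Space N]

section num
variable {o : M → Ext E} {C C₁ T T₁ : Matrix κ κ (M → Ext E)}

theorem c0 {a : M → Ext E} (h : ∀ x, SmAt I a x) (x : M) : CAt I 0 a x := (h x).of_le (by simp)

/-- a compactly supported change of the connection -/
theorem integ_c2_rel (ho : Ori I o) (hC : Co I univ C) (hC₁ : Co I univ C₁) (h : Pa I univ C T)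
    (h₁ : Pa I univ C₁ T) {K : Set M} (hK : IsCompact K) (e : EqO Kᶜ C₁ C) :
    integ I o (c2 I C₁ T - c2 I C T) = 0 := by
  have e1 : c2 I C₁ T - c2 I C T = dM I (tg2 I C C₁ T) := funext fun x => by
    rw [Pi.sub_apply, c2_sub isOpen_univ hC hC₁ h h₁ (mem_univ x), add_sub_cancel_left]
  rw [e1]
  exact stokes_sm ho (fun x => hC.sm.tg2 hC₁.sm h.sm (mem_univ x))
    (HasCompactSupport.intro hK fun x hx => tg2_zero fun i j => e i j x hx)

variable [CompactSpace M]

theorem intOn_c2 (ho : Ori I o) (hC : MS I univ C) (hT : MS I univ T) (s : Set M) :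
    IntOn I o (c2 I C T) s := ho.intOn (c0 fun x => hC.c2 hT (mem_univ x)) s

/-- **independence of the connection** -/
theorem integ_c2 (ho : Ori I o) (hC : Co I univ C) (hC₁ : Co I univ C₁) (h : Pa I univ C T)
    (h₁ : Pa I univ C₁ T) : integ I o (c2 I C₁ T) = integ I o (c2 I C T) := by
  rw [← sub_eq_zero, ← integ_sub (intOn_c2 ho hC₁.sm h.sm _) (intOn_c2 ho hC.sm h.sm _)]
  exact integ_c2_rel ho hC hC₁ h h₁ isCompact_univ fun _ _ _ hx => (hx (mem_univ _)).elim

/-- the pairing of the first form with a closed even form -/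
theorem integ_c1_mul (ho : Ori I o) (hC : Co I univ C) (hC₁ : Co I univ C₁) (h : Pa I univ C T)
    (h₁ : Pa I univ C₁ T) {b : M → Ext E} (hb : ∀ x, SmAt I b x) (hd : ∀ x, dM I b x = 0) :
    integ I o (c1 I C₁ T * b) = integ I o (c1 I C T * b) := by
  have s := fun x => hC.sm.tg1 hC₁.sm h.sm (mem_univ x)
  have e1 : c1 I C₁ T * b = c1 I C T * b + dM I (tg1 C C₁ T * b) := funext fun x => by
    rw [Pi.add_apply, dM_mul ne0 (s x) (hb x), hd, mul_zero, add_zero, Pi.mul_apply,
      c1_sub isOpen_univ hC hC₁ h h₁ (mem_univ x), add_mul, Pi.mul_apply]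
  rw [e1, integ_add (ho.intOn (c0 fun x => (hC.sm.c1 h.sm (mem_univ x)).mul (hb x)) _)
    (ho.intOn (c0 fun x => SmAt.dM ((s x).mul (hb x))) _),
    stokes_closed ho fun x => (s x).mul (hb x), add_zero]

omit [CompactSpace M] in
variable (I) in
/-- `T` is parallel for some connection -/
def HasC (T : Matrix κ κ (M → Ext E)) : Prop := ∃ C, Co I univ C ∧ Pa I univ C T

omit [CompactSpace M] in
variable (I) in
open Classical in
/-- the characteristic number `∫ tr (T F F)` -/
def cw (o : M → Ext E) (T : Matrix κ κ (M → Ext E)) : ℝ :=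
  if h : HasC I T then integ I o (c2 I h.choose T) else 0

theorem cw_eq (ho : Ori I o) (hC : Co I univ C) (h : Pa I univ C T) :
    cw I o T = integ I o (c2 I C T) := by
  have h' : HasC I T := ⟨C, hC, h⟩
  rw [cw, dif_pos h']
  exact integ_c2 ho hC h'.choose_spec.1 h h'.choose_spec.2

omit [CompactSpace M] in
theorem cw_neg (o : M → Ext E) (T : Matrix κ κ (M → Ext E)) : cw I (-o) T = -cw I o T := by
  unfold cw
  split_ifs
  · exact integ_neg_ori _ _
  · simp

omit [CompactSpace M] in
theorem cw_ori {o' : M → Ext E} (ho : Ori I o) (ho' : Ori I o') (h : SameOn o o' univ)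
    (T : Matrix κ κ (M → Ext E)) : cw I o T = cw I o' T := by
  unfold cw
  split_ifs
  · exact integ_congr_ori ho ho' h _
  · rfl

theorem cw_add (ho : Ori I o) (hC : Co I univ C) (h : Pa I univ C T) (h₁ : Pa I univ C T₁) :
    cw I o (T + T₁) = cw I o T + cw I o T₁ := by
  rw [cw_eq ho hC h, cw_eq ho hC h₁, cw_eq ho hC (h.add h₁), c2_add,
    integ_add (intOn_c2 ho hC.sm h.sm _) (intOn_c2 ho hC.sm h₁.sm _)]

theorem cw_smul (ho : Ori I o) (hC : Co I univ C) (h : Pa I univ C T) (r : ℝ) :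
    cw I o (r • T) = r * cw I o T := by
  rw [cw_eq ho hC h, cw_eq ho hC (h.smul r), c2_smul, integ_smul]

/-- **invariance under isomorphisms**: `v u` is a parallel projector under which `T` lies -/
theorem cw_iso (ho : Ori I o) (hC : Co I univ C) (h : Pa I univ C T)
    {u : Matrix κ' κ (M → Ext E)} {v : Matrix κ κ' (M → Ext E)} (hu : MS I univ u)
    (hv : MS I univ v) (eu : Ev univ u) (ev : Ev univ v) (hp : Pa I univ C (v * u))
    (h1 : u * (v * u) = u) (h2 : v * u * v = v) (h3 : T * (v * u) = T) :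
    cw I o (u * T * v) = cw I o T := by
  have hC' := tpt_co isOpen_univ hC hu hv eu ev
  have iu := tpt_u isOpen_univ hC.sm hu hv eu ev hp fun i j x _ => by rw [h1]
  have iv := tpt_v isOpen_univ hC.sm hu hv ev hp fun i j x _ => by rw [h2]
  rw [cw_eq ho hC h, cw_eq ho hC' (Itw.mul isOpen_univ hC'.sm hC.sm hC'.sm
    (Itw.mul isOpen_univ hC.sm hC.sm hC'.sm iu h) iv)]
  congr 1
  funext x
  exact Itw.tr2 isOpen_univ hC hC'.sm iu iv h.sm (fun i j x _ => by rw [h3]) (mem_univ x)

/-- **invariance under orientation preserving diffeomorphisms** -/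
theorem cw_pm [CompactSpace N] (hd : finrank ℝ E = finrank ℝ E') {o' : N → Ext E'} (ho : Ori I o)
    (ho' : Ori J o') {f : N → M} (hf : ContMDiff J I ∞ f) (hb : Bijective f)
    (hp : SameOn o' (pm J I f o) univ) (h : HasC I T) :
    cw J o' (T.map (pa I J f)) = cw I o T := by
  obtain ⟨C, hC, h⟩ := h
  have mp : Mp J I univ univ f := Mp.of_contMDiff hf (mapsTo_univ _ _)
  rw [cw_eq ho hC h, cw_eq ho' (hC.pm mp) (h.pm mp), integ_bij hd ho ho' hf hb hp]
  congr 1
  funext y
  exact pm_c2 T (hf y) fun i j => hC.sm i j _ (mem_univ _)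

/-- the number vanishes for data pulled back from a lower dimension -/
theorem cw_pm_lt [CompactSpace N] (hd : finrank ℝ E < finrank ℝ E') {o' : N → Ext E'}
    (ho' : Ori J o') {f : N → M} (hf : ContMDiff J I ∞ f) (h : HasC I T) :
    cw J o' (T.map (pa I J f)) = 0 := by
  obtain ⟨C, hC, h⟩ := h
  have mp : Mp J I univ univ f := Mp.of_contMDiff hf (mapsTo_univ _ _)
  rw [cw_eq ho' (hC.pm mp) (h.pm mp), integ_congr (b := 0) fun y => by
    rw [tp_c2_pm hd T (hf y) fun i j => hC.sm i j _ (mem_univ _)]; simp]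
  simp [integ]

omit [CompactSpace M] in
theorem hasC_idem (hT : MS I univ T) (eT : Ev univ T) (h : T * T = T) : HasC I T :=
  ⟨gr I T, gr_co isOpen_univ hT eT, gr_pa isOpen_univ hT eT fun i j x _ => by rw [h]⟩

end num

end Crest.Agent.X212.Num57
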