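import Crest.Agent.X212.Num57.Cof
import Crest.Agent.X212.Num57.Nat
import Crest.Agent.X212.Int54.Link

/-!
X212 / NUM (helper57), part 8: connections in frame components (`Wz78`) as matrices of forms.

* `mx T` : matrix of a linear map;  `f0 T` : a field of linear maps as a matrix of 0-forms;
* `cn F A` : the matrix of one-forms of the connection `A`;  `k2_cu : components of cu = curv`;
* `itw_cn` : parallel maps are intertwiners;
* `cwd F o T A` : the density `∑ o_abcd tr (T F_ab F_cd)`;  `rat_c2 : rat (vol F o) (c2 ..) = cwd / 4`.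
-/

set_option autoImplicit false
set_option linter.unusedSectionVars false

open Finset Module Filter Topology Matrix
open scoped Manifold ContDiff
open Crest.Agent.R208 Crest.Agent.R208.F Crest.Agent.R208.FI Crest.Agent.X212.Dr59
open Crest.Agent.X212.Int54 Crest.Agent.X212.An Crest.Agent.X212.Sob92
open Crest.Agent.X212.Wz78 (SA frm frPr curv)

noncomputable section

namespace Crest.Agent.X212.Num57

section lin
variable {V W X : Type} [NormedAddCommGroup V] [NormedSpace ℝ V] [FiniteDimensional ℝ V]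
  [NormedAddCommGroup W] [NormedSpace ℝ W] [FiniteDimensional ℝ W]
  [NormedAddCommGroup X] [NormedSpace ℝ X] [FiniteDimensional ℝ X]

/-- index type of the chosen basis -/
abbrev Ix (V : Type) [NormedAddCommGroup V] [NormedSpace ℝ V] : Type := Fin (finrank ℝ V)

/-- the matrix of a linear map -/
def mx (T : V →L[ℝ] W) : Matrix (Ix W) (Ix V) ℝ :=
  LinearMap.toMatrix (finBasis ℝ V) (finBasis ℝ W) (T : V →ₗ[ℝ] W)

/-- a matrix entry, as a continuous functional -/
def en (i : Ix W) (j : Ix V) : (V →L[ℝ] W) →L[ℝ] ℝ := LinearMap.toContinuousLinearMap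
  { toFun := fun T => mx T i j
    map_add' := fun S T => by simp [mx]
    map_smul' := fun r T => by simp [mx] }

theorem en_apply (i : Ix W) (j : Ix V) (T : V →L[ℝ] W) : en i j T = mx T i j := rfl

theorem mx_comp (S : W →L[ℝ] X) (T : V →L[ℝ] W) : mx (S ∘L T) = mx S * mx T :=
  LinearMap.toMatrix_comp _ _ _ _ _

theorem mx_mul (S T : V →L[ℝ] V) : mx (S * T) = mx S * mx T := mx_comp S T

theorem mx_one : mx (1 : V →L[ℝ] V) = 1 := LinearMap.toMatrix_id _

theorem mx_add (S T : V →L[ℝ] W) : mx (S + T) = mx S + mx T := by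
  ext i j; exact map_add (en i j) S T
theorem mx_sub (S T : V →L[ℝ] W) : mx (S - T) = mx S - mx T := by
  ext i j; exact map_sub (en i j) S T
theorem mx_smul (r : ℝ) (T : V →L[ℝ] W) : mx (r • T) = r • mx T := by
  ext i j; exact map_smul (en i j) r T
theorem mx_zero : mx (0 : V →L[ℝ] W) = 0 := by
  ext i j; exact map_zero (en i j)

/-- the trace -/
def tr (T : V →L[ℝ] V) : ℝ := LinearMap.trace ℝ V (T : V →ₗ[ℝ] V)

theorem tr_mx (T : V →L[ℝ] V) : tr T = trace (mx T) :=
  LinearMap.trace_eq_matrix_trace ℝ (finBasis ℝ V) _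

end lin

variable {E : Type} [NormedAddCommGroup E] [NormedSpace ℝ E] [FiniteDimensional ℝ E]
  [MeasurableSpace E] [BorelSpace E]
  {HM : Type} [TopologicalSpace HM] {I : ModelWithCorners ℝ E HM} [I.Boundaryless]
  {M : Type} [TopologicalSpace M] [ChartedSpace HM M] [IsManifold I ∞ M]
  [MeasurableSpace M] [BorelSpace M] [SecondCountableTopology M] {ι : Type} [Fintype ι]
  {V W X : Type} [NormedAddCommGroup V] [NormedSpace ℝ V] [FiniteDimensional ℝ V]
  [NormedAddCommGroup W] [NormedSpace ℝ W] [FiniteDimensional ℝ W]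
  [NormedAddCommGroup X] [NormedSpace ℝ X] [FiniteDimensional ℝ X]

section f0
variable {κ m n : Type} [Fintype κ]

variable (E) in
/-- a field of real matrices as a matrix of forms of degree zero -/
def fz (T : M → Matrix m n ℝ) : Matrix m n (M → Ext E) := Matrix.of fun i j => fn E fun x => T x i j

theorem fz_mul (S : M → Matrix m κ ℝ) (T : M → Matrix κ n ℝ) :
    fz E (fun x => S x * T x) = fz E S * fz E T := by
  ext i j x
  simp [fz, fn, Matrix.mul_apply, Finset.sum_apply, map_sum]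

theorem fz_add (S T : M → Matrix m n ℝ) : fz E (fun x => S x + T x) = fz E S + fz E T := by
  ext i j x; simp [fz, fn]
theorem fz_sub (S T : M → Matrix m n ℝ) : fz E (fun x => S x - T x) = fz E S - fz E T := by
  ext i j x; simp [fz, fn]
theorem fz_smul (r : ℝ) (T : M → Matrix m n ℝ) : fz E (fun x => r • T x) = r • fz E T := by
  ext i j x; simp [fz, fn, Algebra.smul_def]
theorem fz_one [DecidableEq κ] : fz E (fun _ : M => (1 : Matrix κ κ ℝ)) = 1 := by
  ext i j x
  by_cases h : i = j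
  · subst h; simp [fz, fn]
  · simp [fz, fn, Matrix.one_apply_ne h]

theorem fz_ev (U : Set M) (T : M → Matrix m n ℝ) : Ev U (fz E T) :=
  fun _ _ _ _ => AlgHom.commutes _ _

theorem fz_ms {U : Set M} {T : M → Matrix m n ℝ} (h : ∀ i j, ∀ x ∈ U, SA I (fun x => T x i j) x) :
    MS I U (fz E T) := fun i j x hx => cAt_fn le_rfl (h i j x hx)

theorem fz_congr {U : Set M} {S T : M → Matrix m n ℝ} (h : ∀ x ∈ U, S x = T x) :
    EqO U (fz E S) (fz E T) := fun i j x hx => by simp [fz, fn, h x hx]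

theorem fz_pa {E' : Type} [NormedAddCommGroup E'] [NormedSpace ℝ E'] [FiniteDimensional ℝ E']
    {H' : Type} [TopologicalSpace H'] {J : ModelWithCorners ℝ E' H'}
    {N : Type} [TopologicalSpace N] [ChartedSpace H' N] (f : N → M) (T : M → Matrix m n ℝ) :
    (fz E T).map (pa I J f) = fz E' fun y => T (f y) := by
  ext i j y
  exact congrFun (pm_fn f fun x => T x i j) y

end f0

variable (E) in
/-- a field of linear maps as a matrix of forms of degree zero -/
def f0 (T : M → V →L[ℝ] W) : Matrix (Ix W) (Ix V) (M → Ext E) := fz E fun x => mx (T x)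

theorem f0_comp (S : M → W →L[ℝ] X) (T : M → V →L[ℝ] W) :
    f0 E (fun x => S x ∘L T x) = f0 E S * f0 E T := by
  simp only [f0, mx_comp, fz_mul]
theorem f0_mul (S T : M → V →L[ℝ] V) : f0 E (fun x => S x * T x) = f0 E S * f0 E T := f0_comp S T
theorem f0_add (S T : M → V →L[ℝ] W) : f0 E (fun x => S x + T x) = f0 E S + f0 E T := by
  simp only [f0, mx_add, fz_add]
theorem f0_sub (S T : M → V →L[ℝ] W) : f0 E (fun x => S x - T x) = f0 E S - f0 E T := by
  simp only [f0, mx_sub, fz_sub]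
theorem f0_smul (r : ℝ) (T : M → V →L[ℝ] W) : f0 E (fun x => r • T x) = r • f0 E T := by
  simp only [f0, mx_smul, fz_smul]
theorem f0_ev (U : Set M) (T : M → V →L[ℝ] W) : Ev U (f0 E T) := fz_ev U _
theorem sa_en {T : M → V →L[ℝ] W} {x : M} (h : SA I T x) (i : Ix W) (j : Ix V) :
    SA I (fun x => mx (T x) i j) x := (en i j).contDiff.contMDiff.contMDiffAt.comp x h
theorem f0_ms {U : Set M} {T : M → V →L[ℝ] W} (h : ∀ x ∈ U, SA I T x) : MS I U (f0 E T) :=
  fz_ms fun i j x hx => sa_en (h x hx) i j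
theorem f0_congr {U : Set M} {S T : M → V →L[ℝ] W} (h : ∀ x ∈ U, S x = T x) :
    EqO U (f0 E S) (f0 E T) := fz_congr fun x hx => by rw [h x hx]

variable (F : Fr I M ι)

/-- the matrix of one-forms of a connection -/
def cn (A : ι → M → V →L[ℝ] V) : Matrix (Ix V) (Ix V) (M → Ext E) :=
  Matrix.of fun i j => fm1 F fun a x => mx (A a x) i j

theorem cn_deg (A : ι → M → V →L[ℝ] V) (i j : Ix V) (x : M) : IsDeg 1 (cn F A i j x) :=
  deg_fm1 F _ x

theorem cn_co {U : Set M} {A : ι → M → V →L[ℝ] V} (h : ∀ a, ∀ x ∈ U, SA I (A a) x) :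
    Co I U (cn F A) :=
  ⟨fun i j x hx => smAt_fm1 F fun a => sa_en (h a x hx) i j, fun i j x _ => by
    rw [inv_of_deg (cn_deg F A i j x)]; simp⟩

theorem k1_cn {A : ι → M → V →L[ℝ] V} {x : M} (h : ∀ a, ∑ b, F.P a b x • A b x = A a x)
    (i j : Ix V) (a : ι) : k1 F (cn F A i j) a x = mx (A a x) i j := by
  rw [cn, Matrix.of_apply, k1_fm1, ← h a, ← en_apply, map_sum]
  exact sum_congr rfl fun b _ => by rw [map_smul]; rfl

theorem e2_mul {u v : Ext E} (hu : IsDeg 1 u) (x : M) (a b : ι) :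
    e2 (u * v) (ee F x a) (ee F x b)
      = e1 u (ee F x a) * e1 v (ee F x b) - e1 u (ee F x b) * e1 v (ee F x a) := by
  conv_lhs => rw [(cf F x).eq1 hu]
  simp only [sum_mul, smul_mul_assoc, e2_sum, e2_smul, e2_io_mul, (cf F x).te]
  simp only [mul_sub, sum_sub_distrib, ← mul_assoc, ← sum_mul]
  have h : ∀ a, ∑ i, e1 u (ee F x i) * F.P i a x = e1 u (ee F x a) := fun a => by
    rw [← (cf F x).p1 u a]
    exact sum_congr rfl fun i _ => by rw [F.P_symm i a, mul_comm]
  rw [h, h]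

theorem e1_fn_mul (r : ℝ) (v : Ext E) (w : E) : e1 (algebraMap ℝ (Ext E) r * v) w = r * e1 v w := by
  rw [← Algebra.smul_def, e1_smul]

theorem e1_mul_fn (r : ℝ) (v : Ext E) (w : E) : e1 (v * algebraMap ℝ (Ext E) r) w = e1 v w * r := by
  rw [← Algebra.commutes, e1_fn_mul, mul_comm]

theorem deg_cu (A : ι → M → V →L[ℝ] V) (i j : Ix V) (x : M) : IsDeg 2 (cu I (cn F A) i j x) := by
  refine IsDeg.add (isDeg_dM (.of_forall fun y => cn_deg F A i j y)) ?_
  rw [Matrix.mul_apply, Finset.sum_apply]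
  exact IsDeg.sum _ fun k _ => T.isDeg_mul (cn_deg F A i k x) (cn_deg F A k j x)

/-- **the curvature in components** -/
theorem k2_cu {A : ι → M → V →L[ℝ] V} {x : M} (hs : ∀ a, SA I (A a) x)
    (h : ∀ᶠ y in 𝓝 x, ∀ a, ∑ b, F.P a b y • A b y = A a y) (i j : Ix V) (a b : ι) :
    k2 F (cu I (cn F A) i j) a b x = mx (curv I F.e F.c A a b x) i j := by
  have h0 := h.self_of_nhds
  have e : ∀ a, k1 F (cn F A i j) a =ᶠ[𝓝 x] fun y => en i j (A a y) := fun a =>
    h.mono fun y hy => k1_cn F hy i j a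
  have h1 := k2_dM_fm1 F (α := fun a x => mx (A a x) i j) (fun a => sa_en (hs a) i j) a b
  change k2 F (dM I (cn F A i j)) a b x = F.D a (k1 F (cn F A i j) b) x
    - F.D b (k1 F (cn F A i j) a) x - ∑ k, F.c a b k x * k1 F (cn F A i j) k x at h1
  rw [Pre.D_def, Pre.D_def, dv_congr (e b), dv_congr (e a), dv_clm _ (hs b).md,
    dv_clm _ (hs a).md] at h1
  have h2 : k2 F ((cn F A * cn F A) i j) a b x = mx (A a x * A b x - A b x * A a x) i j := by
    rw [k2, Matrix.mul_apply, Finset.sum_apply, e2_sum, mx_sub, mx_mul, mx_mul, Matrix.sub_apply,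
      Matrix.mul_apply, Matrix.mul_apply, ← sum_sub_distrib]
    refine sum_congr rfl fun k _ => ?_
    rw [Pi.mul_apply, e2_mul F (cn_deg F A i k x), ← k1_cn F h0, ← k1_cn F h0, ← k1_cn F h0,
      ← k1_cn F h0]
    rfl
  have h3 : k2 F (cu I (cn F A) i j) a b x
      = k2 F (dM I (cn F A i j)) a b x + k2 F ((cn F A * cn F A) i j) a b x := e2_add _ _ _ _
  rw [h3, h1, h2, ← en_apply, ← en_apply, curv]
  simp only [map_sub, map_add, map_sum, map_smul, k1_cn F h0, en_apply, smul_eq_mul]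
  ring

/-- parallel maps are intertwiners -/
theorem itw_cn {U : Set M} {A : ι → M → V →L[ℝ] V} {A' : ι → M → W →L[ℝ] W} {u : M → V →L[ℝ] W}
    (hA : ∀ x ∈ U, ∀ a, ∑ b, F.P a b x • A b x = A a x)
    (hA' : ∀ x ∈ U, ∀ a, ∑ b, F.P a b x • A' b x = A' a x) (hu : ∀ x ∈ U, SA I u x)
    (h : ∀ x ∈ U, ∀ a, F.D a u x + A' a x ∘L u x - u x ∘L A a x = 0) :
    Itw I U (cn F A) (cn F A') (f0 E u) := by
  refine ⟨f0_ms hu, f0_ev U u, fun i j x hx => ?_⟩
  have d1 : md I (f0 E u) i j x = df I (fun y => en i j (u y)) x := dM_fn (sa_en (hu x hx) i j).md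
  have dg : IsDeg 1 ((md I (f0 E u) + cn F A' * f0 E u - f0 E u * cn F A) i j x) := by
    simp only [Matrix.sub_apply, Matrix.add_apply, Pi.sub_apply, Pi.add_apply, Matrix.mul_apply,
      Finset.sum_apply, Pi.mul_apply, d1, sub_eq_add_neg]
    refine ((isDeg_io _).add (IsDeg.sum _ fun k _ => ?_)).add ?_
    · exact T.isDeg_mul (cn_deg F A' i k x) (isDeg_alg _)
    · rw [← neg_one_smul ℝ]
      exact (IsDeg.sum _ fun k _ => T.isDeg_mul (isDeg_alg _) (cn_deg F A k j x)).smul _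
  refine (cf F x).ext1' dg IsDeg.zero fun a => ?_
  have e := congrArg (en i j) (h x hx a)
  rw [map_sub, map_add, map_zero, en_apply _ _ (_ ∘L _), en_apply _ _ (_ ∘L _), mx_comp, mx_comp,
    Pre.D_def, ← dv_clm _ (hu x hx).md] at e
  simp only [Matrix.sub_apply, Matrix.add_apply, Pi.sub_apply, Pi.add_apply, Matrix.mul_apply,
    Finset.sum_apply, Pi.mul_apply, d1, e1_sub, e1_add, e1_sum] at e ⊢
  rw [show e1 ((0 : Matrix (Ix W) (Ix V) (M → Ext E)) i j x) (ee F x a) = 0 from by simp [e1], ← e]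
  congr 1
  · congr 1
    · exact e1_io _ _
    · refine sum_congr rfl fun k _ => ?_
      rw [← k1_cn F (hA' x hx)]
      exact e1_mul_fn _ _ _
  · refine sum_congr rfl fun k _ => ?_
    rw [← k1_cn F (hA x hx)]
    exact e1_fn_mul _ _ _

theorem pa_cn {U : Set M} {A : ι → M → V →L[ℝ] V} {T : M → V →L[ℝ] V}
    (hA : ∀ x ∈ U, ∀ a, ∑ b, F.P a b x • A b x = A a x) (hT : ∀ x ∈ U, SA I T x)
    (h : ∀ x ∈ U, ∀ a, F.D a T x + (A a x * T x - T x * A a x) = 0) :
    Pa I U (cn F A) (f0 E T) :=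
  itw_cn F hA hA hT fun x hx a => by rw [← h x hx a, add_sub_assoc]; rfl

/-- components of the first form -/
theorem k2_c1 {A : ι → M → V →L[ℝ] V} {x : M} (hs : ∀ a, SA I (A a) x)
    (h : ∀ᶠ y in 𝓝 x, ∀ a, ∑ b, F.P a b y • A b y = A a y) (T : M → V →L[ℝ] V) (a b : ι) :
    k2 F (c1 I (cn F A) (f0 E T)) a b x = tr (T x * curv I F.e F.c A a b x) := by
  rw [tr_mx, mx_mul, k2, c1, trace, trace, Finset.sum_apply, e2_sum]
  refine sum_congr rfl fun i _ => ?_
  rw [diag_apply, diag_apply, Matrix.mul_apply, Matrix.mul_apply, Finset.sum_apply, e2_sum]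
  refine sum_congr rfl fun j _ => ?_
  rw [← k2_cu F hs h, Pi.mul_apply]
  change e2 (algebraMap ℝ (Ext E) _ * _) _ _ = _
  rw [← Algebra.smul_def, e2_smul]; rfl

theorem deg_c1 (A : ι → M → V →L[ℝ] V) (T : M → V →L[ℝ] V) (x : M) :
    IsDeg 2 (c1 I (cn F A) (f0 E T) x) := by
  rw [c1, trace, Finset.sum_apply]
  refine IsDeg.sum _ fun i _ => ?_
  rw [diag_apply, Matrix.mul_apply, Finset.sum_apply]
  exact IsDeg.sum _ fun j _ => R208.T.isDeg_mul (isDeg_alg _) (deg_cu F A j i x)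

/-- the Chern-Weil density -/
def cwd (o : ι → ι → ι → ι → M → ℝ) (T : M → V →L[ℝ] V) (A : ι → M → V →L[ℝ] V) (x : M) : ℝ :=
  ∑ a, ∑ b, ∑ c, ∑ d, o a b c d x * tr (T x * curv I F.e F.c A a b x * curv I F.e F.c A c d x)

/-- **the second form in components** -/
theorem rat_c2 (h4 : finrank ℝ E = 4) {o : ι → ι → ι → ι → M → ℝ} {x : M}
    (ho : Vo (fun a b => F.P a b x) fun a b c d => o a b c d x) {A : ι → M → V →L[ℝ] V}
    (hs : ∀ a, SA I (A a) x) (h : ∀ᶠ y in 𝓝 x, ∀ a, ∑ b, F.P a b y • A b y = A a y)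
    (T : M → V →L[ℝ] V) : rat (vol F o) (c2 I (cn F A) (f0 E T)) x = 1 / 4 * cwd F o T A x := by
  have e : c2 I (cn F A) (f0 E T) = ∑ i, ∑ j, ∑ k,
      (fun y => mx (T y) i j) • (cu I (cn F A) j k * cu I (cn F A) k i) := by
    rw [c2, trace]
    refine sum_congr rfl fun i _ => ?_
    rw [diag_apply, Matrix.mul_apply]
    refine sum_congr rfl fun j _ => ?_
    rw [Matrix.mul_apply, mul_sum]
    exact sum_congr rfl fun k _ => fn_mul _ _
  rw [e]
  simp only [rat_sum, Finset.sum_apply, rat_fsmul, Pi.mul_apply,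
    rat_vol_mul F h4 ho (deg_cu F A _ _ x), k2_cu F hs h, cwd, tr_mx, mx_mul, trace, diag_apply,
    Matrix.mul_apply, mul_sum, sum_mul]
  simp only [← Fintype.sum_prod_type']
  refine Fintype.sum_equiv
    ⟨fun p => (p.2.2.2.1, p.2.2.2.2.1, p.2.2.2.2.2.1, p.2.2.2.2.2.2, p.1, p.2.2.1, p.2.1),
     fun p => (p.2.2.2.2.1, p.2.2.2.2.2.2, p.2.2.2.2.2.1, p.1, p.2.1, p.2.2.1, p.2.2.2.1),
     fun _ => rfl, fun _ => rfl⟩ _ _ fun p => ?_
  simp only [Equiv.coe_fn_mk]
  ring

/-! ### integrals -/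

section int
variable {o : ι → ι → ι → ι → M → ℝ}

theorem unitV_vol (h4 : finrank ℝ E = 4)
    (ho : ∀ x, Vo (fun a b => F.P a b x) fun a b c d => o a b c d x) : UnitV F.e (vol F o) :=
  unitV_of_oc h4 fun x => by
    rw [← (ho x).nm]
    refine sum_congr rfl fun a _ => sum_congr rfl fun b _ => sum_congr rfl fun c _ =>
      sum_congr rfl fun d _ => ?_
    rw [oc_apply, ← e4_vol F (ho x) a b c d]; rfl

theorem oc_vol (ho : ∀ x, Vo (fun a b => F.P a b x) fun a b c d => o a b c d x) :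
    oc F.e (vol F o) = o := by
  funext a b c d x
  rw [oc_apply, ← e4_vol F (ho x) a b c d]; rfl

theorem vo_oc (h4 : finrank ℝ E = 4) {v : M → Ext E} (hv : UnitV F.e v) (x : M) :
    Vo (fun a b => F.P a b x) fun a b c d => oc F.e v a b c d x :=
  ⟨fun a b c d => oc_12 b a c d x, fun a b c d => oc_23 a c b d x, fun a b c d => oc_34 a b d c x,
    fun a b c d => oc_P a b c d x, hv.oc_nm x h4⟩

theorem tp_vol_oc (h4 : finrank ℝ E = 4) {v : M → Ext E} (hv : UnitV F.e v) (x : M) :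
    rat (vol F (oc F.e v)) v x = 1 := by
  rw [rat_vol F h4 (vo_oc F h4 hv x), ph]
  have := hv.oc_nm x h4
  simp only [sq] at this
  simp only [show ∀ a b c d, e4 (v x) (ee F x a) (ee F x b) (ee F x c) (ee F x d)
    = oc F.e v a b c d x from fun a b c d => (oc_apply a b c d x).symm, this]
  norm_num

theorem sameOn_vol_oc (h4 : finrank ℝ E = 4) {v : M → Ext E} (hv : UnitV F.e v) :
    SameOn (vol F (oc F.e v)) v Set.univ :=
  sameOn_of_rat_pos fun x _ => by rw [tp_vol_oc F h4 hv]; exact one_pos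

/-- the integral of the density over a set is the integral of the form -/
theorem setIntegral_cwd (h4 : finrank ℝ E = 4) (hF : F.IsVol)
    (ho : ∀ x, Vo (fun a b => F.P a b x) fun a b c d => o a b c d x) {A : ι → M → V →L[ℝ] V}
    (hA : Wz78.Con I F.P A) (T : M → V →L[ℝ] V) (s : Set M) :
    ∫ x in s, cwd F o T A x ∂F.μ = 4 * integOn I (vol F o) (c2 I (cn F A) (f0 E T)) s := by
  rw [(unitV_vol F h4 ho).integOn_eq hF, ← MeasureTheory.integral_const_mul]
  congr 1
  funext x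
  rw [rat_c2 F h4 (ho x) (fun a => hA.sm a x) (.of_forall fun y a => hA.proj a y)]; ring

/-- **the integral of the density is the characteristic number** -/
theorem integral_cwd [T2Space M] [CompactSpace M] (h4 : finrank ℝ E = 4) (hF : F.IsVol)
    (hs : ∀ a b c d, An.Sm I (o a b c d))
    (ho : ∀ x, Vo (fun a b => F.P a b x) fun a b c d => o a b c d x) {A : ι → M → V →L[ℝ] V}
    (hA : Wz78.Con I F.P A) {T : M → V →L[ℝ] V} (hT : An.Sm I T)
    (hp : ∀ a x, F.D a T x + (A a x * T x - T x * A a x) = 0) :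
    ∫ x, cwd F o T A x ∂F.μ = 4 * cw I (vol F o) (f0 E T) := by
  rw [cw_eq (ori_vol F h4 hs ho) (cn_co F fun a x _ => hA.sm a x)
    (pa_cn F (fun x _ a => hA.proj a x) (fun x _ => hT x) fun x _ a => hp a x), ← integOn_univ,
    ← setIntegral_cwd F h4 hF ho hA, MeasureTheory.Measure.restrict_univ]

end int

end Crest.Agent.X212.Num57
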