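import Crest.Agent.X212.Ell97.Main
import Crest.Agent.R235.HodgeAbs_194

/-!
X212 / NUM (helper57): the Fredholm alternative for smooth sections; the abstract Poisson equation.
-/

set_option autoImplicit false
set_option linter.unusedSectionVars false
noncomputable section
open scoped Manifold ContDiff Topology InnerProductSpace
open MeasureTheory Set Function Module

namespace Crest.Agent.X212.Num57
open An An.Pre Sob92 Ell97 Crest.Agent.R235.HodgeAbs_194

section abs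
variable {CF X1 X2 S0 S1 : Type*} [AddCommGroup CF] [Module ℝ CF] [AddCommGroup X1] [Module ℝ X1]
  [AddCommGroup X2] [Module ℝ X2] [AddCommGroup S0] [Module ℝ S0] [AddCommGroup S1] [Module ℝ S1]
  {H : HSys CF X1 X2} {X : Submodule ℝ X2}

theorem poisson (P : HPr H X S0 S1) (hG : ∀ a b, H.G a b = H.G b a)
    (hi : ∀ w w', P.i1 w w' = H.G (P.Ψ w) (P.Ψ w')) [FiniteDimensional ℝ (LinearMap.ker P.B)]
    (hs : ∀ w, (∀ k, P.B k = 0 → P.i1 w k = 0) → ∃ u, P.A u = w) (α : X1) :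
    ∃ f, H.δ (H.D f) = H.δ α := by
  obtain ⟨h, ⟨k, hk, rfl⟩, h2⟩ := exists_proj H.G ((LinearMap.ker P.B).map (P.Ψ : S1 →ₗ[ℝ] X1))
    (fun a _ => H.Gdef a) α
  obtain ⟨u, hu⟩ := hs (P.Ψ.symm (α - P.Ψ k)) fun k' hk' => by
    rw [hi, LinearEquiv.apply_symm_apply]; exact h2 _ ⟨k', hk', rfl⟩
  have e1 : ∀ g, H.J g (H.δ (P.Ψ k)) = 0 := fun g => by
    have := P.form (P.Φ.symm (g, 0)) k
    rw [show P.B k = 0 from hk, P.form0] at this
    simpa using this
  have e2 : ∀ g, H.J g (H.δ α - H.δ (H.D (P.Φ u).1)) = 0 := fun g => by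
    have h3 := P.adj u (P.Ψ.symm (H.D g))
    rw [hu, hi, P.form, LinearEquiv.apply_symm_apply, LinearEquiv.apply_symm_apply, H.dD, map_zero,
      H.adj, hG, map_sub, hG (H.D (P.Φ u).1)] at h3
    have h4 := e1 g
    rw [H.adj] at h4
    rw [map_sub, H.adj, H.adj]
    change H.G (H.D g) α - H.G (H.D g) (P.Ψ k) = _ at h3
    linarith
  exact ⟨(P.Φ u).1, (sub_eq_zero.1 (H.Jdef _ (e2 _))).symm⟩

end abs

variable {E : Type} [NormedAddCommGroup E] [NormedSpace ℝ E] [FiniteDimensional ℝ E]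
  [MeasurableSpace E] [BorelSpace E]
  {HM : Type} [TopologicalSpace HM] {I : ModelWithCorners ℝ E HM} [I.Boundaryless]
  {M : Type} [TopologicalSpace M] [ChartedSpace HM M] [IsManifold I ∞ M]
  [MeasurableSpace M] {ι : Type} [Fintype ι]
  {V W : Type} [NormedAddCommGroup V] [InnerProductSpace ℝ V] [FiniteDimensional ℝ V]
  [NormedAddCommGroup W] [InnerProductSpace ℝ W] [FiniteDimensional ℝ W]
  [T2Space M] [BorelSpace M] [SecondCountableTopology M] [CompactSpace M]
  {F : Fr I M ι} {A : Op M ι V W} {C C' : ℕ → ℝ}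

/-- the operator on smooth sections -/
def LL (h : A.Good F C) : Sec I A.p →ₗ[ℝ] Sec I A.q where
  toFun := LS h
  map_add' u v := Subtype.ext (funext fun x => app_add u.2.1 v.2.1 x)
  map_smul' r u := Subtype.ext (funext fun x => by
    simp only [LS_val, Op.app, Pre.op, Submodule.coe_smul, F.D_smul u.2.1, Pi.smul_apply, map_smul,
      ← Finset.smul_sum, ← smul_add, RingHom.id_apply])

theorem LL_val (h : A.Good F C) (u : Sec I A.p) : (LL h u).1 = A.app F u.1 := rfl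

theorem ker_LL (h : A.Good F C) : LinearMap.ker (LL h) = kerS F A :=
  Submodule.ext fun _ => Subtype.ext_iff

theorem ip_def {p : M → V →L[ℝ] V} {u : Sec I p} (h : F.ip 0 u.1 u.1 = 0) : u = 0 :=
  toH_inj F 0 p (by rw [map_zero, ← inner_self_eq_zero (𝕜 := ℝ), inner_toH, h])

variable (hF : F.Tame C) (hA : A.Good F C') (hc : A.Cliff F)
include hF hA hc

/-- **Fredholm alternative** -/
theorem solve (w : Sec I A.q)
    (h : ∀ v : Sec I A.q, (A.adj F).app F v.1 = 0 → F.ip 0 w.1 v.1 = 0) :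
    ∃ u : Sec I A.p, A.app F u.1 = w.1 := by
  obtain ⟨x, hx⟩ := (mem_range hF hA hc 0 (F.toH 0 A.q w)).2 fun v hv => by
    rw [incl_self, inner_toH, h v hv]
  obtain ⟨u, -, hu⟩ := sec_of_eq hF hA hc.1 hx
  exact ⟨u, hu⟩

/-- **Fredholm alternative** for the adjoint -/
theorem solve_adj (u : Sec I A.p) (h : ∀ v : Sec I A.p, A.app F v.1 = 0 → F.ip 0 u.1 v.1 = 0) :
    ∃ w : Sec I A.q, (A.adj F).app F w.1 = u.1 := by
  obtain ⟨C'', h'⟩ := good_adj hF hA
  obtain ⟨x, hx⟩ := ((par hF hA hc).swap.mem_range_iff (closed_range hF h' hc.2 0) 0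
    (F.toH 0 A.p u)).2 fun v hv => by
      obtain ⟨k, hk⟩ := (kerSEquiv hF hA hc.1 0).surjective ⟨v, hv⟩
      obtain rfl : F.toH 1 A.p k.1 = v := congrArg Subtype.val hk
      exact (congrArg _ (incl_toH zero_le_one _)).trans ((inner_toH _ _ _ _ _).trans (h _ k.2))
  obtain ⟨w, -, hw⟩ := sec_of_eq hF h' hc.2 hx
  exact ⟨w, hw⟩

end Crest.Agent.X212.Num57
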