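import Crest.Agent.X212.Num57.Germ
import Crest.Agent.X212.Int54.Stokes
import Crest.Agent.X212.Dr59.HR

/-!
X212 / NUM (helper57): the intersection form on de Rham cohomology of a closed oriented manifold.

* `itg ho k`, `Q ho`, `Qf ho`, `bp ho`, `bm ho` (`b⁺`, `b⁻`), `bb I M k` (Betti numbers);
* dependence on the orientation, naturality; `sig_of_compl`.
-/

set_option autoImplicit false
set_option linter.unusedSectionVars false

open Set Function Module
open scoped ContDiff Manifold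
open Crest.Agent.R208 Crest.Agent.R208.F Crest.Agent.R208.FI Crest.Agent.X212.Dr59
open Crest.Agent.X212.Int54

noncomputable section

namespace Crest.Agent.X212.Num57

theorem sig_of_compl {V : Type*} [AddCommGroup V] [Module ℝ V] [FiniteDimensional ℝ V]
    {q : QuadraticForm ℝ V} {P N : Submodule ℝ V} (h : finrank ℝ P + finrank ℝ N = finrank ℝ V)
    (hP : ∀ x ∈ P, x ≠ 0 → 0 < q x) (hN : ∀ x ∈ N, x ≠ 0 → q x < 0) :
    sigPos q = finrank ℝ P ∧ sigNeg q = finrank ℝ N := by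
  have h1 := le_sigPos_of_posDef q (V := P) fun x hx => hP x.1 x.2 (by simpa using hx)
  have h2 := le_sigNeg_of_negDef q (V := N) fun x hx => by
    simpa using hN x.1 x.2 (by simpa using hx)
  have h3 := QuadraticForm.sigPos_add_sigNeg_add_radical (Q := q)
  omega

variable {E : Type*} [NormedAddCommGroup E] [NormedSpace ℝ E] [FiniteDimensional ℝ E]
  [MeasurableSpace E] [BorelSpace E]
  {H : Type*} [TopologicalSpace H] {I : ModelWithCorners ℝ E H} [I.Boundaryless]
  {M : Type*} [TopologicalSpace M] [ChartedSpace H M] [IsManifold I ∞ M]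
  [MeasurableSpace M] [BorelSpace M] [SecondCountableTopology M] [T2Space M] [CompactSpace M]
  {E' : Type*} [NormedAddCommGroup E'] [NormedSpace ℝ E'] [FiniteDimensional ℝ E']
  [MeasurableSpace E'] [BorelSpace E']
  {H' : Type*} [TopologicalSpace H'] {J : ModelWithCorners ℝ E' H'} [J.Boundaryless]
  {N : Type*} [TopologicalSpace N] [ChartedSpace H' N] [IsManifold J ∞ N]
  [MeasurableSpace N] [BorelSpace N] [SecondCountableTopology N] [T2Space N] [CompactSpace N]
  {o o' a b : M → Ext E}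

theorem intOn_sm (ho : Ori I o) (ha : Sm I univ a) : IntOn I o a univ :=
  ho.intOn (fun x => (ha x trivial).of_le (by simp)) _

theorem integ_ex (ho : Ori I o) (ha : Ex I univ a) : integ I o a = 0 := by
  obtain ⟨b, hb, e⟩ := ha
  rw [← show dM I b = a from funext fun x => e x trivial]
  exact stokes_closed ho fun x => hb x trivial

variable (I M) in
/-- the Betti numbers -/
def bb (k : ℕ) : ℕ := finrank ℝ (HR I k (univ : Set M))

/-- integration of cohomology classes -/
def itg (ho : Ori I o) (k : ℕ) : HR I k (univ : Set M) →ₗ[ℝ] ℝ :=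
  HR.lift
    { toFun := fun a => integ I o a.1
      map_add' := fun a b => integ_add (intOn_sm ho a.2.sm) (intOn_sm ho b.2.sm)
      map_smul' := fun r a => integ_smul o r a.1 } fun _ ha => integ_ex ho ha

theorem itg_cls (ho : Ori I o) {k : ℕ} (ha : Cl I k univ a) : itg ho k ha.cls = integ I o a := rfl

/-- the intersection form -/
def Q (ho : Ori I o) : HR I 2 (univ : Set M) →ₗ[ℝ] HR I 2 (univ : Set M) →ₗ[ℝ] ℝ :=
  (cup I 2 2 univ).compr₂ (itg ho (2 + 2))

theorem Q_cls (ho : Ori I o) (ha : Cl I 2 univ a) (hb : Cl I 2 univ b) :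
    Q ho ha.cls hb.cls = integ I o (a * b) := rfl

theorem mul_comm2 (ha : Dg 2 univ a) (b : M → Ext E) : a * b = b * a := funext fun x =>
  ext_ev (by rw [inv_of_deg (ha x trivial)]; simp) _

theorem Q_symm (ho : Ori I o) (x y : HR I 2 (univ : Set M)) : Q ho x y = Q ho y x := by
  obtain ⟨a, ha, rfl⟩ := exists_cls x
  obtain ⟨b, hb, rfl⟩ := exists_cls y
  rw [Q_cls, Q_cls, mul_comm2 ha.dg]

theorem Q_ori (ho : Ori I o) (ho' : Ori I o') (h : SameOn o o' univ) : Q ho = Q ho' := by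
  ext x y
  obtain ⟨a, ha, rfl⟩ := exists_cls x
  obtain ⟨b, hb, rfl⟩ := exists_cls y
  exact integ_congr_ori ho ho' h _

theorem Q_neg (ho : Ori I o) : Q ho.neg = -Q ho := by
  ext x y
  obtain ⟨a, ha, rfl⟩ := exists_cls x
  obtain ⟨b, hb, rfl⟩ := exists_cls y
  exact integ_neg_ori _ _

theorem Q_st (hd : finrank ℝ E = finrank ℝ E') {v : N → Ext E'} (ho : Ori I o) (hv : Ori J v)
    {f : N → M} (hf : Mp J I univ univ f) (hb : Bijective f) (hp : SameOn v (pm J I f o) univ)
    (x y : HR I 2 (univ : Set M)) : Q hv (hf.st 2 x) (hf.st 2 y) = Q ho x y := by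
  obtain ⟨a, ha, rfl⟩ := exists_cls x
  obtain ⟨b, hb', rfl⟩ := exists_cls y
  rw [Mp.st_cls, Mp.st_cls, Q_cls, Q_cls, ← pm_mul]
  exact (integ_bij hd ho hv (fun y => hf.sm y trivial) hb hp _).symm

/-- the intersection form as a quadratic form -/
def Qf (ho : Ori I o) : QuadraticForm ℝ (HR I 2 (univ : Set M)) :=
  LinearMap.BilinMap.toQuadraticMap (Q ho)

theorem Qf_apply (ho : Ori I o) (x : HR I 2 (univ : Set M)) : Qf ho x = Q ho x x := rfl

/-- `b⁺` -/
def bp (ho : Ori I o) : ℕ := sigPos (Qf ho)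
/-- `b⁻` -/
def bm (ho : Ori I o) : ℕ := sigNeg (Qf ho)

theorem Qf_neg (ho : Ori I o) : Qf ho.neg = -Qf ho := by
  ext x; rw [Qf_apply, Q_neg ho]; rfl

theorem bp_neg (ho : Ori I o) : bp ho.neg = bm ho := by rw [bp, Qf_neg, sigPos_neg, bm]
theorem bm_neg (ho : Ori I o) : bm ho.neg = bp ho := by rw [bm, Qf_neg, sigNeg_neg, bp]

theorem bp_ori (ho : Ori I o) (ho' : Ori I o') (h : SameOn o o' univ) : bp ho = bp ho' := by
  rw [bp, bp, Qf, Qf, Q_ori ho ho' h]
theorem bm_ori (ho : Ori I o) (ho' : Ori I o') (h : SameOn o o' univ) : bm ho = bm ho' := by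
  rw [bm, bm, Qf, Qf, Q_ori ho ho' h]

/-- an isometry of the intersection forms preserves `b⁺`, `b⁻` -/
theorem b_of_iso {v : N → Ext E'} (ho : Ori I o) (hv : Ori J v)
    (L : HR I 2 (univ : Set M) →ₗ[ℝ] HR J 2 (univ : Set N)) (hL : Bijective L)
    (h : ∀ x, Q hv (L x) (L x) = Q ho x x) : bp hv = bp ho ∧ bm hv = bm ho :=
  have e : (Qf ho).Equivalent (Qf hv) := ⟨⟨LinearEquiv.ofBijective L hL, h⟩⟩
  ⟨e.sigPos_eq.symm, e.sigNeg_eq.symm⟩

theorem st_bij (φ : N ≃ₘ^∞⟮J, I⟯ M) (k : ℕ) :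
    Bijective ((Mp.of_contMDiff φ.contMDiff (mapsTo_univ _ univ)).st k) := by
  have hf : Mp J I univ univ φ := Mp.of_contMDiff φ.contMDiff (mapsTo_univ _ univ)
  have hg : Mp I J univ univ φ.symm := Mp.of_contMDiff φ.symm.contMDiff (mapsTo_univ _ univ)
  refine bijective_iff_has_inverse.2 ⟨hg.st k, fun x => ?_, fun x => ?_⟩
  · rw [Mp.st_comp, Mp.st_of_id isOpen_univ _ (fun y _ => φ.apply_symm_apply y) Subset.rfl, res_self]
  · rw [Mp.st_comp, Mp.st_of_id isOpen_univ _ (fun y _ => φ.symm_apply_apply y) Subset.rfl, res_self]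

theorem bb_diffeo (φ : N ≃ₘ^∞⟮J, I⟯ M) (k : ℕ) : bb J N k = bb I M k :=
  (LinearEquiv.ofBijective _ (st_bij φ k)).finrank_eq.symm

theorem b_diffeo (hd : finrank ℝ E = finrank ℝ E') {v : N → Ext E'} (ho : Ori I o) (hv : Ori J v)
    (φ : N ≃ₘ^∞⟮J, I⟯ M) (hp : SameOn v (pm J I φ o) univ) : bp hv = bp ho ∧ bm hv = bm ho :=
  b_of_iso ho hv _ (st_bij φ 2) fun x => Q_st hd ho hv _ φ.bijective hp x x

theorem bb0 [ConnectedSpace M] : bb I M 0 = 1 := by
  have h := bd0 (I := I) isOpen_univ (isPreconnected_univ (α := M))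
  have := h.finite
  refine le_antisymm h.finrank_le (finrank_pos_iff_exists_ne_zero.2
    ⟨(cl_one : Cl I 0 (univ : Set M) 1).cls, fun h0 => ?_⟩)
  have h1 := (cls_eq_zero.1 h0).deg0 (cl_one (I := I)).dg (mem_univ (Classical.arbitrary M))
  exact one_ne_zero h1

end Crest.Agent.X212.Num57
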