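import Crest.Agent.X212.Num57.Hop
import Crest.Agent.X212.Num57.Cnn
import Crest.Agent.X212.Num57.Qf
import Crest.Agent.X212.Num57.Fa

/-!
X212 / NUM (helper57): functions, one-forms and two-forms on a closed oriented Riemannian
four-manifold; the star operator; weakly closed forms are closed.
-/

set_option autoImplicit false
set_option linter.unusedSectionVars false
noncomputable section
open scoped Manifold ContDiff Topology InnerProductSpace
open MeasureTheory Finset Module
open Crest.Agent.R208 Crest.Agent.R208.F Crest.Agent.R208.FI Crest.Agent.X212.Dr59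
open Crest.Agent.X212.Int54 Crest.Agent.X212.An Crest.Agent.X212.Sob92
open Crest.Agent.X212.Wz78 (SA)
open Crest.Agent.X212.Map77 (Vol det3)
open Crest.Agent.R235.HodgeAbs_194

namespace Crest.Agent.X212.Num57

section pt
variable {ι : Type} [Fintype ι] {P : ι → ι → ℝ} {o : ι → ι → ι → ι → ℝ}

theorem vo_of_vol (h : Vol P o) : Vo P o :=
  ⟨fun a b c d => h.a1 b a c d, fun a b c d => h.a2 a c b d, fun a b c d => h.a3 a b d c, h.po, h.nm⟩

theorem comm22 {α β : Type*} [Fintype α] [Fintype β] (g : α → α → β → β → ℝ) :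
    ∑ a, ∑ b, ∑ c, ∑ d, g a b c d = ∑ c, ∑ d, ∑ a, ∑ b, g a b c d := by
  rw [← Fintype.sum_prod_type' fun a b => ∑ c, ∑ d, g a b c d, sum_comm]
  refine sum_congr rfl fun c _ => ?_
  rw [sum_comm]
  exact sum_congr rfl fun d _ => Fintype.sum_prod_type' fun a b => g a b c d

theorem oo (h : Vol P o) {β : ι → ι → ℝ} (h1 : ∀ a b, β b a = -β a b)
    (h2 : ∀ a b, ∑ k, P a k * β k b = β a b) (a c : ι) :
    ∑ e, ∑ f, o a c e f * ∑ g, ∑ k, o e f g k * β g k = 4 * β a c := by
  have h3 : ∀ a c, ∑ g, ∑ k, P a g * P c k * β g k = β a c := fun a c => by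
    rw [← h2 a c]
    refine sum_congr rfl fun g _ => ?_
    rw [h1 c g, ← h2 c g, ← sum_neg_distrib, mul_sum]
    exact sum_congr rfl fun k _ => by rw [h1 k g]; ring
  have e : ∑ e, ∑ f, o a c e f * ∑ g, ∑ k, o e f g k * β g k
      = ∑ g, ∑ k, (∑ e, ∑ f, o a c e f * o g k e f) * β g k := by
    simp only [mul_sum, sum_mul]
    rw [comm22]
    exact sum_congr rfl fun g _ => sum_congr rfl fun k _ => sum_congr rfl fun e _ =>
      sum_congr rfl fun f _ => by rw [h.swap e f]; ring
  have e' : ∑ g, ∑ k, P a k * P c g * β g k = -β a c := by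
    rw [h1 c a, neg_neg, ← h3 c a]
    exact sum_congr rfl fun g _ => sum_congr rfl fun k _ => by ring
  simp only [e, h.i2, mul_sub, sub_mul, sum_sub_distrib, mul_assoc (2 : ℝ), ← mul_sum, h3, e']
  ring

theorem three_zero (h : Vol P o) {γ : ι → ι → ι → ℝ} (s1 : ∀ a b c, γ b a c = -γ a b c)
    (s2 : ∀ a b c, γ a c b = -γ a b c) (p : ∀ a b c, ∑ k, P c k * γ a b k = γ a b c)
    (h0 : ∀ a, ∑ b, ∑ c, ∑ d, o a b c d * γ b c d = 0) (e f g : ι) : γ e f g = 0 := by
  have p2 : ∀ a b c, ∑ k, P b k * γ a k c = γ a b c := fun a b c => by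
    rw [s2 a c b, ← p a c b, ← sum_neg_distrib]
    exact sum_congr rfl fun k _ => by rw [s2 a c k, mul_neg]
  have p1 : ∀ a b c, ∑ k, P a k * γ k b c = γ a b c := fun a b c => by
    rw [s1 b a c, ← p2 b a c, ← sum_neg_distrib]
    exact sum_congr rfl fun k _ => by rw [s1 b k c, mul_neg]
  have k : ∀ x y z, ∑ b, ∑ c, ∑ d, P x b * P y c * P z d * γ b c d = γ x y z := fun x y z => by
    rw [← p1 x y z]
    refine sum_congr rfl fun b _ => ?_
    rw [← p2 b y z, mul_sum]
    refine sum_congr rfl fun c _ => ?_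
    rw [← p b c z, mul_sum, mul_sum]
    exact sum_congr rfl fun d _ => by ring
  have e1 : ∑ b, ∑ c, ∑ d, det3 P e f g b c d * γ b c d = 0 := by
    have : ∑ a, o e f g a * ∑ b, ∑ c, ∑ d, o a b c d * γ b c d = 0 := by simp [h0]
    rw [← neg_eq_zero, ← this]
    simp only [← h.i3, mul_sum, sum_mul, ← sum_neg_distrib]
    rw [sum_comm (f := fun a b => ∑ c, ∑ d, o e f g a * (o a b c d * γ b c d))]
    refine sum_congr rfl fun b _ => ?_
    rw [sum_comm (f := fun a c => ∑ d, o e f g a * (o a b c d * γ b c d))]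
    refine sum_congr rfl fun c _ => ?_
    rw [sum_comm (f := fun a d => o e f g a * (o a b c d * γ b c d))]
    exact sum_congr rfl fun d _ => sum_congr rfl fun a _ => by
      rw [h.a1 a b, h.a2 b a, h.a3 b c a]; ring
  have e2 : ∑ b, ∑ c, ∑ d, det3 P e f g b c d * γ b c d = γ e f g - γ e g f - γ f e g + γ g e f
      + γ f g e - γ g f e := by
    rw [← k e f g, ← k e g f, ← k f e g, ← k g e f, ← k f g e, ← k g f e]
    simp only [← sum_sub_distrib, ← sum_add_distrib, det3]
    exact sum_congr rfl fun b _ => sum_congr rfl fun c _ => sum_congr rfl fun d _ => by ring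
  rw [e1, s1 f g e, s1 e g f, s2 f e g, s2 e f g, s1 e f g] at e2
  linarith

end pt

section ext
variable {E : Type*} [NormedAddCommGroup E] [NormedSpace ℝ E] [FiniteDimensional ℝ E]
  {ι : Type*} [Fintype ι]

theorem e3_swap1 (c : Ext E) (u v w : E) : e3 c v u w = -e3 c u v w := by
  have := (evA E 3 c).map_swap ![u, v, w] (i := 0) (j := 1) (by decide)
  rw [e3, e3, ← this]
  congr 1
  funext j; fin_cases j <;> rfl

theorem e3_swap2 (c : Ext E) (u v w : E) : e3 c u w v = -e3 c u v w := by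
  rw [e3_eq, e3_eq, e2_swap]

theorem e3_vsum {α : Type*} (s : Finset α) (c : Ext E) (r : α → ℝ) (u : α → E) (v w : E) :
    e3 c (∑ i ∈ s, r i • u i) v w = ∑ i ∈ s, r i * e3 c (u i) v w := by
  simp only [e3_eq, map_sum, map_smul, LinearMap.sum_apply, LinearMap.smul_apply, e2_sum, e2_smul]

theorem Cf.zero3 {e : ι → E} {t : ι → Dual ℝ E} {P : ι → ι → ℝ} (h : Cf e t P) {a : Ext E}
    (ha : IsDeg 3 a) (h0 : ∀ k l m, e3 a (e k) (e l) (e m) = 0) : a = 0 := by
  refine T.ext_evA fun q => ?_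
  by_cases hq : q = 3
  · subst hq
    ext v
    have : v = ![v 0, v 1, v 2] := by funext j; fin_cases j <;> rfl
    rw [this, map_zero]
    change e3 a _ _ _ = 0
    rw [← h.ex (v 0), ← h.ex (v 1), ← h.ex (v 2), e3_vsum]
    simp only [e3_eq, e2_vsum, e2_vsum'] at h0 ⊢
    simp [h0]
  · rw [ha q hq, map_zero]

end ext

variable {E : Type} [NormedAddCommGroup E] [NormedSpace ℝ E] [FiniteDimensional ℝ E]
  [MeasurableSpace E] [BorelSpace E]
  {HM : Type} [TopologicalSpace HM] {I : ModelWithCorners ℝ E HM} [I.Boundaryless]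
  {M : Type} [TopologicalSpace M] [ChartedSpace HM M] [IsManifold I ∞ M]
  [MeasurableSpace M] [BorelSpace M] [SecondCountableTopology M] {ι : Type} [Fintype ι]
  {F : Fr I M ι} {o : ι → ι → ι → ι → M → ℝ} {a b : M → Ext E}

theorem OK.vo' (h : OK F o) (x : M) : Vo (fun a b => F.P a b x) fun a b c d => o a b c d x :=
  vo_of_vol (h.vo x)

theorem OK.ori (h : OK F o) : Ori I (vol F o) := ori_vol F h.h4 h.sm h.vo'

theorem OK.integ_eq (h : OK F o) (a : M → Ext E) :
    integ I (vol F o) a = ∫ x, rat (vol F o) a x ∂F.μ := (unitV_vol F h.h4 h.vo').integ_eq h.isv a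

theorem vol_neg (F : Fr I M ι) (o : ι → ι → ι → ι → M → ℝ) :
    vol F (fun a b c d x => -o a b c d x) = -vol F o := by
  funext x
  simp only [Pi.neg_apply, vol_apply, vl, mul_neg, neg_smul, sum_neg_distrib]

theorem k1_add (a b : M → Ext E) (c : ι) : k1 F (a + b) c = k1 F a c + k1 F b c :=
  funext fun _ => e1_add _ _ _
theorem k1_smul (r : ℝ) (a : M → Ext E) (c : ι) : k1 F (r • a) c = r • k1 F a c :=
  funext fun _ => e1_smul _ _ _
theorem k2_add (a b : M → Ext E) (c d : ι) (x : M) :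
    k2 F (a + b) c d x = k2 F a c d x + k2 F b c d x := e2_add _ _ _ _
theorem k2_sub (a b : M → Ext E) (c d : ι) (x : M) :
    k2 F (a - b) c d x = k2 F a c d x - k2 F b c d x := e2_sub _ _ _ _
theorem k2_smul (r : ℝ) (a : M → Ext E) (c d : ι) (x : M) :
    k2 F (r • a) c d x = r * k2 F a c d x := e2_smul _ _ _ _

variable (F) in
theorem ext_k1 (ha : Dg 1 Set.univ a) (hb : Dg 1 Set.univ b) (h : ∀ c, k1 F a c = k1 F b c) :
    a = b := funext fun x => (cf F x).ext1' (ha x trivial) (hb x trivial) fun c => congrFun (h c) x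

variable (F) in
theorem ext_k2 (ha : Dg 2 Set.univ a) (hb : Dg 2 Set.univ b)
    (h : ∀ c d x, k2 F a c d x = k2 F b c d x) : a = b :=
  funext fun x => (cf F x).ext2' (ha x trivial) (hb x trivial) fun c d => h c d x

variable (F o) in
/-- the star operator on two-forms -/
def st (b : M → Ext E) : M → Ext E :=
  fm2 F fun a c x => 1 / 2 * ∑ e, ∑ f, o a c e f x * k2 F b e f x

variable (F o) in
/-- self-dual forms -/
def IsSD (b : M → Ext E) : Prop :=
  ∀ a c x, ∑ e, ∑ f, o a c e f x * k2 F b e f x = 2 * k2 F b a c x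

theorem OK.k2_st (h : OK F o) (b : M → Ext E) (a c : ι) (x : M) :
    k2 F (st F o b) a c x = 1 / 2 * ∑ e, ∑ f, o a c e f x * k2 F b e f x := by
  refine k2_fm2 F (fun a c => ?_) (fun a c => ?_) a c
  · simp only [(h.vo x).a1 c a, neg_mul, sum_neg_distrib, mul_neg]
  · simp only [← (h.vo x).po a c, mul_sum, sum_mul]
    rw [sum_comm]
    refine sum_congr rfl fun e _ => ?_
    rw [sum_comm]
    exact sum_congr rfl fun f _ => sum_congr rfl fun k _ => by ring

theorem OK.sm_st (h : OK F o) (hb : Dr59.Sm I Set.univ b) : Dr59.Sm I Set.univ (st F o b) :=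
  fun x _ => smAt_fm2 F fun a c => SA.mul contMDiffAt_const (SA.sum _ fun e _ => SA.sum _ fun f _ =>
    SA.mul (h.sm a c e f x) (sa_k2 F (hb x trivial) e f))

theorem OK.o_st (h : OK F o) (b : M → Ext E) (a c : ι) (x : M) :
    ∑ e, ∑ f, o a c e f x * k2 F (st F o b) e f x = 2 * k2 F b a c x := by
  have := oo (h.vo x) (β := fun a c => k2 F b a c x) (fun a c => k2_swap F b a c x)
    (fun a c => k2_P F b a c x) a c
  simp only [h.k2_st, mul_left_comm _ (1 / 2 : ℝ), ← mul_sum, this]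
  ring

theorem OK.sd_add (h : OK F o) (b : M → Ext E) : IsSD F o (b + st F o b) := fun a c x => by
  simp only [k2_add, mul_add, sum_add_distrib, h.o_st]
  rw [h.k2_st]; ring

theorem OK.sd_sub (h : OK F o) (b : M → Ext E) :
    IsSD F (fun a b c d x => -o a b c d x) (b - st F o b) := fun a c x => by
  simp only [k2_sub, mul_sub, sum_sub_distrib, neg_mul, sum_neg_distrib, h.o_st]
  rw [h.k2_st]; ring

variable (F) in
/-- the pointwise scalar product of two-forms (sum over all pairs) -/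
def pp (a b : M → Ext E) (x : M) : ℝ := ∑ c, ∑ d, k2 F a c d x * k2 F b c d x

theorem pp_comm (a b : M → Ext E) : pp F a b = pp F b a := by
  funext x; simp only [pp, mul_comm]

theorem OK.rat_sd (h : OK F o) (ha : Dg 2 Set.univ a) (hb : IsSD F o b) (x : M) :
    rat (vol F o) (a * b) x = 1 / 2 * pp F a b x := by
  rw [rat_vol_mul F h.h4 (h.vo' x) (ha x trivial)]
  simp only [mul_left_comm (o _ _ _ _ x), ← mul_sum, hb _ _ x, pp]
  simp only [mul_left_comm _ (2 : ℝ), ← mul_sum]
  ring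

theorem OK.integ_sd (h : OK F o) (ha : Dg 2 Set.univ a) (hb : IsSD F o b) :
    integ I (vol F o) (a * b) = 1 / 2 * ∫ x, pp F a b x ∂F.μ := by
  rw [h.integ_eq, ← integral_const_mul]
  simp only [h.rat_sd ha hb]

theorem OK.integ_asd (h : OK F o) (ha : Dg 2 Set.univ a)
    (hb : IsSD F (fun a b c d x => -o a b c d x) b) :
    integ I (vol F o) (a * b) = -(1 / 2 * ∫ x, pp F a b x ∂F.μ) := by
  rw [← h.neg.integ_sd ha hb, vol_neg, integ_neg_ori, neg_neg]

variable [T2Space M] [CompactSpace M]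

theorem int_sm {f : M → ℝ} (hf : An.Sm I f) : Integrable f F.μ :=
  Wz78.integ hf (HasCompactSupport.of_compactSpace f)

theorem zero_of_int {κ : Type*} [Fintype κ] {f : κ → M → ℝ} (hf : ∀ k, An.Sm I (f k))
    (h : ∫ x, ∑ k, f k x * f k x ∂F.μ = 0) (k : κ) (x : M) : f k x = 0 := by
  have := Sob92.openPos F.toPre
  have hs : An.Sm I fun x => ∑ k, f k x * f k x := fun x =>
    SA.sum _ fun k _ => SA.mul (hf k x) (hf k x)
  have h1 := (integral_eq_zero_iff_of_nonneg (fun x => sum_nonneg fun k _ => mul_self_nonneg _)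
    (int_sm hs)).1 h
  have h2 := congrFun ((hs.continuous.ae_eq_iff_eq F.μ continuous_zero).1 h1) x
  exact mul_self_eq_zero.1
    ((sum_eq_zero_iff_of_nonneg fun k _ => mul_self_nonneg _).1 h2 k (mem_univ k))

theorem zero_of_pp (ha : Dr59.Sm I Set.univ a) (h2 : Dg 2 Set.univ a)
    (h : ∫ x, pp F a a x ∂F.μ = 0) : a = 0 :=
  ext_k2 F h2 Dg.zero fun c d x => (zero_of_int (F := F) (f := fun s : ι × ι => k2 F a s.1 s.2)
    (fun s x => sa_k2 F (ha x trivial) _ _) (by simpa only [Fintype.sum_prod_type, pp] using h)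
    (c, d) x).trans (e2_zero _ _).symm

theorem pp_pos (ha : Dr59.Sm I Set.univ a) (h2 : Dg 2 Set.univ a) (h0 : a ≠ 0) :
    0 < ∫ x, pp F a a x ∂F.μ :=
  lt_of_le_of_ne (integral_nonneg fun _ => sum_nonneg fun _ _ => sum_nonneg fun _ _ =>
    mul_self_nonneg _) fun h => h0 (zero_of_pp ha h2 h.symm)

theorem integ_dM_mul {v : M → Ext E} (hv : Ori I v) (ha : Dr59.Sm I Set.univ a)
    (h1 : Dg 1 Set.univ a) (hb : Dr59.Sm I Set.univ b) :
    integ I v (dM I a * b) = integ I v (a * dM I b) := by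
  have e : dM I a * b = dM I (a * b) + a * dM I b := funext fun x => by
    rw [Pi.add_apply, dM_mul ne0 (ha x trivial) (hb x trivial), inv_of_deg (h1 x trivial)]
    simp
  rw [e, integ_add (intOn_sm hv (ha.mul hb).dM) (intOn_sm hv (ha.mul hb.dM)),
    integ_ex hv (ex_dM (ha.mul hb)), zero_add]

/-- a three-form orthogonal to all one-forms vanishes -/
theorem OK.three (h : OK F o) (hb : Dr59.Sm I Set.univ b) (h3 : Dg 3 Set.univ b)
    (h0 : ∀ a, Dr59.Sm I Set.univ a → Dg 1 Set.univ a → integ I (vol F o) (a * b) = 0) : b = 0 := by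
  let w : ι → M → ℝ := fun a x =>
    ∑ c, ∑ d, ∑ e, o a c d e x * e3 (b x) (ee F x c) (ee F x d) (ee F x e)
  have hw : ∀ a, An.Sm I (w a) := fun a x => SA.sum _ fun c _ => SA.sum _ fun d _ =>
    SA.sum _ fun e _ => SA.mul (h.sm a c d e x)
      ((sa_k2 F (cAt_ic le_rfl (F.sm c x) (hb x trivial)) d e).congr_of_eventuallyEq
        (.of_forall fun y => e3_eq _ _ _ _))
  have h1 := h0 (fm1 F w) (fun x _ => smAt_fm1 F fun a => hw a x) fun x _ => deg_fm1 F w x
  have h2 : ∀ x, rat (vol F o) (fm1 F w * b) x = 1 / 6 * ∑ a, w a x * w a x := fun x => by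
    rw [rat_vol F h.h4 (h.vo' x), Pi.mul_apply, (h.vo' x).ph_mul1 (cf F x) (deg_fm1 F w x)]
    congr 1
    refine sum_congr rfl fun a _ => ?_
    have : e1 (fm1 F w x) (ee F x a) = w a x := (k1_fm1 F w a x).trans (by
      simp only [w, ← (h.vo x).po a, mul_sum, sum_mul]
      rw [sum_comm]
      refine sum_congr rfl fun c _ => ?_
      rw [sum_comm]
      refine sum_congr rfl fun d _ => ?_
      rw [sum_comm]
      exact sum_congr rfl fun e _ => sum_congr rfl fun k _ => by ring)
    simp only [this, mul_left_comm (o _ _ _ _ x), ← mul_sum]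
    rfl
  rw [h.integ_eq, funext h2, integral_const_mul, mul_eq_zero, or_iff_right (by norm_num)] at h1
  funext x
  exact (cf F x).zero3 (h3 x trivial) (three_zero (h.vo x) (fun _ _ _ => e3_swap1 _ _ _ _)
    (fun _ _ _ => e3_swap2 _ _ _ _) (fun a c d => by simp only [e3_eq, (cf F x).p2'])
    fun a => zero_of_int hw h1 a x)

/-- **weakly closed two-forms are closed** -/
theorem OK.closed (h : OK F o) (hb : Dr59.Sm I Set.univ b) (h2 : Dg 2 Set.univ b)
    (h0 : ∀ a, Dr59.Sm I Set.univ a → Dg 1 Set.univ a → integ I (vol F o) (b * dM I a) = 0) :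
    dM I b = 0 :=
  h.three hb.dM (h2.dM isOpen_univ) fun a ha h1 => by
    rw [← integ_dM_mul h.ori ha h1 hb, ← mul_comm2 h2, h0 a ha h1]

variable (I M) in
/-- smooth forms of degree `k` -/
def Om (k : ℕ) : Submodule ℝ (M → Ext E) where
  carrier := {a | Dr59.Sm I Set.univ a ∧ Dg k Set.univ a}
  add_mem' ha hb := ⟨ha.1.add hb.1, ha.2.add hb.2⟩
  zero_mem' := ⟨Sm.zero, Dg.zero⟩
  smul_mem' r _ ha := ⟨ha.1.smul r, ha.2.smul r⟩

variable (I M) in
/-- smooth functions -/
abbrev CF : Type := Sec I (triv M ℝ)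

/-- a smooth function -/
def cfn {f : M → ℝ} (hf : An.Sm I f) : CF I M :=
  ⟨f, hf, HasCompactSupport.of_compactSpace f, fun _ => rfl⟩

theorem sm_k1 {k : ℕ} (a : Om I M k) (c : ι) : An.Sm I (k1 F a.1 c) :=
  fun x => sa_k1 F (a.2.1 x trivial) c
theorem sm_k2 {k : ℕ} (a : Om I M k) (c d : ι) : An.Sm I (k2 F a.1 c d) :=
  fun x => sa_k2 F (a.2.1 x trivial) c d

variable (F) in
/-- the scalar product of one-forms -/
def g1 (a b : M → Ext E) (x : M) : ℝ := ∑ c, k1 F a c x * k1 F b c x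

theorem sm_g1 (a b : Om I M 1) : An.Sm I (g1 F a.1 b.1) :=
  fun x => SA.sum _ fun c _ => SA.mul (sm_k1 a c x) (sm_k1 b c x)

theorem g1_comm (a b : M → Ext E) : g1 F a b = g1 F b a := by
  funext x; simp only [g1, mul_comm]

variable (I M) in
/-- the exterior derivative -/
def dO (k : ℕ) : Om I M k →ₗ[ℝ] Om I M (k + 1) where
  toFun a := ⟨dM I a.1, a.2.1.dM, a.2.2.dM isOpen_univ⟩
  map_add' a b := Subtype.ext (funext fun x => dM_add ne0 (a.2.1 x trivial) (b.2.1 x trivial))
  map_smul' r a := Subtype.ext (funext fun x => dM_smul ne0 r (a.2.1 x trivial))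

/-- a symmetric bilinear form -/
def mkS {X : Type*} [AddCommGroup X] [Module ℝ X] (f : X → X → ℝ) (hs : ∀ a b, f a b = f b a)
    (h1 : ∀ a a' b, f (a + a') b = f a b + f a' b) (h2 : ∀ (r : ℝ) a b, f (r • a) b = r * f a b) :
    X →ₗ[ℝ] X →ₗ[ℝ] ℝ :=
  LinearMap.mk₂ ℝ f h1 h2 (fun a b b' => by rw [hs, h1, hs b, hs b']) fun r a b => by
    rw [hs, h2, hs b]; rfl

/-- the abstract Hodge system -/
def OK.sys (h : OK F o) : HSys (CF I M) (Om I M 1) (Om I M 2) where
  J := mkS (fun f g => ∫ x, f.1 x * g.1 x ∂F.μ) (fun f g => by simp only [mul_comm])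
    (fun f f' g => by
      simp only [Submodule.coe_add, Pi.add_apply, add_mul]
      exact integral_add (int_sm (f.2.1.mul g.2.1)) (int_sm (f'.2.1.mul g.2.1)))
    fun r f g => by
      simp only [Submodule.coe_smul, Pi.smul_apply, smul_eq_mul, mul_assoc, integral_const_mul]
  G := mkS (fun a b => ∫ x, g1 F a.1 b.1 x ∂F.μ) (fun a b => by rw [g1_comm])
    (fun a a' b => by
      rw [← integral_add (int_sm (sm_g1 a b)) (int_sm (sm_g1 a' b))]
      simp only [g1, Submodule.coe_add, k1_add, Pi.add_apply, add_mul, sum_add_distrib])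
    fun r a b => by
      simp only [g1, Submodule.coe_smul, k1_smul, Pi.smul_apply, smul_eq_mul, mul_assoc, ← mul_sum,
        integral_const_mul]
  I := mkS (fun a b => integ I (vol F o) (a.1 * b.1)) (fun a b => by rw [mul_comm2 a.2.2])
    (fun a a' b => by
      rw [Submodule.coe_add, add_mul]
      exact integ_add (intOn_sm h.ori (a.2.1.mul b.2.1)) (intOn_sm h.ori (a'.2.1.mul b.2.1)))
    fun r a b => by rw [Submodule.coe_smul, smul_mul_assoc, integ_smul]
  D :=
    { toFun := fun f => ⟨df I f.1, sm_df fun x _ => f.2.1 x, dg_df _⟩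
      map_add' := fun f g => Subtype.ext (funext fun x => df_add (f.2.1 x) (g.2.1 x))
      map_smul' := fun r f => Subtype.ext (ext_k1 F (dg_df _) ((dg_df _).smul r) fun c => by
        rw [k1_df, Submodule.coe_smul, F.D_smul f.2.1, ← k1_df, ← k1_smul]; rfl) }
  δ :=
    { toFun := fun a => cfn (Wz78.sm_dvg (F := F) (sm_k1 (F := F) a))
      map_add' := fun a b => Subtype.ext (funext fun x => by
        simp only [cfn, Wz78.dvg, Submodule.coe_add, k1_add, ← Pre.D_def, F.D_add (sm_k1 a _) (sm_k1 b _),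
          Pi.add_apply, ← sum_add_distrib]
        exact sum_congr rfl fun c _ => by ring)
      map_smul' := fun r a => Subtype.ext (funext fun x => by
        simp only [cfn, Wz78.dvg, Submodule.coe_smul, k1_smul, ← Pre.D_def, F.D_smul (sm_k1 a _),
          Pi.smul_apply, smul_eq_mul, mul_sum, RingHom.id_apply]
        exact sum_congr rfl fun c _ => by ring) }
  d := dO I M 1
  Jdef f hf := Subtype.ext (funext fun x => zero_of_int (F := F) (f := fun _ : Unit => f.1)
    (fun _ => f.2.1) (by simp only [Fintype.sum_unique]; exact hf) () x)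
  Gdef a ha := Subtype.ext (ext_k1 F a.2.2 Dg.zero fun c => funext fun x =>
    (zero_of_int (F := F) (sm_k1 (F := F) a) ha c x).trans (by simp [k1, e1]))
  symm a b := congrArg (integ I (vol F o)) (mul_comm2 a.2.2 b.1)
  adj f a := by
    have h1 := Wz78.integral_dvg (F := F) (f := fun c x => f.1 x * k1 F a.1 c x)
      (fun c => f.2.1.mul (sm_k1 a c)) fun c => HasCompactSupport.of_compactSpace _
    refine eq_neg_of_add_eq_zero_left ((integral_add
      (int_sm (f.2.1.mul (Wz78.sm_dvg (F := F) (sm_k1 (F := F) a))))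
      (int_sm (sm_g1 ⟨df I f.1, sm_df fun x _ => f.2.1 x, dg_df _⟩ a))).symm.trans ?_)
    rw [← h1]
    refine integral_congr_ae (.of_forall fun x => ?_)
    simp only [Wz78.dvg, g1, k1_df, Pi.mul_apply, mul_sum, ← sum_add_distrib, Pre.D_def]
    refine sum_congr rfl fun c _ => ?_
    rw [Wz78.dv_mul (f.2.1 x) (sm_k1 a c x)]; ring
  dD f := Subtype.ext (funext fun x => dM_df (f.2.1 x))
  stokes a b := integ_ex h.ori ((ex_dM a.2.1).mul_cl (cl_dM isOpen_univ b.2.1 b.2.2))

variable (F o) in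
/-- self-dual two-forms -/
def XS : Submodule ℝ (Om I M 2) where
  carrier := {a | IsSD F o a.1}
  add_mem' ha hb c d x := by
    simp only [Submodule.coe_add, k2_add, mul_add, sum_add_distrib, ha c d x, hb c d x]
  zero_mem' c d x := by simp [k2, e2_zero]
  smul_mem' r _ ha c d x := by
    simp only [Submodule.coe_smul, k2_smul, mul_left_comm _ r, ← mul_sum, ha c d x]

theorem OK.spl (h : OK F o) : Spl h.sys.I (XS F o) (XS F fun a b c d x => -o a b c d x) where
  split a := by
    let s : Om I M 2 := ⟨st F o a.1, h.sm_st a.2.1, fun x _ => deg_fm2 F _ x⟩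
    exact ⟨(1 / 2 : ℝ) • (a + s), Submodule.smul_mem _ _ (h.sd_add a.1), (1 / 2 : ℝ) • (a - s),
      Submodule.smul_mem _ _ (h.sd_sub a.1), by module⟩
  orth p hp m hm := by
    have h1 : h.sys.I p m = _ := h.integ_asd p.2.2 hm
    have h2 : h.sys.I m p = _ := h.integ_sd m.2.2 hp
    rw [h.sys.symm, pp_comm] at h2
    linarith
  def1 p hp h0 := Subtype.ext (zero_of_pp (F := F) p.2.1 p.2.2 (by
    have h1 : h.sys.I p p = _ := h.integ_sd p.2.2 hp
    linarith))
  def2 p hp h0 := Subtype.ext (zero_of_pp (F := F) p.2.1 p.2.2 (by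
    have h1 : h.sys.I p p = _ := h.integ_asd p.2.2 hp
    linarith))

theorem OK.mem_Z (h : OK F o) {a : Om I M 2} : a ∈ h.sys.Z ↔ dM I a.1 = 0 :=
  ⟨fun ha => h.closed a.2.1 a.2.2 fun b h1 h2 => ha ⟨b, h1, h2⟩, fun ha b =>
    integ_ex h.ori (Cl.mul_ex ⟨a.2.1, a.2.2, fun x _ => congrFun ha x⟩ (ex_dM b.2.1))⟩

end Crest.Agent.X212.Num57
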