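import Crest.Agent.X212.Num57.Hs

/-!
X212 / NUM (helper57): **Hodge theory** in degrees zero, one, two on a closed oriented Riemannian
four-manifold.
-/

set_option autoImplicit false
set_option linter.unusedSectionVars false
noncomputable section
open scoped Manifold ContDiff Topology InnerProductSpace
open MeasureTheory Finset Module Function
open Crest.Agent.R208 Crest.Agent.R208.F Crest.Agent.R208.FI Crest.Agent.X212.Dr59
open Crest.Agent.X212.Int54 Crest.Agent.X212.An Crest.Agent.X212.Sob92 Crest.Agent.X212.Ell97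
open Crest.Agent.X212.Wz78 (SA)
open Crest.Agent.X212.Map77 (Vol f2 s2 i1 i2 ps inner2 inner_fm fm_ext)
open Crest.Agent.R235.HodgeAbs_194

namespace Crest.Agent.X212.Num57

variable {E : Type} [NormedAddCommGroup E] [NormedSpace ℝ E] [FiniteDimensional ℝ E]
  [MeasurableSpace E] [BorelSpace E]
  {HM : Type} [TopologicalSpace HM] {I : ModelWithCorners ℝ E HM} [I.Boundaryless]
  {M : Type} [TopologicalSpace M] [ChartedSpace HM M] [IsManifold I ∞ M]
  [MeasurableSpace M] [BorelSpace M] [SecondCountableTopology M] {ι : Type} [Fintype ι]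
  {F : Fr I M ι} {o : ι → ι → ι → ι → M → ℝ} {a b : M → Ext E}

theorem sm_toLp {α : Type} [Fintype α] {f : α → M → ℝ} (hf : ∀ a, An.Sm I (f a)) :
    An.Sm I fun x => (WithLp.toLp 2 fun a => f a x : Fm α ℝ) :=
  (PiLp.continuousLinearEquiv 2 ℝ fun _ : α => ℝ).symm.toContinuousLinearMap.contMDiff.comp
    (contMDiff_pi_space.2 hf)

theorem sm_pj {α : Type} [Fintype α] {u : M → Fm α ℝ} (hu : An.Sm I u) (a : α) :
    An.Sm I fun x => u x a := (Map77.pj ℝ a).contMDiff.comp hu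

variable (F) in
/-- the components of a one-form as a vector -/
def v1 (a : M → Ext E) (x : M) : V1 ι := WithLp.toLp 2 fun c => k1 F a c x
variable (F) in
/-- the components of a two-form as a vector -/
def v2 (a : M → Ext E) (x : M) : V2 ι := WithLp.toLp 2 fun s => k2 F a s.1 s.2 x

theorem v2_add (a b : M → Ext E) (x : M) : v2 F (a + b) x = v2 F a x + v2 F b x :=
  fm_ext fun _ => e2_add _ _ _ _
theorem v2_smul (r : ℝ) (a : M → Ext E) (x : M) : v2 F (r • a) x = r • v2 F a x :=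
  fm_ext fun _ => e2_smul _ _ _ _

theorem IsSD.sd (h : IsSD F o a) (x : M) :
    Map77.SD (fun a b => F.P a b x) (fun a b c d => o a b c d x) (v2 F a x) :=
  ⟨fun c d => k2_swap F a d c x, fun c d => k2_P F a c d x, fun c d => h c d x⟩

theorem inner_v2 (a b : M → Ext E) (x : M) : ⟪v2 F a x, v2 F b x⟫_ℝ = pp F a b x := by
  rw [inner_fm, Fintype.sum_prod_type, pp_comm]; rfl

theorem inner_v1 (a b : M → Ext E) (x : M) : ⟪v1 F a x, v1 F b x⟫_ℝ = g1 F a b x := by
  rw [inner_fm]; exact sum_congr rfl fun c _ => mul_comm _ _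

theorem s2_app_v1 (ha : Dr59.Sm I Set.univ a) (h1 : Dg 1 Set.univ a) (x : M) :
    s2 ℝ (V2 ι) ((hop F o).app F (v1 F a) x) = hs F o x (v2 F (dM I a) x) := by
  rw [s2_app (u := v1 F a) (sm_toLp fun c x => sa_k1 F (ha x trivial) c)]
  congr 1
  exact fm_ext fun s => (k2_dM F (ha x trivial) (.of_forall fun y => h1 y trivial) s.1 s.2).symm

theorem f2_app_v1 (ha : Dr59.Sm I Set.univ a) (x : M) :
    f2 ℝ (V2 ι) ((hop F o).app F (v1 F a) x) = Wz78.dvg I F.e F.dv (k1 F a) x :=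
  f2_app (sm_toLp fun c x => sa_k1 F (ha x trivial) c) x

variable [T2Space M] [CompactSpace M]

variable (F o) in
/-- one-forms as sections -/
def cv1 : Om I M 1 →ₗ[ℝ] Sec I (hop F o).p where
  toFun a := ⟨v1 F a.1, sm_toLp (sm_k1 a), HasCompactSupport.of_compactSpace _, fun x =>
    fm_ext fun c => (p1_apply _ c).trans (k1_P F a.1 c x)⟩
  map_add' _ _ := Subtype.ext (funext fun _ => fm_ext fun _ => e1_add _ _ _)
  map_smul' _ _ := Subtype.ext (funext fun _ => fm_ext fun _ => e1_smul _ _ _)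

variable (F o) in
theorem cv1_bij : Bijective (cv1 F o) :=
  ⟨fun a b h => Subtype.ext (ext_k1 F a.2.2 b.2.2 fun c => funext fun x =>
    congrArg (fun u : Sec I (hop F o).p => u.1 x c) h), fun u =>
    ⟨⟨fm1 F fun c x => u.1 x c, fun x _ => smAt_fm1 F fun c => sm_pj u.2.1 c x,
      fun x _ => deg_fm1 F _ x⟩, Subtype.ext (funext fun x => fm_ext fun c =>
        (k1_fm1 F _ c x).trans ((p1_apply _ c).symm.trans
          (congrArg (fun v : V1 ι => v c) (u.2.2.2 x))))⟩⟩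

/-- a pair -/
def mk2 (r : ℝ) (v : V2 ι) : W2 ι := i1 ℝ (V2 ι) r + i2 ℝ (V2 ι) v

theorem f2_mk2 (r : ℝ) (v : V2 ι) : f2 ℝ (V2 ι) (mk2 r v) = r := by simp [mk2]
theorem s2_mk2 (r : ℝ) (v : V2 ι) : s2 ℝ (V2 ι) (mk2 r v) = v := by simp [mk2]

variable (F o) in
/-- functions and self-dual forms as sections -/
def cv2 : CF I M × XS F o →ₗ[ℝ] Sec I (hop F o).q where
  toFun u := ⟨fun x => mk2 (-u.1.1 x) (v2 F u.2.1.1 x),
    ((i1 ℝ (V2 ι)).contMDiff.comp u.1.2.1.neg).add ((i2 ℝ (V2 ι)).contMDiff.comp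
      (sm_toLp fun s : ι × ι => sm_k2 u.2.1 s.1 s.2)), HasCompactSupport.of_compactSpace _,
    fun x => Map77.ext2 (Map77.f2_ps _ _) ((Map77.s2_ps _ _).trans (by
      rw [s2_mk2]; exact sd_fix (IsSD.sd u.2.2 x)))⟩
  map_add' u v := Subtype.ext (funext fun x => Map77.ext2
    (by simp only [Submodule.coe_add, Pi.add_apply, map_add, f2_mk2, Prod.fst_add, neg_add])
    (by simp only [Submodule.coe_add, Pi.add_apply, map_add, s2_mk2, Prod.snd_add, v2_add]))
  map_smul' r u := Subtype.ext (funext fun x => Map77.ext2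
    (by simp only [Submodule.coe_smul, Pi.smul_apply, map_smul, f2_mk2, Prod.smul_fst, smul_neg,
      RingHom.id_apply])
    (by simp only [Submodule.coe_smul, Pi.smul_apply, map_smul, s2_mk2, Prod.smul_snd, v2_smul,
      RingHom.id_apply]))

theorem f2_cv2 (u : CF I M × XS F o) (x : M) : f2 ℝ (V2 ι) ((cv2 F o u).1 x) = -u.1.1 x :=
  f2_mk2 _ _
theorem s2_cv2 (u : CF I M × XS F o) (x : M) :
    s2 ℝ (V2 ι) ((cv2 F o u).1 x) = v2 F u.2.1.1 x := s2_mk2 _ _

theorem OK.cv2_bij (h : OK F o) : Bijective (cv2 F o) := by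
  refine ⟨fun u v e => Prod.ext (Subtype.ext (funext fun x => neg_injective ?_))
    (Subtype.ext (Subtype.ext (ext_k2 F u.2.1.2.2 v.2.1.2.2 fun c d x => ?_))), fun w => ?_⟩
  · rw [← f2_cv2, e, f2_cv2]
  · have := s2_cv2 u x
    rw [e, s2_cv2] at this
    exact (congrArg (fun v : V2 ι => v (c, d)) this).symm
  have hw : ∀ x, Map77.SD (fun a b => F.P a b x) (fun a b c d => o a b c d x) (s2 ℝ (V2 ι) (w.1 x)) :=
    fun x => by
      rw [← w.2.2.2 x, show s2 ℝ (V2 ι) ((hop F o).q x _) = _ from Map77.s2_ps _ _]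
      exact sd_SD (h.vo x) _
  have e : ∀ c d x, k2 F (fm2 F fun c d x => s2 ℝ (V2 ι) (w.1 x) (c, d)) c d x
      = s2 ℝ (V2 ι) (w.1 x) (c, d) := fun c d x =>
    k2_fm2 F (fun c d => (hw x).anti d c) (fun c d => (hw x).pr c d) c d
  refine ⟨(cfn ((f2 ℝ (V2 ι)).contMDiff.comp w.2.1).neg,
    ⟨⟨fm2 F fun c d x => s2 ℝ (V2 ι) (w.1 x) (c, d), fun x _ => smAt_fm2 F fun c d =>
      sm_pj ((s2 ℝ (V2 ι)).contMDiff.comp w.2.1) (c, d) x, fun x _ => deg_fm2 F _ x⟩,
      fun c d x => ?_⟩), Subtype.ext (funext fun x => Map77.ext2 ?_ ?_)⟩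
  · simp only [e]; exact (hw x).st c d
  · rw [f2_cv2]; exact neg_neg _
  · rw [s2_cv2]; exact fm_ext fun s => e s.1 s.2 x

theorem sm_pp (a b : Om I M 2) : An.Sm I (pp F a.1 b.1) :=
  fun x => SA.sum _ fun c _ => SA.sum _ fun d _ => SA.mul (sm_k2 a c d x) (sm_k2 b c d x)

theorem OK.I_sd (h : OK F o) {a : Om I M 2} (ha : IsSD F o a.1) (b : Om I M 2) :
    ∫ x, pp F a.1 b.1 x ∂F.μ = 2 * h.sys.I a b := by
  have : h.sys.I b a = _ := h.integ_sd b.2.2 ha
  rw [h.sys.symm, this, pp_comm]; ring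

theorem OK.form (h : OK F o) (u : CF I M × XS F o) (a : Om I M 1) :
    F.ip 0 (cv2 F o u).1 ((hop F o).app F (cv1 F o a).1)
      = -h.sys.J u.1 (h.sys.δ a) + 2 * h.sys.I u.2 (h.sys.d a) := by
  rw [← h.I_sd u.2.2]
  refine Eq.trans (integral_congr_ae (.of_forall fun x => ?_)) ((integral_add
    (int_sm (u.1.2.1.mul (h.sys.δ a).2.1)).neg (int_sm (sm_pp u.2.1 (h.sys.d a)))).trans
      (congrArg (· + _) (integral_neg _)))
  change ⟪(cv2 F o u).1 x, (hop F o).app F (v1 F a.1) x⟫_ℝ = _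
  rw [inner2, f2_cv2, s2_cv2, s2_app_v1 a.2.1 a.2.2, f2_app_v1 a.2.1, hs, ← sd_symm (h.vo x),
    sd_fix (IsSD.sd u.2.2 x), inner_v2]
  congr 1
  simp only [RCLike.inner_apply, conj_trivial, mul_neg]
  exact congrArg _ (mul_comm _ _)

theorem OK.form0 (h : OK F o) (u v : CF I M × XS F o) :
    F.ip 0 (cv2 F o u).1 (cv2 F o v).1 = h.sys.J u.1 v.1 + 2 * h.sys.I u.2 v.2 := by
  rw [← h.I_sd u.2.2]
  refine Eq.trans (integral_congr_ae (.of_forall fun x => ?_)) (integral_add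
    (int_sm (u.1.2.1.mul v.1.2.1)) (int_sm (sm_pp u.2.1 v.2.1)))
  change ⟪(cv2 F o u).1 x, (cv2 F o v).1 x⟫_ℝ = _
  rw [inner2, f2_cv2, s2_cv2, f2_cv2, s2_cv2, inner_v2]
  congr 1
  simp only [RCLike.inner_apply, conj_trivial, neg_mul_neg]
  exact mul_comm _ _

/-- sections as functions and self-dual forms -/
def OK.Φ (h : OK F o) : Sec I (hop F o).q ≃ₗ[ℝ] CF I M × XS F o :=
  (LinearEquiv.ofBijective _ h.cv2_bij).symm

variable (F o) in
/-- sections as one-forms -/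
def Ψ : Sec I (hop F o).p ≃ₗ[ℝ] Om I M 1 := (LinearEquiv.ofBijective _ (cv1_bij F o)).symm

theorem OK.cv2_Φ (h : OK F o) (u : Sec I (hop F o).q) : cv2 F o (h.Φ u) = u :=
  (LinearEquiv.ofBijective _ h.cv2_bij).apply_symm_apply u
theorem cv1_Ψ (u : Sec I (hop F o).p) : cv1 F o (Ψ F o u) = u :=
  (LinearEquiv.ofBijective _ (cv1_bij F o)).apply_symm_apply u

/-- the operator and its adjoint -/
def OK.hpr (h : OK F o) : HPr h.sys (XS F o) (Sec I (hop F o).q) (Sec I (hop F o).p) where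
  A := LL (good_adj h.good.choose_spec.1 h.good.choose_spec.2).choose_spec
  B := LL h.good.choose_spec.2
  i0 u v := F.ip 0 u.1 v.1
  i1 u v := F.ip 0 u.1 v.1
  i0def _ := ip_def
  i1def _ := ip_def
  adj u w := (F.ip_comm _ _ _).trans
    ((adj_ip h.good.choose_spec.2 w (toT _ u)).symm.trans (F.ip_comm _ _ _))
  Φ := h.Φ
  Ψ := Ψ F o
  c := 2
  c0 := two_ne_zero
  c' := 2
  c'0 := two_ne_zero
  form u w := by have := h.form (h.Φ u) (Ψ F o w); rwa [h.cv2_Φ, cv1_Ψ] at this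
  form0 u v := by have := h.form0 (h.Φ u) (h.Φ v); rwa [h.cv2_Φ, h.cv2_Φ] at this

theorem OK.kerA (h : OK F o) : LinearMap.ker h.hpr.A = kerS F ((hop F o).adj F) := ker_LL _
theorem OK.kerB (h : OK F o) : LinearMap.ker h.hpr.B = kerS F (hop F o) := ker_LL _

theorem OK.finA (h : OK F o) : FiniteDimensional ℝ (LinearMap.ker h.hpr.A) :=
  h.kerA ▸ finite_kerS_adj h.good.choose_spec.1 h.good.choose_spec.2 h.cliff.2
theorem OK.finB (h : OK F o) : FiniteDimensional ℝ (LinearMap.ker h.hpr.B) :=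
  h.kerB ▸ finite_kerS h.good.choose_spec.1 h.good.choose_spec.2 h.cliff.1

/-- **Poisson equation** -/
theorem OK.poisson (h : OK F o) (a : Om I M 1) : ∃ f, h.sys.δ (h.sys.D f) = h.sys.δ a :=
  have := h.finB
  Num57.poisson h.hpr (fun a b => congrArg (integral F.μ) (g1_comm a.1 b.1)) (fun w w' => by
    have : F.ip 0 (cv1 F o (Ψ F o w)).1 (cv1 F o (Ψ F o w')).1 = h.sys.G (Ψ F o w) (Ψ F o w') :=
      congrArg (integral F.μ) (funext (inner_v1 (Ψ F o w).1 (Ψ F o w').1))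
    rwa [cv1_Ψ, cv1_Ψ] at this) (fun w hw =>
    let ⟨u, hu⟩ := solve_adj h.good.choose_spec.1 h.good.choose_spec.2 h.cliff w fun v hv =>
      hw v (Subtype.ext hv)
    ⟨u, Subtype.ext hu⟩) a

/-- solvability of `(d α)⁺ = φ` -/
theorem OK.solve (h : OK F o) {φ : Om I M 2} (hφ : φ ∈ XS F o)
    (h0 : ∀ k ∈ h.sys.Z ⊓ XS F o, h.sys.I φ k = 0) :
    ∃ α, ∃ m ∈ XS F fun a b c d x => -o a b c d x, h.sys.d α = φ + m :=
  h.hpr.solve h.spl (fun u hu =>
    let ⟨w, hw⟩ := Num57.solve h.good.choose_spec.1 h.good.choose_spec.2 h.cliff u fun v hv =>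
      hu v (Subtype.ext hv)
    ⟨w, Subtype.ext hw⟩) φ hφ h0

/-! ### degrees zero and one -/

include F in
theorem exists_fn (ha : Dr59.Sm I Set.univ a) (h0 : Dg 0 Set.univ a) :
    ∃ f : CF I M, a = fn E f.1 :=
  ⟨cfn fun x => sa_e0 (ha x trivial), funext fun x => (eq_alg_of_deg (h0 x trivial)).trans
    (congrArg (fun v => algebraMap ℝ (Ext E) (evA E 0 (a x) v)) (Subsingleton.elim _ _))⟩

theorem dM_cf (f : CF I M) : dM I (fn E f.1) = df I f.1 := funext fun x => dM_fn (Ell97.md f.2.1 x)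

theorem OK.b0 (h : OK F o) : finrank ℝ (LinearMap.ker h.sys.D) = bb I M 0 := by
  have hc : ∀ f : LinearMap.ker h.sys.D, Cl I 0 Set.univ (fn E f.1.1) := fun f =>
    ⟨sm_fn fun x _ => f.1.2.1 x, dg_fn _, fun x _ =>
      (congrFun (dM_cf f.1) x).trans (congrFun (congrArg Subtype.val f.2) x)⟩
  let L : LinearMap.ker h.sys.D →ₗ[ℝ] HR I 0 (Set.univ : Set M) :=
    { toFun := fun f => (hc f).cls
      map_add' := fun f g => (cls_congr fun x _ =>
        map_add (algebraMap ℝ (Ext E)) (f.1.1 x) (g.1.1 x)).trans (cls_add (hc f) (hc g))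
      map_smul' := fun r f => (cls_congr fun x _ => by
        simp [fn, Algebra.smul_def]).trans (cls_smul r (hc f)) }
  refine (LinearEquiv.ofBijective L ⟨fun f g hf => ?_,
    fun y => ?_⟩).finrank_eq
  · refine Subtype.ext (Subtype.ext (funext fun x => ?_))
    have := (cls_eq.1 hf).deg0 ((dg_fn _).sub (dg_fn _)) (Set.mem_univ x)
    exact (algebraMap ℝ (Ext E)).injective (sub_eq_zero.1 this)
  · obtain ⟨a, ha, rfl⟩ := exists_cls y
    obtain ⟨f, rfl⟩ := exists_fn (F := F) ha.sm ha.dg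
    exact ⟨⟨f, Subtype.ext ((dM_cf f).symm.trans (funext fun x => ha.cl x trivial))⟩, rfl⟩

theorem OK.cl_harm (h : OK F o) (a : h.sys.Harm) : Cl I 1 Set.univ a.1.1 :=
  ⟨a.1.2.1, a.1.2.2, fun x _ => congrFun (congrArg Subtype.val a.2.2) x⟩

/-- the class of a harmonic one-form -/
def OK.π1 (h : OK F o) : h.sys.Harm →ₗ[ℝ] HR I 1 (Set.univ : Set M) where
  toFun a := (h.cl_harm a).cls
  map_add' _ _ := cls_add _ _
  map_smul' _ _ := cls_smul _ _

theorem OK.π1_bij (h : OK F o) : Bijective h.π1 := by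
  refine ⟨(injective_iff_map_eq_zero _).2 fun a ha => ?_, fun y => ?_⟩
  · obtain ⟨b, h1, h2, h3⟩ := (cls_eq_zero.1 ha).deg (k := 0) a.1.2.2
    obtain ⟨f, rfl⟩ := exists_fn (F := F) h1 h2
    have e : h.sys.D f = a.1 := Subtype.ext ((dM_cf f).symm.trans (funext fun x => h3 x trivial))
    have h4 := h.sys.adj f a.1
    rw [show h.sys.δ a.1 = 0 from a.2.1, map_zero, e] at h4
    exact Subtype.ext (h.sys.Gdef _ (neg_eq_zero.1 h4.symm))
  · obtain ⟨a, ha, rfl⟩ := exists_cls y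
    obtain ⟨f, hf⟩ := h.poisson ⟨a, ha.sm, ha.dg⟩
    refine ⟨⟨⟨a, ha.sm, ha.dg⟩ - h.sys.D f, ?_, ?_⟩, cls_eq.2 ?_⟩
    · exact (map_sub _ _ _).trans (sub_eq_zero.2 hf.symm)
    · refine (map_sub _ _ _).trans ?_
      rw [h.sys.dD, sub_zero]
      exact Subtype.ext (funext fun x => ha.cl x trivial)
    · exact (ex_df fun x _ => f.2.1 x).neg.congr fun x _ => sub_sub_cancel_left _ _

/-! ### degree two -/

variable (F o) in
/-- closed self-dual forms -/
def Hm : Submodule ℝ (Om I M 2) := LinearMap.ker (dO I M 2) ⊓ XS F o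

theorem cl_hm (a : Hm F o) : Cl I 2 Set.univ a.1.1 :=
  ⟨a.1.2.1, a.1.2.2, fun x _ => congrFun (congrArg Subtype.val a.2.1) x⟩

theorem OK.Z_eq (h : OK F o) : h.sys.Z = LinearMap.ker (dO I M 2) :=
  Submodule.ext fun _ => h.mem_Z.trans (Subtype.ext_iff (a1 := dO I M 2 _) (a2 := 0)).symm

variable (F o) in
/-- the class of a closed self-dual form -/
def π2 : Hm F o →ₗ[ℝ] HR I 2 (Set.univ : Set M) where
  toFun a := (cl_hm a).cls
  map_add' _ _ := cls_add _ _
  map_smul' _ _ := cls_smul _ _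

theorem OK.fin_hm (h : OK F o) : FiniteDimensional ℝ (Hm F o) := by
  have := h.finA
  have := h.hpr.finrank_kerA.2
  rwa [h.Z_eq] at this

theorem OK.Q_pos (h : OK F o) {a : Hm F o} (ha : a ≠ 0) : 0 < Q h.ori (π2 F o a) (π2 F o a) := by
  have := pp_pos (F := F) a.1.2.1 a.1.2.2 fun e => ha (Subtype.ext (Subtype.ext e))
  have e := h.integ_sd a.1.2.2 a.2.2
  exact lt_of_lt_of_eq (by linarith) e.symm

theorem OK.Q_neg' (h : OK F o) {a : Hm F fun a b c d x => -o a b c d x} (ha : a ≠ 0) :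
    Q h.ori (π2 F _ a) (π2 F _ a) < 0 := by
  have := pp_pos (F := F) a.1.2.1 a.1.2.2 fun e => ha (Subtype.ext (Subtype.ext e))
  have e := h.integ_asd a.1.2.2 a.2.2
  exact lt_of_eq_of_lt e (by linarith)

theorem OK.Q_orth (h : OK F o) (a : Hm F o) (b : Hm F fun a b c d x => -o a b c d x) :
    Q h.ori (π2 F o a) (π2 F _ b) = 0 := h.spl.orth a.1 a.2.2 b.1 b.2.2

theorem OK.π2_inj (h : OK F o) : Injective (π2 F o) :=
  (injective_iff_map_eq_zero _).2 fun a ha => by_contra fun h0 => by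
    have := h.Q_pos h0
    rw [ha, map_zero] at this
    exact lt_irrefl _ this

/-- **Hodge decomposition** of closed two-forms -/
theorem OK.hodge2 (h : OK F o) (y : HR I 2 (Set.univ : Set M)) :
    ∃ p m, y = π2 F o p + π2 F (fun a b c d x => -o a b c d x) m := by
  obtain ⟨a, ha, rfl⟩ := exists_cls y
  have := h.fin_hm
  obtain ⟨p, hp, m, hm, e⟩ := h.spl.split ⟨a, ha.sm, ha.dg⟩
  obtain ⟨k, hk, h1⟩ := exists_proj h.sys.I (Hm F o) (fun k hk => h.spl.def1 k hk.2) p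
  obtain ⟨α, m', hm', e'⟩ := h.solve (sub_mem hp hk.2) (by rwa [h.Z_eq])
  have e2 : m - m' = ⟨a, ha.sm, ha.dg⟩ - h.sys.d α - k := by rw [e, e']; abel
  have h2 : dO I M 2 (m - m') = 0 := by
    rw [e2, map_sub, map_sub, show dO I M 2 k = 0 from hk.1, sub_zero, sub_eq_zero]
    exact Subtype.ext (funext fun x => (ha.cl x trivial).trans (α.2.1 x trivial).dd.symm)
  refine ⟨⟨k, hk⟩, ⟨m - m', h2, sub_mem hm hm'⟩, (cls_eq.2 ?_).trans (cls_add _ _)⟩
  refine (ex_dM α.2.1).congr fun x _ => ?_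
  change (a - (k.1 + (m - m').1)) x = (h.sys.d α).1 x
  rw [e2]; simp

theorem OK.isCompl (h : OK F o) : IsCompl (LinearMap.range (π2 F o))
    (LinearMap.range (π2 F fun a b c d x => -o a b c d x)) := by
  refine ⟨Submodule.disjoint_def.2 ?_, codisjoint_iff.2 (eq_top_iff.2 fun y _ => ?_)⟩
  · rintro _ ⟨p, rfl⟩ ⟨m, e⟩
    by_contra h0
    have h1 := h.Q_pos (a := p) fun e => h0 (by rw [e, map_zero])
    rw [← h.Q_orth p m, e] at h1
    exact lt_irrefl _ h1
  · obtain ⟨p, m, rfl⟩ := h.hodge2 y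
    exact Submodule.add_mem_sup ⟨p, rfl⟩ ⟨m, rfl⟩

theorem OK.fin2 (h : OK F o) : FiniteDimensional ℝ (HR I 2 (Set.univ : Set M)) := by
  have := h.fin_hm
  have := h.neg.fin_hm
  exact Module.Finite.of_surjective ((π2 F o).coprod (π2 F fun a b c d x => -o a b c d x))
    fun y => let ⟨p, m, e⟩ := h.hodge2 y; ⟨(p, m), e.symm⟩

theorem OK.fin1 (h : OK F o) : FiniteDimensional ℝ (HR I 1 (Set.univ : Set M)) := by
  have := h.finB
  have e : LinearMap.ker h.hpr.B = h.sys.Harm.comap (h.hpr.Ψ : _ →ₗ[ℝ] Om I M 1) :=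
    Submodule.ext fun w => h.hpr.kerB h.spl w
  rw [e] at this
  exact Module.Finite.equiv ((h.hpr.Ψ.ofSubmodule' h.sys.Harm).trans
    (LinearEquiv.ofBijective _ h.π1_bij))

/-- `b⁺`, `b⁻` are the dimensions of the spaces of closed (anti-)self-dual forms -/
theorem OK.bpm (h : OK F o) : bp h.ori = finrank ℝ (Hm F o) ∧
    bm h.ori = finrank ℝ (Hm F fun a b c d x => -o a b c d x) := by
  have := h.fin2
  rw [← LinearMap.finrank_range_of_inj h.π2_inj, ← LinearMap.finrank_range_of_inj h.neg.π2_inj]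
  refine sig_of_compl (Submodule.finrank_add_eq_of_isCompl h.isCompl) ?_ ?_
  · rintro _ ⟨p, rfl⟩ h0
    exact h.Q_pos fun e => h0 (by rw [e, map_zero])
  · rintro _ ⟨p, rfl⟩ h0
    exact h.Q_neg' fun e => h0 (by rw [e, map_zero])

theorem OK.bp_add_bm (h : OK F o) : bp h.ori + bm h.ori = bb I M 2 := by
  have := h.fin2
  rw [h.bpm.1, h.bpm.2, ← LinearMap.finrank_range_of_inj h.π2_inj,
    ← LinearMap.finrank_range_of_inj h.neg.π2_inj]
  exact Submodule.finrank_add_eq_of_isCompl h.isCompl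

/-- **the intersection form is nondegenerate** -/
theorem OK.Q_nondeg (h : OK F o) {y : HR I 2 (Set.univ : Set M)} (hy : ∀ z, Q h.ori y z = 0) :
    y = 0 := by
  obtain ⟨p, m, rfl⟩ := h.hodge2 y
  have h1 := hy (π2 F o p)
  have h2 := hy (π2 F _ m)
  rw [map_add, LinearMap.add_apply] at h1 h2
  rw [Q_symm _ (π2 F _ m), h.Q_orth, add_zero] at h1
  rw [h.Q_orth, zero_add] at h2
  rw [show p = 0 from by_contra fun h0 => (h.Q_pos h0).ne' h1,
    show m = 0 from by_contra fun h0 => (h.Q_neg' h0).ne h2, map_zero, map_zero, add_zero]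

/-- **the kernel of `(div, d⁺)`** -/
theorem OK.finrank_ker (h : OK F o) : finrank ℝ (kerS F (hop F o)) = bb I M 1 := by
  rw [← h.kerB, h.hpr.finrank_kerB h.spl]
  exact (LinearEquiv.ofBijective _ h.π1_bij).finrank_eq

/-- **the cokernel of `(div, d⁺)`** -/
theorem OK.finrank_ker_adj (h : OK F o) :
    finrank ℝ (kerS F ((hop F o).adj F)) = bb I M 0 + bp h.ori := by
  have := h.finA
  have e := h.hpr.finrank_kerA.1
  rw [h.b0, h.Z_eq, h.kerA] at e
  rw [h.bpm.1]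
  exact e

/-- **the index of `(div, d⁺)`** -/
theorem OK.fr (h : OK F o) (k : ℕ) :
    Fred93.Fr ((hop F o).H F k) ((bb I M 1 : ℤ) - (bb I M 0 + bp h.ori : ℕ)) := by
  rw [← h.finrank_ker, ← h.finrank_ker_adj]
  exact Ell97.fr h.good.choose_spec.1 h.good.choose_spec.2 h.cliff k

end Crest.Agent.X212.Num57
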