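import Crest.Agent.X212.Num57.Germ

/-!
X212 / NUM (helper57), part 4: Chern-Weil forms on a manifold (forms of `Dr59`), on an open set `U`.

* `md`, `cu`, `c1`, `c2`, `cs`, `tg1`, `tg2`, `tpt`, `gr` : the expressions, for matrices of forms;
* `MS`, `Ev`, `Od`, `EqO`, `Co` (connection), `Itw` (intertwiner), `Pa` (parallel endomorphism);
* `c1_closed`, `c2_closed`, `c1_sub`, `c2_sub`, `Itw.tr1`, `Itw.tr2`, `tpt_*`, `gr_*`.
-/

set_option autoImplicit false
set_option linter.unusedSectionVars false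

open Set Filter Topology Function Matrix
open scoped ContDiff Manifold
open Crest.Agent.R208 Crest.Agent.R208.F Crest.Agent.X212.Dr59

noncomputable section

namespace Crest.Agent.X212.Num57

section poly

variable {A A' : Type*} [Ring A] [Algebra ℝ A] [Ring A'] [Algebra ℝ A'] {κ : Type*} [Fintype κ]

/-- curvature from `C` and `D = dC` -/
def cuP (C D : Matrix κ κ A) : Matrix κ κ A := D + C * C
/-- the Chern-Simons expression from `C`, `D = dC`, `a`, `b = da` -/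
def csP (C D a b : Matrix κ κ A) : Matrix κ κ A :=
  (2 : ℝ) • (a * cuP C D) + a * (b + C * a + a * C) + (2 / 3 : ℝ) • (a * a * a)

theorem map_tr (φ : A →ₐ[ℝ] A') (X : Matrix κ κ A) : φ (trace X) = trace (X.map φ) := by
  simp [trace, map_sum]

theorem mp_mul {m n : Type*} (φ : A →ₐ[ℝ] A') (X : Matrix m κ A) (Y : Matrix κ n A) :
    (X * Y).map φ = X.map φ * Y.map φ := by
  ext i j; simp [Matrix.mul_apply, map_sum]
theorem mp_add {m n : Type*} (φ : A →ₐ[ℝ] A') (X Y : Matrix m n A) :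
    (X + Y).map φ = X.map φ + Y.map φ := by
  ext i j; simp
theorem mp_sub {m n : Type*} (φ : A →ₐ[ℝ] A') (X Y : Matrix m n A) :
    (X - Y).map φ = X.map φ - Y.map φ := by
  ext i j; simp
theorem mp_neg {m n : Type*} (φ : A →ₐ[ℝ] A') (X : Matrix m n A) : (-X).map φ = -X.map φ := by
  ext i j; simp
theorem mp_smul {m n : Type*} (φ : A →ₐ[ℝ] A') (r : ℝ) (X : Matrix m n A) :
    (r • X).map φ = r • X.map φ := by
  ext i j; simp
theorem mp_zero {m n : Type*} (φ : A →ₐ[ℝ] A') : (0 : Matrix m n A).map φ = 0 := by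
  ext i j; simp
theorem mp_one [DecidableEq κ] (φ : A →ₐ[ℝ] A') : (1 : Matrix κ κ A).map φ = 1 :=
  Matrix.map_one _ (map_zero φ) (map_one φ)

theorem mp_cuP (φ : A →ₐ[ℝ] A') (C D : Matrix κ κ A) :
    (cuP C D).map φ = cuP (C.map φ) (D.map φ) := by
  rw [cuP, cuP, mp_add, mp_mul]

theorem mp_csP (φ : A →ₐ[ℝ] A') (C D a b : Matrix κ κ A) :
    (csP C D a b).map φ = csP (C.map φ) (D.map φ) (a.map φ) (b.map φ) := by
  simp only [csP, mp_add, mp_mul, mp_smul, mp_cuP]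

end poly

variable {E : Type*} [NormedAddCommGroup E] [NormedSpace ℝ E] [FiniteDimensional ℝ E]
  {H : Type*} [TopologicalSpace H] {I : ModelWithCorners ℝ E H}
  {M : Type*} [TopologicalSpace M] [ChartedSpace H M] [I.Boundaryless] [IsManifold I ∞ M]
  {κ κ' κ'' : Type*} [Fintype κ] [Fintype κ'] [Fintype κ''] [DecidableEq κ] [DecidableEq κ']
  [DecidableEq κ''] {m n : Type*}

section defs
variable (I)

/-- entrywise exterior derivative -/
def md (X : Matrix m n (M → Ext E)) : Matrix m n (M → Ext E) := X.map (dM I)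
/-- curvature -/
def cu (C : Matrix κ κ (M → Ext E)) : Matrix κ κ (M → Ext E) := cuP C (md I C)
/-- first characteristic form `tr (T F)` -/
def c1 (C T : Matrix κ κ (M → Ext E)) : M → Ext E := trace (T * cu I C)
/-- second characteristic form `tr (T F F)` -/
def c2 (C T : Matrix κ κ (M → Ext E)) : M → Ext E := trace (T * (cu I C * cu I C))
/-- primitive of `c1 C' T - c1 C T` -/
def tg1 (C C' T : Matrix κ κ (M → Ext E)) : M → Ext E := trace (T * (C' - C))
/-- primitive of `c2 C' T - c2 C T` (Chern-Simons form) -/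
def tg2 (C C' T : Matrix κ κ (M → Ext E)) : M → Ext E :=
  trace (T * csP C (md I C) (C' - C) (md I (C' - C)))
/-- the transported connection -/
def tpt (C : Matrix κ κ (M → Ext E)) (u : Matrix κ' κ (M → Ext E)) (v : Matrix κ κ' (M → Ext E)) :
    Matrix κ' κ' (M → Ext E) := u * md I v + u * C * v - (1 - u * v) * md I (u * v)
/-- the Grassmann connection -/
def gr (p : Matrix κ κ (M → Ext E)) : Matrix κ κ (M → Ext E) := p * md I p - md I p * p

/-- smooth on `U` -/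
def MS (U : Set M) (X : Matrix m n (M → Ext E)) : Prop := ∀ i j, ∀ x ∈ U, SmAt I (X i j) x

end defs

/-- even on `U` -/
def Ev (U : Set M) (X : Matrix m n (M → Ext E)) : Prop :=
  ∀ i j, ∀ x ∈ U, F.inv (X i j x) = X i j x
/-- odd on `U` -/
def Od (U : Set M) (X : Matrix m n (M → Ext E)) : Prop :=
  ∀ i j, ∀ x ∈ U, F.inv (X i j x) = -X i j x
/-- equal on `U` -/
def EqO (U : Set M) (X Y : Matrix m n (M → Ext E)) : Prop := ∀ i j, ∀ x ∈ U, X i j x = Y i j x

variable (I) in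
/-- a connection on `U` -/
structure Co (U : Set M) (C : Matrix κ κ (M → Ext E)) : Prop where
  sm : MS I U C
  od : Od U C

variable (I) in
/-- `u (d + C) = (d + C') u` on `U` -/
structure Itw (U : Set M) (C : Matrix κ κ (M → Ext E)) (C' : Matrix κ' κ' (M → Ext E))
    (u : Matrix κ' κ (M → Ext E)) : Prop where
  sm : MS I U u
  ev : Ev U u
  eq : EqO U (md I u + C' * u - u * C) 0

variable (I) in
/-- a parallel endomorphism -/
abbrev Pa (U : Set M) (C T : Matrix κ κ (M → Ext E)) : Prop := Itw I U C C T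

variable {U : Set M} {x : M}

/-! ### smoothness -/

theorem MS.add {X Y : Matrix m n (M → Ext E)} (h : MS I U X) (h' : MS I U Y) : MS I U (X + Y) :=
  fun i j x hx => (h i j x hx).add (h' i j x hx)
theorem MS.sub {X Y : Matrix m n (M → Ext E)} (h : MS I U X) (h' : MS I U Y) : MS I U (X - Y) :=
  fun i j x hx => (h i j x hx).sub (h' i j x hx)
theorem MS.neg {X : Matrix m n (M → Ext E)} (h : MS I U X) : MS I U (-X) :=
  fun i j x hx => (h i j x hx).neg
theorem MS.smul {X : Matrix m n (M → Ext E)} (r : ℝ) (h : MS I U X) : MS I U (r • X) :=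
  fun i j x hx => (h i j x hx).smul r
theorem MS.md {X : Matrix m n (M → Ext E)} (h : MS I U X) : MS I U (md I X) :=
  fun i j x hx => SmAt.dM (h i j x hx)
theorem MS.mul {X : Matrix m κ (M → Ext E)} {Y : Matrix κ n (M → Ext E)} (h : MS I U X)
    (h' : MS I U Y) : MS I U (X * Y) := fun i j x hx => by
  rw [Matrix.mul_apply]
  exact cAt_sum fun k _ => (h i k x hx).mul (h' k j x hx)
theorem ms_zero : MS I U (0 : Matrix m n (M → Ext E)) := fun _ _ _ _ => cAt_zero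
theorem ms_one : MS I U (1 : Matrix κ κ (M → Ext E)) := fun i j x _ => by
  by_cases h : i = j
  · subst h; rw [Matrix.one_apply_eq]; exact cAt_one
  · rw [Matrix.one_apply_ne h]; exact cAt_zero
theorem MS.trace {X : Matrix κ κ (M → Ext E)} (h : MS I U X) (hx : x ∈ U) :
    SmAt I (trace X) x := cAt_sum fun k _ => h k k x hx
theorem MS.mono {X : Matrix m n (M → Ext E)} {U' : Set M} (h : MS I U X) (hU : U' ⊆ U) :
    MS I U' X := fun i j x hx => h i j x (hU hx)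
theorem MS.cu {C : Matrix κ κ (M → Ext E)} (h : MS I U C) : MS I U (cu I C) := h.md.add (h.mul h)
theorem MS.c1 {C T : Matrix κ κ (M → Ext E)} (h : MS I U C) (hT : MS I U T) (hx : x ∈ U) :
    SmAt I (c1 I C T) x := (hT.mul h.cu).trace hx
theorem MS.c2 {C T : Matrix κ κ (M → Ext E)} (h : MS I U C) (hT : MS I U T) (hx : x ∈ U) :
    SmAt I (c2 I C T) x := (hT.mul (h.cu.mul h.cu)).trace hx
theorem MS.tg1 {C C' T : Matrix κ κ (M → Ext E)} (h : MS I U C) (h' : MS I U C') (hT : MS I U T)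
    (hx : x ∈ U) : SmAt I (tg1 C C' T) x := (hT.mul (h'.sub h)).trace hx
theorem MS.tg2 {C C' T : Matrix κ κ (M → Ext E)} (h : MS I U C) (h' : MS I U C') (hT : MS I U T)
    (hx : x ∈ U) : SmAt I (tg2 I C C' T) x := by
  have ha := h'.sub h
  exact (hT.mul (((((ha.mul h.cu).smul _).add (ha.mul ((ha.md.add (h.mul ha)).add (ha.mul h))))).add
    (((ha.mul ha).mul ha).smul _))).trace hx

theorem Co.mono {C : Matrix κ κ (M → Ext E)} {U' : Set M} (h : Co I U C) (hU : U' ⊆ U) :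
    Co I U' C := ⟨h.sm.mono hU, fun i j x hx => h.od i j x (hU hx)⟩
theorem Itw.mono {C : Matrix κ κ (M → Ext E)} {C' : Matrix κ' κ' (M → Ext E)}
    {u : Matrix κ' κ (M → Ext E)} {U' : Set M} (h : Itw I U C C' u) (hU : U' ⊆ U) :
    Itw I U' C C' u :=
  ⟨h.sm.mono hU, fun i j x hx => h.ev i j x (hU hx), fun i j x hx => h.eq i j x (hU hx)⟩

/-! ### passage to germs -/

/-- matrix of smooth germs -/
def lf {X : Matrix m n (M → Ext E)} (h : MS I U X) (hx : x ∈ U) : Matrix m n (Sg I x) :=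
  Matrix.of fun i j => sg (X i j) (h i j x hx)

theorem lf_val {X : Matrix m n (M → Ext E)} (h : MS I U X) (hx : x ∈ U) :
    (lf h hx).map (Sg I x).val = X.map (gm x) := rfl

theorem lf_md_val {X : Matrix m n (M → Ext E)} (h : MS I U X) (hx : x ∈ U) :
    ((sc I x).md (lf h hx)).map (Sg I x).val = (md I X).map (gm x) := rfl

theorem val_inj {X Y : Matrix m n (Sg I x)} (h : X.map (Sg I x).val = Y.map (Sg I x).val) :
    X = Y := by
  ext i j
  exact congrFun (congrFun h i) j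

theorem EqO.gm (hU : IsOpen U) {X Y : Matrix m n (M → Ext E)} (h : EqO U X Y) (hx : x ∈ U) :
    X.map (gm x) = Y.map (gm x) := by
  ext i j
  exact gm_eq.2 (mem_of_superset (hU.mem_nhds hx) fun y hy => h i j y hy)

theorem of_gm {X Y : Matrix m n (M → Ext E)} (h : X.map (gm x) = Y.map (gm x)) (i : m) (j : n) :
    X i j x = Y i j x := (gm_eq.1 (congrFun (congrFun h i) j)).self_of_nhds

theorem lf_eq {X Y : Matrix m n (M → Ext E)} (hU : IsOpen U) (h : EqO U X Y) (hX : MS I U X)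
    (hY : MS I U Y) (hx : x ∈ U) : lf hX hx = lf hY hx := val_inj (h.gm hU hx)

theorem lf_mul {X : Matrix m κ (M → Ext E)} {Y : Matrix κ n (M → Ext E)} (hX : MS I U X)
    (hY : MS I U Y) (hx : x ∈ U) : lf (hX.mul hY) hx = lf hX hx * lf hY hx :=
  val_inj (by rw [mp_mul, lf_val, lf_val, lf_val, mp_mul])

theorem lf_sub {X Y : Matrix m n (M → Ext E)} (hX : MS I U X)
    (hY : MS I U Y) (hx : x ∈ U) : lf (hX.sub hY) hx = lf hX hx - lf hY hx :=
  val_inj (by rw [mp_sub, lf_val, lf_val, lf_val, mp_sub])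

theorem Ev.lf (hU : IsOpen U) {X : Matrix m n (M → Ext E)} (h : Ev U X) (hX : MS I U X)
    (hx : x ∈ U) : (sc I x).mi (lf hX hx) = lf hX hx := by
  ext i j
  exact gm_eq.2 (mem_of_superset (hU.mem_nhds hx) fun y hy => h i j y hy)

theorem Od.lf (hU : IsOpen U) {X : Matrix m n (M → Ext E)} (h : Od U X) (hX : MS I U X)
    (hx : x ∈ U) : (sc I x).mi (lf hX hx) = -lf hX hx := by
  ext i j
  exact gm_eq.2 (mem_of_superset (hU.mem_nhds hx) fun y hy => h i j y hy)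

theorem ev_of_lf {X : Matrix m n (M → Ext E)} (hX : MS I U X)
    (h : ∀ x (hx : x ∈ U), (sc I x).mi (lf hX hx) = lf hX hx) : Ev U X := fun i j x hx =>
  (gm_eq.1 (congrArg Subtype.val (congrFun (congrFun (h x hx) i) j))).self_of_nhds

theorem od_of_lf {X : Matrix m n (M → Ext E)} (hX : MS I U X)
    (h : ∀ x (hx : x ∈ U), (sc I x).mi (lf hX hx) = -lf hX hx) : Od U X := fun i j x hx =>
  (gm_eq.1 (congrArg Subtype.val (congrFun (congrFun (h x hx) i) j))).self_of_nhds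

theorem Co.lf (hU : IsOpen U) {C : Matrix κ κ (M → Ext E)} (h : Co I U C) (hx : x ∈ U) :
    (sc I x).Co (lf h.sm hx) := h.od.lf hU h.sm hx

theorem Itw.lf (hU : IsOpen U) {C : Matrix κ κ (M → Ext E)} {C' : Matrix κ' κ' (M → Ext E)}
    {u : Matrix κ' κ (M → Ext E)} (h : Itw I U C C' u) (hC : MS I U C) (hC' : MS I U C')
    (hx : x ∈ U) : (sc I x).Itw (lf hC hx) (lf hC' hx) (lf h.sm hx) := by
  refine ⟨h.ev.lf hU h.sm hx, val_inj ?_⟩
  have := h.eq.gm hU hx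
  rw [mp_sub, mp_add, mp_mul, mp_mul, mp_zero] at this
  rw [mp_sub, mp_add, mp_mul, mp_mul, mp_zero]
  exact this

theorem itw_of_lf {C : Matrix κ κ (M → Ext E)} {C' : Matrix κ' κ' (M → Ext E)}
    {u : Matrix κ' κ (M → Ext E)} (hC : MS I U C) (hC' : MS I U C') (hu : MS I U u)
    (h : ∀ x (hx : x ∈ U), (sc I x).Itw (lf hC hx) (lf hC' hx) (lf hu hx)) : Itw I U C C' u := by
  refine ⟨hu, ev_of_lf hu fun x hx => (h x hx).ev, fun i j x hx => of_gm ?_ i j⟩
  have := congrArg (fun X => X.map (Sg I x).val) (h x hx).eq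
  simp only [mp_sub, mp_add, mp_mul, mp_zero] at this
  rw [mp_sub, mp_add, mp_mul, mp_mul, mp_zero]
  exact this

theorem lf_cu {C : Matrix κ κ (M → Ext E)} (h : MS I U C) (hx : x ∈ U) :
    lf h.cu hx = (sc I x).cu (lf h hx) :=
  val_inj (by
    rw [lf_val, cu, mp_cuP]
    exact (mp_cuP (Sg I x).val (lf h hx) ((sc I x).md (lf h hx))).symm)

theorem gm_trace {X : Matrix κ κ (M → Ext E)} (h : MS I U X) (hx : x ∈ U) :
    gm x (trace X) = (trace (lf h hx)).1 := by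
  rw [map_tr, ← lf_val h hx, ← map_tr]; rfl

theorem gm_c1 {C T : Matrix κ κ (M → Ext E)} (h : MS I U C) (hT : MS I U T) (hx : x ∈ U) :
    gm x (c1 I C T) = ((sc I x).c1 (lf h hx) (lf hT hx)).1 := by
  rw [c1, gm_trace (hT.mul h.cu) hx, lf_mul hT h.cu, lf_cu h]; rfl

theorem gm_c2 {C T : Matrix κ κ (M → Ext E)} (h : MS I U C) (hT : MS I U T) (hx : x ∈ U) :
    gm x (c2 I C T) = ((sc I x).c2 (lf h hx) (lf hT hx)).1 := by
  rw [c2, gm_trace (hT.mul (h.cu.mul h.cu)) hx, lf_mul hT (h.cu.mul h.cu), lf_mul h.cu h.cu,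
    lf_cu h]; rfl

theorem at_of_gm {a b : M → Ext E} (h : gm x a = gm x b) : a x = b x := (gm_eq.1 h).self_of_nhds

/-! ### the theorems -/

section thm

variable {C C₁ T : Matrix κ κ (M → Ext E)} {C' : Matrix κ' κ' (M → Ext E)}
  {C'' : Matrix κ'' κ'' (M → Ext E)} {u : Matrix κ' κ (M → Ext E)} {v : Matrix κ κ' (M → Ext E)}
  {w : Matrix κ'' κ' (M → Ext E)}

theorem c1_closed (hU : IsOpen U) (hC : Co I U C) (h : Pa I U C T) (hx : x ∈ U) :
    dM I (c1 I C T) x = 0 := by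
  refine at_of_gm (b := 0) ?_
  rw [← dG_gm, gm_c1 hC.sm h.sm hx, ← sc_d_val,
    SC.c1_closed (hC.lf hU hx) (SC.itw_iff.1 (h.lf hU hC.sm hC.sm hx)), map_zero]
  rfl

theorem c2_closed (hU : IsOpen U) (hC : Co I U C) (h : Pa I U C T) (hx : x ∈ U) :
    dM I (c2 I C T) x = 0 := by
  refine at_of_gm (b := 0) ?_
  rw [← dG_gm, gm_c2 hC.sm h.sm hx, ← sc_d_val,
    SC.c2_closed (hC.lf hU hx) (SC.itw_iff.1 (h.lf hU hC.sm hC.sm hx)), map_zero]
  rfl

/-- **transgression**, first form -/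
theorem c1_sub (hU : IsOpen U) (hC : Co I U C) (hC₁ : Co I U C₁) (h : Pa I U C T)
    (h₁ : Pa I U C₁ T) (hx : x ∈ U) : c1 I C₁ T x = c1 I C T x + dM I (tg1 C C₁ T) x := by
  refine at_of_gm (b := c1 I C T + dM I (tg1 C C₁ T)) ?_
  rw [map_add, ← dG_gm, gm_c1 hC.sm h.sm hx, gm_c1 hC₁.sm h.sm hx, tg1,
    gm_trace (h.sm.mul (hC₁.sm.sub hC.sm)) hx, ← sc_d_val, lf_mul h.sm (hC₁.sm.sub hC.sm),
    lf_sub hC₁.sm hC.sm,
    SC.c1_sub (hC.lf hU hx) (hC₁.lf hU hx) (SC.itw_iff.1 (h.lf hU hC.sm hC.sm hx))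
      (SC.itw_iff.1 (h₁.lf hU hC₁.sm hC₁.sm hx))]
  rfl

/-- **transgression**, second form -/
theorem c2_sub (hU : IsOpen U) (hC : Co I U C) (hC₁ : Co I U C₁) (h : Pa I U C T)
    (h₁ : Pa I U C₁ T) (hx : x ∈ U) : c2 I C₁ T x = c2 I C T x + dM I (tg2 I C C₁ T) x := by
  refine at_of_gm (b := c2 I C T + dM I (tg2 I C C₁ T)) ?_
  have ho : (sc I x).Co (lf hC₁.sm hx - lf hC.sm hx) := (hC₁.lf hU hx).sub (hC.lf hU hx)
  have e : gm x (tg2 I C C₁ T) = (trace (lf h.sm hx * TD.cs ((sc I x).mat κ).toSD (lf hC.sm hx)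
      (lf hC₁.sm hx - lf hC.sm hx))).1 := by
    rw [TD.cs, ho.cov_eq, tg2, map_tr, mp_mul, mp_csP, ← lf_sub hC₁.sm hC.sm hx,
      ← lf_val hC.sm hx, ← lf_md_val hC.sm hx, ← lf_val (hC₁.sm.sub hC.sm) hx,
      ← lf_md_val (hC₁.sm.sub hC.sm) hx, ← mp_csP, ← lf_val h.sm hx, ← mp_mul, ← map_tr]
    rfl
  rw [map_add, ← dG_gm, gm_c2 hC.sm h.sm hx, gm_c2 hC₁.sm h.sm hx, e, ← sc_d_val,
    SC.c2_sub (hC.lf hU hx) (hC₁.lf hU hx) (SC.itw_iff.1 (h.lf hU hC.sm hC.sm hx))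
      (SC.itw_iff.1 (h₁.lf hU hC₁.sm hC₁.sm hx))]
  rfl

theorem Itw.mul (hU : IsOpen U) (hC : MS I U C) (hC' : MS I U C') (hC'' : MS I U C'')
    (hw : Itw I U C' C'' w) (hu : Itw I U C C' u) : Itw I U C C'' (w * u) :=
  itw_of_lf hC hC'' (hw.sm.mul hu.sm) fun x hx => by
    rw [lf_mul hw.sm hu.sm]
    exact (hw.lf hU hC' hC'' hx).mul (hu.lf hU hC hC' hx)

theorem Itw.cu (hU : IsOpen U) (hC : MS I U C) (hC' : Co I U C') (hu : Itw I U C C' u) :
    EqO U (u * cu I C) (cu I C' * u) := fun i j x hx => by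
  refine of_gm ?_ i j
  rw [← lf_val (hu.sm.mul hC.cu) hx, ← lf_val (hC'.sm.cu.mul hu.sm) hx, lf_mul hu.sm hC.cu,
    lf_mul hC'.sm.cu hu.sm, lf_cu hC, lf_cu hC'.sm, (hu.lf hU hC hC'.sm hx).cu (hC'.lf hU hx)]

theorem Itw.tr1 (hU : IsOpen U) (hC : Co I U C) (hC' : MS I U C') (hu : Itw I U C C' u)
    (hv : Itw I U C' C v) (hT : MS I U T) (h : EqO U (T * (v * u)) T) (hx : x ∈ U) :
    c1 I C' (u * T * v) x = c1 I C T x := by
  refine at_of_gm ?_
  rw [gm_c1 hC' ((hu.sm.mul hT).mul hv.sm) hx, gm_c1 hC.sm hT hx, lf_mul (hu.sm.mul hT) hv.sm,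
    lf_mul hu.sm hT, SC.Itw.tr1 (hC.lf hU hx) (hu.lf hU hC.sm hC' hx) (hv.lf hU hC' hC.sm hx)]
  rw [← lf_mul hv.sm hu.sm, ← lf_mul hT (hv.sm.mul hu.sm)]
  exact lf_eq hU h _ _ hx

theorem Itw.tr2 (hU : IsOpen U) (hC : Co I U C) (hC' : MS I U C') (hu : Itw I U C C' u)
    (hv : Itw I U C' C v) (hT : MS I U T) (h : EqO U (T * (v * u)) T) (hx : x ∈ U) :
    c2 I C' (u * T * v) x = c2 I C T x := by
  refine at_of_gm ?_
  rw [gm_c2 hC' ((hu.sm.mul hT).mul hv.sm) hx, gm_c2 hC.sm hT hx, lf_mul (hu.sm.mul hT) hv.sm,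
    lf_mul hu.sm hT, SC.Itw.tr2 (hC.lf hU hx) (hu.lf hU hC.sm hC' hx) (hv.lf hU hC' hC.sm hx)]
  rw [← lf_mul hv.sm hu.sm, ← lf_mul hT (hv.sm.mul hu.sm)]
  exact lf_eq hU h _ _ hx

theorem MS.tpt (hC : MS I U C) (hu : MS I U u) (hv : MS I U v) : MS I U (tpt I C u v) :=
  ((hu.mul hv.md).add ((hu.mul hC).mul hv)).sub ((ms_one.sub (hu.mul hv)).mul (hu.mul hv).md)

theorem lf_tpt (hC : MS I U C) (hu : MS I U u) (hv : MS I U v) (hx : x ∈ U) :
    lf (hC.tpt hu hv) hx = (sc I x).tpt (lf hC hx) (lf hu hx) (lf hv hx) :=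
  val_inj (by
    rw [lf_val, SC.tpt, tpt, ← lf_mul hu hv]
    simp only [mp_sub, mp_add, mp_mul, mp_one, lf_val, lf_md_val])

theorem tpt_co (hU : IsOpen U) (hC : Co I U C) (hu : MS I U u) (hv : MS I U v) (eu : Ev U u)
    (ev : Ev U v) : Co I U (tpt I C u v) :=
  ⟨hC.sm.tpt hu hv, od_of_lf (hC.sm.tpt hu hv) fun x hx => by
    rw [lf_tpt hC.sm hu hv]
    exact SC.tpt_co (hC.lf hU hx) (eu.lf hU hu hx) (ev.lf hU hv hx)⟩

theorem tpt_u (hU : IsOpen U) (hC : MS I U C) (hu : MS I U u) (hv : MS I U v) (eu : Ev U u)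
    (ev : Ev U v) (hp : Pa I U C (v * u)) (h : EqO U (u * (v * u)) u) :
    Itw I U C (tpt I C u v) u :=
  itw_of_lf hC (hC.tpt hu hv) hu fun x hx => by
    rw [lf_tpt hC hu hv]
    refine SC.tpt_u (eu.lf hU hu hx) (ev.lf hU hv hx) ?_ ?_
    · rw [← lf_mul hv hu]
      exact SC.itw_iff.1 (hp.lf hU hC hC hx)
    · rw [← lf_mul hv hu, ← lf_mul hu (hv.mul hu)]
      exact lf_eq hU h _ _ hx

theorem tpt_v (hU : IsOpen U) (hC : MS I U C) (hu : MS I U u) (hv : MS I U v)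
    (ev : Ev U v) (hp : Pa I U C (v * u)) (h : EqO U (v * u * v) v) :
    Itw I U (tpt I C u v) C v :=
  itw_of_lf (hC.tpt hu hv) hC hv fun x hx => by
    rw [lf_tpt hC hu hv]
    refine SC.tpt_v (ev.lf hU hv hx) ?_ ?_
    · rw [← lf_mul hv hu]
      exact SC.itw_iff.1 (hp.lf hU hC hC hx)
    · rw [← lf_mul hv hu, ← lf_mul (hv.mul hu) hv]
      exact lf_eq hU h _ _ hx

theorem MS.gr (hT : MS I U T) : MS I U (gr I T) := (hT.mul hT.md).sub (hT.md.mul hT)

theorem lf_gr (hT : MS I U T) (hx : x ∈ U) :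
    lf hT.gr hx = ((sc I x).mat κ).gr (lf hT hx) :=
  val_inj (by
    rw [lf_val, SD.gr, gr, SC.mat_d]
    simp only [mp_sub, mp_mul, lf_val, lf_md_val])

theorem gr_co (hU : IsOpen U) (hT : MS I U T) (eT : Ev U T) : Co I U (gr I T) :=
  ⟨hT.gr, od_of_lf hT.gr fun x hx => by
    rw [lf_gr hT]
    exact SD.gr_od (S := ((sc I x).mat κ).toSD) (eT.lf hU hT hx)⟩

theorem gr_pa (hU : IsOpen U) (hT : MS I U T) (eT : Ev U T) (h : EqO U (T * T) T) :
    Pa I U (gr I T) T :=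
  itw_of_lf hT.gr hT.gr hT fun x hx => by
    rw [lf_gr hT]
    refine SC.itw_iff.2 (SD.gr_par (S := ((sc I x).mat κ).toSD) (eT.lf hU hT hx) ?_)
    rw [← lf_mul hT hT]
    exact lf_eq hU h _ _ hx

end thm

end Crest.Agent.X212.Num57
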