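import Crest.Agent.X212.Num57.Pt
import Crest.Agent.X212.Num57.Form
import Crest.Agent.X212.Wz78.Int
import Crest.Agent.X212.Sob92.Lim
import Crest.Agent.X212.Int54.Stokes

/-!
X212 / NUM (helper57), part 6: the coframe of an `An.Fr`; forms from components and back.

* `tl F a x`, `th F a` : the coframe;  `cf F x : Cf ..`;  `smAt_th`;
* `fm1 F α`, `fm2 F β`, `vol F o` : forms from components;
* `k1 F b a`, `k2 F b a c` : components of forms;
* `k2_dM` : `d` of a one-form in components.
-/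

set_option autoImplicit false
set_option linter.unusedSectionVars false

open Finset Module Filter Topology
open scoped Manifold ContDiff
open Crest.Agent.R208 Crest.Agent.R208.F Crest.Agent.R208.FI Crest.Agent.X212.Dr59
open Crest.Agent.X212.Int54 Crest.Agent.X212.An Crest.Agent.X212.Sob92
open Crest.Agent.X212.Wz78 (SA frm frPr)

noncomputable section

namespace Crest.Agent.X212.Num57

variable {E : Type} [NormedAddCommGroup E] [NormedSpace ℝ E] [FiniteDimensional ℝ E]
  [MeasurableSpace E] [BorelSpace E]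
  {HM : Type} [TopologicalSpace HM] {I : ModelWithCorners ℝ E HM} [I.Boundaryless]
  {M : Type} [TopologicalSpace M] [ChartedSpace HM M] [IsManifold I ∞ M]
  [MeasurableSpace M] [BorelSpace M] [SecondCountableTopology M] {ι : Type} [Fintype ι]
  (F : Fr I M ι)

/-- the frame vectors in the model space -/
def ee (x : M) (a : ι) : E := F.e a x

theorem exists_comb (x : M) (v : E) : ∃ c : ι → ℝ, v = ∑ a, c a • ee F x a := by
  have h : v ∈ Submodule.span ℝ (Set.range fun a => ee F x a) := by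
    have := F.span x
    exact (show Submodule.span ℝ (Set.range fun a => ee F x a) = ⊤ from this) ▸ Submodule.mem_top
  obtain ⟨c, hc⟩ := (Submodule.mem_span_range_iff_exists_fun ℝ).1 h
  exact ⟨c, hc.symm⟩

theorem exists_sec (x : M) :
    ∃ s : E →ₗ[ℝ] (ι → ℝ), ∀ v, ∑ a, s v a • ee F x a = v := by
  obtain ⟨s, hs⟩ := (Fintype.linearCombination ℝ (ee F x)).exists_rightInverse_of_surjective
    (LinearMap.range_eq_top.2 fun v => by
      obtain ⟨c, hc⟩ := exists_comb F x v
      exact ⟨c, by rw [Fintype.linearCombination_apply, ← hc]⟩)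
  exact ⟨s, fun v => by simpa [Fintype.linearCombination_apply] using LinearMap.congr_fun hs v⟩

/-- the coframe, as covectors -/
def tl (x : M) (a : ι) : Dual ℝ E :=
  ∑ b, F.P a b x • (LinearMap.proj b ∘ₗ (exists_sec F x).choose)

theorem tl_comb (x : M) (a : ι) (ξ : ι → ℝ) :
    tl F x a (∑ b, ξ b • ee F x b) = ∑ b, F.P a b x * ξ b := by
  have h := F.P_ker x (fun b => (exists_sec F x).choose (∑ b, ξ b • ee F x b) b - ξ b) (by
    have := (exists_sec F x).choose_spec (∑ b, ξ b • ee F x b)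
    simp only [sub_smul, sum_sub_distrib]
    exact sub_eq_zero.2 this) a
  simp only [mul_sub, sum_sub_distrib] at h
  simp only [tl, LinearMap.sum_apply, LinearMap.smul_apply, LinearMap.comp_apply,
    LinearMap.proj_apply, smul_eq_mul]
  exact sub_eq_zero.1 h

theorem cf (x : M) : Cf (ee F x) (tl F x) fun a b => F.P a b x where
  te a b := by
    classical
    have := tl_comb F x a (Pi.single b 1)
    simpa [Pi.single_apply] using this
  ex v := by
    obtain ⟨c, rfl⟩ := exists_comb F x v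
    simp only [tl_comb, sum_smul]
    rw [sum_comm]
    refine sum_congr rfl fun b _ => ?_
    conv_rhs => rw [show ee F x b = ∑ a, F.P b a x • ee F x a from (F.P_e b x).symm, smul_sum]
    exact sum_congr rfl fun a _ => by rw [smul_smul, F.P_symm a b, mul_comm]
  symm a b := F.P_symm a b x

/-- the coframe, as one-forms -/
def th (a : ι) (x : M) : Ext E := io (tl F x a)

/-- components of a one-form -/
def k1 (b : M → Ext E) (a : ι) (x : M) : ℝ := e1 (b x) (ee F x a)
/-- components of a two-form -/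
def k2 (b : M → Ext E) (a c : ι) (x : M) : ℝ := e2 (b x) (ee F x a) (ee F x c)

/-- the one-form with given components -/
def fm1 (α : ι → M → ℝ) : M → Ext E := ∑ a, α a • th F a
/-- the two-form with given components -/
def fm2 (β : ι → ι → M → ℝ) : M → Ext E :=
  ∑ a, ∑ b, (fun x => 1 / 2 * β a b x) • (th F a * th F b)
/-- the four-form with given components -/
def vol (o : ι → ι → ι → ι → M → ℝ) : M → Ext E :=
  ∑ a, ∑ b, ∑ c, ∑ d, (fun x => 1 / 24 * o a b c d x) • (th F a * (th F b * (th F c * th F d)))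

theorem fm1_apply (α : ι → M → ℝ) (x : M) : fm1 F α x = ∑ a, α a x • io (tl F x a) := by
  simp only [fm1, Finset.sum_apply]; rfl
theorem fm2_apply (β : ι → ι → M → ℝ) (x : M) :
    fm2 F β x = ∑ a, ∑ b, (1 / 2 * β a b x) • (io (tl F x a) * io (tl F x b)) := by
  simp only [fm2, Finset.sum_apply]; rfl
theorem vol_apply (o : ι → ι → ι → ι → M → ℝ) (x : M) :
    vol F o x = vl (tl F x) fun a b c d => o a b c d x := by
  simp only [vol, Finset.sum_apply]; rfl

theorem deg_fm1 (α : ι → M → ℝ) (x : M) : IsDeg 1 (fm1 F α x) := by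
  rw [fm1_apply]; exact Cf.deg1 _ _
theorem deg_fm2 (β : ι → ι → M → ℝ) (x : M) : IsDeg 2 (fm2 F β x) := by
  rw [fm2_apply]; exact Cf.deg2 _ _

theorem k1_fm1 (α : ι → M → ℝ) (k : ι) (x : M) :
    k1 F (fm1 F α) k x = ∑ a, F.P k a x * α a x := by
  rw [k1, fm1_apply, (cf F x).e1_comb]

theorem fm1_k1 {b : M → Ext E} {x : M} (h : IsDeg 1 (b x)) : fm1 F (k1 F b) x = b x := by
  rw [fm1_apply]; exact ((cf F x).eq1 h).symm

theorem fm2_k2 {b : M → Ext E} {x : M} (h : IsDeg 2 (b x)) : fm2 F (k2 F b) x = b x := by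
  rw [fm2_apply]; exact ((cf F x).eq2 h).symm

theorem k1_df (g : M → ℝ) (a : ι) : k1 F (df I g) a = F.D a g := funext fun _ => e1_io _ _

/-- coordinate functions of the chart at `x₀` -/
def yc (x₀ : M) (i : Fin (finrank ℝ E)) (x : M) : ℝ := (finBasis ℝ E).coord i (extChartAt I x₀ x)

/-- the coordinate functionals -/
def co (i : Fin (finrank ℝ E)) : E →L[ℝ] ℝ := LinearMap.toContinuousLinearMap ((finBasis ℝ E).coord i)

omit [MeasurableSpace M] [BorelSpace M] [SecondCountableTopology M] in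
theorem sm_yc {x₀ x : M} (hx : x ∈ (extChartAt I x₀).source) (i : Fin (finrank ℝ E)) :
    SA I (yc (I := I) x₀ i) x :=
  (co i).contDiff.contMDiff.contMDiffAt.comp x (contMDiffAt_chart hx)

theorem D_yc {x₀ x : M} (hx : x ∈ (extChartAt I x₀).source) (i : Fin (finrank ℝ E)) (a : ι) :
    F.D a (yc (I := I) x₀ i) x = (finBasis ℝ E).coord i (F.D a (extChartAt I x₀) x) :=
  dv_clm (co i) ((contMDiffAt_chart hx).mdifferentiableAt (by simp))

/-- local form of the coframe -/
theorem exists_th (x₀ : M) : ∃ f : ι → Fin (finrank ℝ E) → M → ℝ, (∀ a i, SA I (f a i) x₀) ∧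
    ∀ᶠ x in 𝓝 x₀, ∀ a, th F a x = (∑ i, f a i • df I (yc (I := I) x₀ i)) x := by
  obtain ⟨R, hR, hR'⟩ := exists_rinv F.sm x₀ (exists_comb F x₀)
  refine ⟨fun a i x => ∑ b, F.P a b x * R x (finBasis ℝ E i) b, fun a i => ?_, ?_⟩
  · refine SA.sum _ fun b _ => SA.mul (F.P_sm a b x₀) ?_
    exact (ContinuousLinearMap.proj (R := ℝ) (φ := fun _ : ι => ℝ) b).contDiff.contMDiff.contMDiffAt.comp
      x₀ (hR.clm_apply contMDiffAt_const)
  · filter_upwards [hR', extChartAt_source_mem_nhds (I := I) x₀] with x h1 h2 a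
    refine (cf F x).ext1' (isDeg_io _) ?_ fun k => ?_
    · rw [Finset.sum_apply]
      exact IsDeg.sum _ fun i _ => (isDeg_io _).smul _
    have inj : Function.Injective (mfderiv I 𝓘(ℝ, E) (extChartAt I x₀) x) := by
      obtain ⟨L, hL⟩ := isInvertible_mfderiv_extChartAt (I := I) (x := x₀) (y := x) h2
      rw [← hL]; exact L.injective
    have e : ee F x k = ∑ b, R x (F.D k (extChartAt I x₀) x) b • ee F x b := by
      apply inj
      have := h1 (F.D k (extChartAt I x₀) x)
      rw [comb_apply] at this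
      refine this.symm.trans ?_
      exact ((map_sum (mfderiv I 𝓘(ℝ, E) (extChartAt I x₀) x) _ _).trans
        (sum_congr rfl fun b _ => map_smul _ _ _)).symm
    rw [th, e1_io, e, tl_comb, ← e, Finset.sum_apply, e1_sum]
    conv_lhs => rw [← (finBasis ℝ E).sum_repr (F.D k (extChartAt I x₀) x)]
    simp only [map_sum, map_smul, Finset.sum_apply, Pi.smul_apply, smul_eq_mul, mul_sum]
    rw [sum_comm]
    refine sum_congr rfl fun i _ => ?_
    rw [Pi.smul_apply', e1_smul, show e1 (df I (yc x₀ i) x) (ee F x k) = F.D k (yc x₀ i) x from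
      e1_io _ _, D_yc F h2, sum_mul]
    exact sum_congr rfl fun b _ => by rw [Basis.coord_apply]; ring

theorem smAt_th (a : ι) (x : M) : SmAt I (th F a) x := by
  obtain ⟨f, hf, h⟩ := exists_th F x
  refine CAt.congr (cAt_sum (s := univ) fun i _ => CAt.fsmul le_rfl (hf a i)
    (smAt_df (sm_yc (mem_extChartAt_source x) i))) (h.mono fun y hy => hy a)

theorem smAt_fm1 {α : ι → M → ℝ} {x : M} (h : ∀ a, SA I (α a) x) : SmAt I (fm1 F α) x :=
  cAt_sum fun a _ => CAt.fsmul le_rfl (h a) (smAt_th F a x)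

theorem smAt_fm2 {β : ι → ι → M → ℝ} {x : M} (h : ∀ a b, SA I (β a b) x) : SmAt I (fm2 F β) x :=
  cAt_sum fun a _ => cAt_sum fun b _ => CAt.fsmul le_rfl (SA.mul contMDiffAt_const (h a b))
    ((smAt_th F a x).mul (smAt_th F b x))

theorem smAt_vol {o : ι → ι → ι → ι → M → ℝ} {x : M} (h : ∀ a b c d, SA I (o a b c d) x) :
    SmAt I (vol F o) x :=
  cAt_sum fun a _ => cAt_sum fun b _ => cAt_sum fun c _ => cAt_sum fun d _ =>
    CAt.fsmul le_rfl (SA.mul contMDiffAt_const (h a b c d))
      ((smAt_th F a x).mul ((smAt_th F b x).mul ((smAt_th F c x).mul (smAt_th F d x))))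

/-- `d` in components, for a local combination of differentials -/
theorem k2_dM_loc {n : Type} [Fintype n] {f g : n → M → ℝ} {x : M} (hf : ∀ i, SA I (f i) x)
    (hg : ∀ i, SA I (g i) x) {b : M → Ext E} (h : b =ᶠ[𝓝 x] ∑ i, f i • df I (g i)) (a c : ι) :
    k2 F (dM I b) a c x
      = F.D a (k1 F b c) x - F.D c (k1 F b a) x - ∑ k, F.c a c k x * k1 F b k x := by
  have h1 : ∀ c, k1 F b c =ᶠ[𝓝 x] fun y => ∑ i, f i y * F.D c (g i) y := fun c => by
    filter_upwards [h] with y hy
    rw [k1, hy, Finset.sum_apply, e1_sum]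
    exact sum_congr rfl fun i _ => by rw [Pi.smul_apply', e1_smul]; congr 1; exact e1_io _ _
  have h2 : ∀ a c, F.D a (k1 F b c) x
      = ∑ i, (F.D a (f i) x * F.D c (g i) x + f i x * F.D a (F.D c (g i)) x) := fun a c => by
    rw [Pre.D_def, dv_congr (h1 c)]
    refine (Wz78.dv_sum' _ fun i => SA.mul (hf i) ((frm F).sD c (hg i))).trans ?_
    exact sum_congr rfl fun i _ => Wz78.dv_mul (hf i) ((frm F).sD c (hg i))
  rw [k2, dM_congr h, dM_sum ne0 fun i _ => CAt.fsmul le_rfl (hf i) (smAt_df (hg i)), e2_sum, h2,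
    h2]
  simp only [fun k => (h1 k).self_of_nhds, mul_sum]
  rw [sum_comm, ← sum_sub_distrib, ← sum_sub_distrib]
  refine sum_congr rfl fun i _ => ?_
  rw [dM_fsmul ne0 (hf i).md (smAt_df (hg i)), dM_df (hg i), smul_zero, add_zero, df, df, e2_io_io]
  have hb := (frm F).br a c (g i) x (hg i)
  have : ∑ k, F.c a c k x * (f i x * F.D k (g i) x)
      = f i x * (F.D a (F.D c (g i)) x - F.D c (F.D a (g i)) x) := by
    rw [show F.D a (F.D c (g i)) x - F.D c (F.D a (g i)) x = _ from hb, mul_sum]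
    exact sum_congr rfl fun k _ => mul_left_comm _ _ _
  rw [this]
  change F.D a (f i) x * F.D c (g i) x - F.D c (f i) x * F.D a (g i) x = _
  ring

/-- **`d` of a one-form in components** -/
theorem k2_dM_fm1 {α : ι → M → ℝ} {x : M} (h : ∀ a, SA I (α a) x) (a c : ι) :
    k2 F (dM I (fm1 F α)) a c x = F.D a (k1 F (fm1 F α) c) x - F.D c (k1 F (fm1 F α) a) x
      - ∑ k, F.c a c k x * k1 F (fm1 F α) k x := by
  obtain ⟨f, hf, h'⟩ := exists_th F x
  refine k2_dM_loc F (f := fun i y => ∑ a, α a y * f a i y) (g := fun i => yc x i)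
    (fun i => SA.sum _ fun a _ => SA.mul (h a) (hf a i))
    (fun i => sm_yc (mem_extChartAt_source x) i) ?_ a c
  filter_upwards [h'] with y hy
  simp only [fm1, Finset.sum_apply, Pi.smul_apply', hy, smul_sum, sum_smul, smul_smul]
  exact sum_comm

omit [MeasurableSpace M] [BorelSpace M] [SecondCountableTopology M] in
theorem sa_e0 {a : M → Ext E} {x : M} (ha : SmAt I a x) :
    SA I (fun y => evA E 0 (a y) ![]) x := by
  let L : Ext E →L[ℝ] ℝ := LinearMap.toContinuousLinearMap
    { toFun := fun c => evA E 0 c ![]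
      map_add' := fun _ _ => by simp
      map_smul' := fun _ _ => by simp }
  have h : SA I (fun y => L (rp I x a (extChartAt I x y))) x :=
    (L.contDiff.contDiffAt.comp _ ha).contMDiffAt.comp x
      (contMDiffAt_chart (mem_extChartAt_source x))
  refine h.congr_of_eventuallyEq ?_
  filter_upwards [extChartAt_source_mem_nhds (I := I) x] with y hy
  rw [← pm_chart_rp hy a, pm_apply, evA_pb]
  exact congrArg _ (Subsingleton.elim _ _)

theorem sa_k1 {b : M → Ext E} {x : M} (hb : SmAt I b x) (a : ι) : SA I (k1 F b a) x := by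
  have := sa_e0 (cAt_ic le_rfl (F.sm a x) hb)
  exact this.congr_of_eventuallyEq (.of_forall fun y => e1_eq _ _)

theorem sa_k2 {b : M → Ext E} {x : M} (hb : SmAt I b x) (a c : ι) : SA I (k2 F b a c) x := by
  have := sa_k1 F (cAt_ic le_rfl (F.sm a x) hb) c
  exact this.congr_of_eventuallyEq (.of_forall fun y => e2_eq _ _ _)

/-- **`d` of a one-form in components** -/
theorem k2_dM {b : M → Ext E} {x : M} (hb : SmAt I b x) (h1 : ∀ᶠ y in 𝓝 x, IsDeg 1 (b y))
    (a c : ι) : k2 F (dM I b) a c x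
      = F.D a (k1 F b c) x - F.D c (k1 F b a) x - ∑ k, F.c a c k x * k1 F b k x := by
  have e : fm1 F (k1 F b) =ᶠ[𝓝 x] b := h1.mono fun y hy => fm1_k1 F hy
  have e' : ∀ a, k1 F (fm1 F (k1 F b)) a =ᶠ[𝓝 x] k1 F b a := fun a =>
    e.mono fun y hy => by rw [k1, hy]; rfl
  have h := k2_dM_fm1 F (sa_k1 F hb) a c
  rw [k2, dM_congr e, Pre.D_def, Pre.D_def, dv_congr (e' c), dv_congr (e' a)] at h
  simp only [fun k => (e' k).self_of_nhds] at h
  exact h

theorem k2_fm2 {β : ι → ι → M → ℝ} {x : M} (h1 : ∀ a b, β b a x = -β a b x)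
    (h2 : ∀ a b, ∑ k, F.P a k x * β k b x = β a b x) (a b : ι) :
    k2 F (fm2 F β) a b x = β a b x := by
  have h3 : ∀ a b, ∑ k, F.P b k x * β a k x = β a b x := fun a b => by
    rw [h1 b a, ← h2 b a, ← sum_neg_distrib]
    exact sum_congr rfl fun k _ => by rw [h1 k a, mul_neg]
  have h4 : ∀ a b, ∑ k, F.P a k x * ∑ l, F.P b l x * (1 / 2 * β k l x) = 1 / 2 * β a b x :=
    fun a b => by
      rw [← h2 a b, mul_sum]
      refine sum_congr rfl fun k _ => ?_
      rw [← h3 k b, mul_sum, mul_sum, mul_sum]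
      exact sum_congr rfl fun l _ => by ring
  rw [k2, fm2_apply, (cf F x).e2_comb, h4, h4, h1 a b]; ring

theorem k2_swap (b : M → Ext E) (a c : ι) (x : M) : k2 F b c a x = -k2 F b a c x := e2_swap _ _ _
theorem k2_P (b : M → Ext E) (a c : ι) (x : M) : ∑ k, F.P a k x * k2 F b k c x = k2 F b a c x :=
  (cf F x).p2 _ _ _
theorem k1_P (b : M → Ext E) (a : ι) (x : M) : ∑ k, F.P a k x * k1 F b k x = k1 F b a x :=
  (cf F x).p1 _ _

/-- the orientation form of smooth unit components -/
theorem ori_vol (h4 : finrank ℝ E = 4) {o : ι → ι → ι → ι → M → ℝ}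
    (hs : ∀ a b c d, An.Sm I (o a b c d))
    (ho : ∀ x, Vo (fun a b => F.P a b x) fun a b c d => o a b c d x) : Ori I (vol F o) :=
  ⟨fun x => smAt_vol F fun a b c d => hs a b c d x, fun x => by
    rw [vol_apply]; exact (ho x).tp_ne h4 (cf F x)⟩

theorem rat_vol (h4 : finrank ℝ E = 4) {o : ι → ι → ι → ι → M → ℝ} {x : M}
    (ho : Vo (fun a b => F.P a b x) fun a b c d => o a b c d x) (b : M → Ext E) :
    rat (vol F o) b x = ph (ee F x) (fun a b c d => o a b c d x) (b x) := by
  rw [rat, vol_apply]; exact ho.tp_div h4 (cf F x) _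

/-- the wedge product of two 2-forms in components -/
theorem rat_vol_mul (h4 : finrank ℝ E = 4) {o : ι → ι → ι → ι → M → ℝ} {x : M}
    (ho : Vo (fun a b => F.P a b x) fun a b c d => o a b c d x) {u : M → Ext E}
    (hu : IsDeg 2 (u x)) (v : M → Ext E) : rat (vol F o) (u * v) x
      = 1 / 4 * ∑ a, ∑ b, ∑ c, ∑ d, o a b c d x * (k2 F u a b x * k2 F v c d x) := by
  rw [rat_vol F h4 ho]; exact ho.ph_mul (cf F x) hu _

theorem e4_vol {o : ι → ι → ι → ι → M → ℝ} {x : M}
    (ho : Vo (fun a b => F.P a b x) fun a b c d => o a b c d x) (a b c d : ι) :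
    e4 (vol F o x) (ee F x a) (ee F x b) (ee F x c) (ee F x d) = o a b c d x := by
  rw [vol_apply]; exact ho.e4_vl (cf F x) a b c d

end Crest.Agent.X212.Num57
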