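import Crest.Agent.X212.Num57.Pc
import Crest.Agent.X212.G75.Defs

/-!
# X212 / Num57 (helper57): the numbers `G75.Scene.Nb`

`isq` (intersection number of closed forms on an open set with a lattice), independence of the lattice,
block sums; `nb_of_lat`, `nb_eq`, `nb_uniq`, `exists_nb`, `nb_int` (characteristic integrals).
-/

set_option autoImplicit false
set_option linter.unusedSectionVars false
set_option linter.style.haveILetI false

open Set Function Module Matrix MeasureTheory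
open scoped ContDiff Manifold
open Crest.Agent.R208.F (Ext)
open Crest.Agent.R208.FI

noncomputable section

namespace Crest.Agent.X212.Num57
open Dr59 Int54 An M G75
open Line51 (Ln)

section alg

variable {ι κ : Type*} [Fintype ι] [DecidableEq ι] [Fintype κ] [DecidableEq κ]

theorem qf_apply (G : Matrix ι ι ℝ) (x : ι → ℝ) : G.toQuadraticForm' x = x ⬝ᵥ G *ᵥ x := by
  rw [toQuadraticForm', LinearMap.BilinMap.toQuadraticMap_apply, toLinearMap₂'_apply']

theorem sigPos_le {G : Matrix ι ι ℝ} {G' : Matrix κ κ ℝ} (f : (ι → ℝ) →ₗ[ℝ] κ → ℝ)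
    (h : ∀ x, x ⬝ᵥ G *ᵥ x ≤ f x ⬝ᵥ G' *ᵥ f x) :
    sigPos G.toQuadraticForm' ≤ sigPos G'.toQuadraticForm' := by
  obtain ⟨V, h1, h2⟩ := exists_finrank_eq_sigPos_and_posDef G.toQuadraticForm'
  have p : ∀ x ∈ V, x ≠ 0 → 0 < f x ⬝ᵥ G' *ᵥ f x := fun x hx h0 =>
    ((h2 ⟨x, hx⟩ fun k => h0 (congrArg Subtype.val k)).trans_eq (qf_apply G x)).trans_le (h x)
  have i : Injective (f.domRestrict V) := (injective_iff_map_eq_zero _).2 fun x hx =>
    Subtype.ext (by_contra fun h0 => by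
      have := p x x.2 h0
      rw [show f x = 0 from hx, zero_dotProduct] at this
      exact this.false)
  rw [← h1, ← LinearMap.finrank_range_of_inj i]
  refine le_sigPos_of_posDef _ ?_
  rintro ⟨_, x, rfl⟩ h0
  exact (p x x.2 fun k => h0 (Subtype.ext ((congrArg f k).trans f.map_zero))).trans_eq
    (qf_apply G' _).symm

theorem sigNeg_eq (G : Matrix ι ι ℝ) : sigNeg G.toQuadraticForm' = sigPos (-G).toQuadraticForm' := by
  rw [← sigPos_neg]
  congr 1
  ext x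
  rw [_root_.neg_apply, qf_apply, qf_apply, neg_mulVec, dotProduct_neg]

theorem sigNeg_le {G : Matrix ι ι ℝ} {G' : Matrix κ κ ℝ} (f : (ι → ℝ) →ₗ[ℝ] κ → ℝ)
    (h : ∀ x, f x ⬝ᵥ G' *ᵥ f x ≤ x ⬝ᵥ G *ᵥ x) :
    sigNeg G.toQuadraticForm' ≤ sigNeg G'.toQuadraticForm' := by
  rw [sigNeg_eq, sigNeg_eq]
  exact sigPos_le f fun x => by simpa only [neg_mulVec, dotProduct_neg, neg_le_neg_iff] using h x

theorem inv_blocks {G : Matrix ι ι ℝ} {G' : Matrix κ κ ℝ} (h : G.det ≠ 0) (h' : G'.det ≠ 0)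
    (x y : ι ⊕ κ → ℝ) : x ⬝ᵥ (fromBlocks G 0 0 G')⁻¹ *ᵥ y =
      x ∘ .inl ⬝ᵥ G⁻¹ *ᵥ y ∘ .inl + x ∘ .inr ⬝ᵥ G'⁻¹ *ᵥ y ∘ .inr := by
  rw [inv_eq_left_inv (B := fromBlocks G⁻¹ 0 0 G'⁻¹) (by
    simp [fromBlocks_multiply, nonsing_inv_mul _ h.isUnit, nonsing_inv_mul _ h'.isUnit]),
    fromBlocks_mulVec]
  simp [dotProduct, Fintype.sum_sum_type]

end alg

section gen

variable {E : Type*} [NormedAddCommGroup E] [NormedSpace ℝ E] [FiniteDimensional ℝ E]
  [MeasurableSpace E] [BorelSpace E] {H : Type*} [TopologicalSpace H] {I : ModelWithCorners ℝ E H} [I.Boundaryless]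
  {M : Type*} [TopologicalSpace M] [ChartedSpace H M] [IsManifold I ∞ M] [T2Space M]
  [SecondCountableTopology M] [MeasurableSpace M] [BorelSpace M]
  {ι κ : Type*} [Fintype ι] [DecidableEq ι] [Fintype κ] [DecidableEq κ]
  {U V K L : Set M} {o a b : M → Ext E} {e : ι → M → Ext E} {f : κ → M → Ext E}
  {G : Matrix ι ι ℝ} {G' : Matrix κ κ ℝ}

variable (I) in
/-- the intersection number of two closed forms, computed in a lattice -/
def isq (o : M → Ext E) (e : ι → M → Ext E) (G : Matrix ι ι ℝ) (a b : M → Ext E) : ℝ :=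
  (fun i => ip I o a (e i)) ⬝ᵥ G⁻¹ *ᵥ fun i => ip I o b (e i)

theorem isq_coh (h : Lat I o U K e G) {a' b' : M → Ext E} (ha : Sm I U a) (ha' : Sm I U a')
    (hb : Sm I U b) (hb' : Sm I U b') (h1 : Ex I U (a - a')) (h2 : Ex I U (b - b')) :
    isq I o e G a b = isq I o e G a' b' := by
  simp only [isq, fun i => (h.csU i).ip_coh h.ori ha ha' h1, fun i => (h.csU i).ip_coh h.ori hb hb' h2]

/-- **the intersection number does not depend on the lattice** -/
theorem isq_eq (h : Lat I o U K e G) (h' : Lat I o U L f G') (ha : Cl I 2 U a) (hb : Cl I 2 U b) :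
    isq I o e G a b = isq I o f G' a b := by
  have c := (h.cs_comb ((fun j => ip I o b (e j)) ᵥ* G⁻¹)).mono h.sub
  have x : Ex I U (a - a) := by rw [sub_self]; exact Ex.zero
  rw [isq_coh h ha.sm ha.sm hb.sm (c.on U).sm x (h.span hb),
    isq_coh h' ha.sm ha.sm hb.sm (c.on U).sm x (h.span hb)]
  exact (h.ip_eq ha c).symm.trans (h'.ip_eq ha c)

theorem ip_qf (h : Lat I o U K e G) (x : ι → ℝ) :
    ip I o (∑ i, x i • e i) (∑ i, x i • e i) = x ⬝ᵥ G *ᵥ x := by
  rw [h.ip_comb _ ((h.cs_comb x).mono h.sub)]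
  refine Finset.sum_congr rfl fun a _ => ?_
  rw [ip_comm (h.cs a).cl.dg, congrFun (h.ip_comb_e x) a, ← h.symm, vecMul_transpose, h.symm]

/-- a family of compactly supported classes in a lattice -/
theorem lat_map (h : Lat I o U K e G) (hf : ∀ i, Cs I 2 U (f i))
    (hg : ∀ i j, ip I o (f i) (f j) = G' i j) :
    ∃ p : (κ → ℝ) →ₗ[ℝ] ι → ℝ, ∀ x, p x ⬝ᵥ G *ᵥ p x = x ⬝ᵥ G' *ᵥ x := by
  refine ⟨(Matrix.of (fun i j => ip I o (f i) (e j)) * G⁻¹).vecMulLinear, fun x => ?_⟩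
  have c : Cs I 2 U (∑ i, x i • f i) := cs_sum fun i _ => (hf i).smul _
  have s : ∀ {y}, Cs I 2 U y → ip I o (∑ i, x i • f i) y = ∑ i, x i * ip I o (f i) y := fun hy => by
    rw [hy.ip_sum h.ori fun i _ => (((hf i).on U).smul _).sm]; simp only [ip_smul]
  have v : (fun j => ip I o (∑ i, x i • f i) (e j)) = x ᵥ* Matrix.of fun i j => ip I o (f i) (e j) :=
    funext fun j => s (h.csU j)
  have k := h.ip_eq (c.on U) c
  rw [vecMulLinear_apply, ← vecMul_vecMul, ← v, ← vecMul_transpose G, h.symm, vecMul_vecMul,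
    nonsing_inv_mul _ (Ne.isUnit h.det), vecMul_one, ← dotProduct_mulVec, ← k, s c]
  refine Finset.sum_congr rfl fun a _ => ?_
  rw [ip_comm (hf a).cl.dg, s (hf a), mulVec, dotProduct]
  exact congrArg _ (Finset.sum_congr rfl fun b _ => by rw [ip_comm (hf b).cl.dg, hg, mul_comm])

/-- **monotonicity of `b⁺`, `b⁻`** -/
theorem sig_mono (h : Lat I o U K e G) (h' : Lat I o V L f G') (hL : L ⊆ U) :
    sigPos G'.toQuadraticForm' ≤ sigPos G.toQuadraticForm' ∧
      sigNeg G'.toQuadraticForm' ≤ sigNeg G.toQuadraticForm' :=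
  let ⟨p, hp⟩ := lat_map h (fun i => (h'.cs i).mono hL) h'.gram
  ⟨sigPos_le p fun x => (hp x).ge, sigNeg_le p fun x => (hp x).le⟩

theorem sig_eq (h : Lat I o U K e G) (h' : Lat I o U L f G') :
    sigPos G.toQuadraticForm' = sigPos G'.toQuadraticForm' ∧
      sigNeg G.toQuadraticForm' = sigNeg G'.toQuadraticForm' :=
  ⟨(sig_mono h' h h.sub).1.antisymm (sig_mono h h' h'.sub).1,
    (sig_mono h' h h.sub).2.antisymm (sig_mono h h' h'.sub).2⟩

theorem isq_union (h : Lat I o U K e G) (h' : Lat I o V L f G') (a b : M → Ext E) :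
    isq I o (Sum.elim e f) (fromBlocks G 0 0 G') a b = isq I o e G a b + isq I o f G' a b :=
  inv_blocks h.det h'.det _ _

theorem sig_union (h : Lat I o U K e G) (h' : Lat I o V L f G') (hs : Sj I 1 U V)
    (hd : Disjoint K L) : sigPos (fromBlocks G 0 0 G').toQuadraticForm' =
      sigPos G.toQuadraticForm' + sigPos G'.toQuadraticForm' ∧
    sigNeg (fromBlocks G 0 0 G').toQuadraticForm' =
      sigNeg G.toQuadraticForm' + sigNeg G'.toQuadraticForm' := by
  obtain ⟨e', d, k⟩ := lat_diag h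
  obtain ⟨f', d', k'⟩ := lat_diag h'
  have u := sig_eq (h.union h' hs hd) (k.union k' hs hd)
  have n : ∀ P : ℝ → Prop, {i | P (Sum.elim d d' i)}.ncard = {i | P (d i)}.ncard + {i | P (d' i)}.ncard :=
    fun P => by
      rw [← ncard_image_of_injective {i | P (d i)} (Sum.inl_injective (β := κ)),
        ← ncard_image_of_injective {i | P (d' i)} (Sum.inr_injective (α := ι)),
        ← ncard_union_eq disjoint_image_inl_image_inr]
      congr 1
      ext (i | i) <;> simp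
  rw [u.1, u.2, fromBlocks_diagonal, (sig_eq h k).1, (sig_eq h k).2, (sig_eq h' k').1, (sig_eq h' k').2]
  simp only [sig_diag]
  exact ⟨n _, n (· < 0)⟩

end gen

section scene

variable {κ lam : Type} [Fintype κ] [Fintype lam] [DecidableEq lam] {Lm : LM κ lam} {S : Scene Lm}
  {i : S.L} {U K : Set S.X.M} {β sg l2 β' sg' l2' : ℝ} {ι : Type} [Fintype ι] [DecidableEq ι]
  {e : ι → S.X.M → Ext S.X.E} {G : Matrix ι ι ℝ}

variable (S i) in
/-- the curvature of the line -/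
abbrev FL : S.X.M → Ext S.X.E := Ln.F S.X.I ⟨(S.N i).p, 0⟩

theorem cl_FL (hU : IsOpen U) : Cl S.X.I 2 U (FL S i) := ((S.N i).ok.mono (subset_univ _)).cl_F hU

theorem isq_diag {d : ι → ℝ} (h : Lat S.X.I S.M.o U K e (diagonal d)) (a : S.X.M → Ext S.X.E) :
    isq S.X.I S.M.o e (diagonal d) a a / (2 * Real.pi) ^ 2
      = ∑ n, (ip S.X.I S.M.o a (e n) / (2 * Real.pi)) ^ 2 / d n := by
  rw [isq, inv_diag h.det, Finset.sum_div]
  exact Finset.sum_congr rfl fun n _ => by ring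

/-- **the numbers in any lattice** -/
theorem nb_eq (h : S.Nb i U β sg l2) (L : Lat S.X.I S.M.o U K e G) :
    β = 1 - finrank ℝ (HR S.X.I 1 U) + sigPos G.toQuadraticForm' ∧
    sg = (sigPos G.toQuadraticForm' : ℝ) - sigNeg G.toQuadraticForm' ∧
    l2 = isq S.X.I S.M.o e G (FL S i) (FL S i) / (2 * Real.pi) ^ 2 := by
  obtain ⟨_, _, _, f, d, k, rfl, rfl, rfl⟩ := h
  rw [(sig_eq L k).1, (sig_eq L k).2, isq_eq L k (cl_FL L.op) (cl_FL L.op), isq_diag k,
    (sig_diag d).1, (sig_diag d).2]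
  exact ⟨rfl, rfl, rfl⟩

theorem nb_of_lat (i : S.L) (L : Lat S.X.I S.M.o U K e G) :
    S.Nb i U (1 - finrank ℝ (HR S.X.I 1 U) + sigPos G.toQuadraticForm')
      ((sigPos G.toQuadraticForm' : ℝ) - sigNeg G.toQuadraticForm')
      (isq S.X.I S.M.o e G (FL S i) (FL S i) / (2 * Real.pi) ^ 2) := by
  obtain ⟨f, d, k⟩ := lat_diag (L.mono L.sub Subset.rfl)
  have h : S.Nb i U _ _ _ := ⟨ι, _, _, f, d, k, rfl, rfl, rfl⟩
  obtain ⟨h1, h2, h3⟩ := nb_eq h L
  rwa [h1, h2, h3] at h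

theorem nb_uniq (h : S.Nb i U β sg l2) (h' : S.Nb i U β' sg' l2') : β = β' ∧ sg = sg' ∧ l2 = l2' := by
  obtain ⟨_, _, _, _, _, k, -⟩ := id h
  obtain ⟨h1, h2, h3⟩ := nb_eq h k
  obtain ⟨k1, k2, k3⟩ := nb_eq h' k
  exact ⟨h1.trans k1.symm, h2.trans k2.symm, h3.trans k3.symm⟩

variable {c : S.M.Cl} {π : Reg S.A} (h : S.M.sys.Piece c.1 π) (hp : ∀ a ∈ Sys.bd π, S.M.pin a)
include h hp

/-- **every capped piece has numbers** -/
theorem exists_nb (i : S.L) : ∃ β sg l2, S.Nb i (S.M.sys.U π) β sg l2 :=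
  let ⟨_, _, _, k⟩ := exists_lat_U h hp
  ⟨_, _, _, nb_of_lat i k⟩

/-- **the numbers are the characteristic integrals over the capped piece** -/
theorem nb_int {W : World S.M} (Λ : Lns W (S.N i)) (m : S.M.Cl) {p : Prm S.A} (hO : p ∈ S.M.O c.1)
    (hN : S.Nb i (S.M.sys.U π) β sg l2) :
    ∫ z in W.pc c π, (eud (W.F m c p) (Λ.B m c).o z + sgd (W.F m c p) (Λ.B m c).o z) / 2
      ∂(W.F m c p).μ = β ∧
    ∫ z in W.pc c π, sgd (W.F m c p) (Λ.B m c).o z ∂(W.F m c p).μ = sg ∧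
    ∫ z in W.pc c π, lad (Λ.B m c) (Λ.G m c p) z ∂(W.F m c p).μ = l2 := by
  obtain ⟨_, _, _, _, _, k, -⟩ := id hN
  obtain ⟨rfl, rfl, rfl⟩ := nb_eq hN k
  exact pc_nums h Λ m hp hO k

end scene

end Crest.Agent.X212.Num57
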