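import Crest.Agent.X212.Nt66.Defs
import Crest.Agent.X212.Spl54.Ex
import Crest.Agent.X212.Spl54.Ch

/-!
# Row 212, NT-IDX (helper57): restricted charts and their indices
-/

set_option autoImplicit false
set_option linter.unusedSectionVars false
noncomputable section
open scoped Manifold ContDiff Topology
open MeasureTheory Set Function Filter

namespace Crest.Agent.X212.Nti57
open An M Nd18 Mod61 Nk89 Cht98 Rf65 Rdc90 Pte3 Eqv71 Wrd81 Spl54 Nt66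

section syn
variable {M lam : Type} [Fintype lam] {r n : ℕ} {O O' : Set M}

theorem co_mono {d : Co M lam r} (h : d.Van O) (k : O' ⊆ O) : d.Van O' := by
  cases d
  exacts [h, fun x hx => h x (k hx)]

theorem van_mono {t : Tm M lam r n} (h : t.Van O) (k : O' ⊆ O) : t.Van O' := by
  cases t
  case lin => exact let ⟨f, w, e, h⟩ := h; ⟨f, w, e, fun x hx => h x (k hx)⟩
  case anti => exact h.imp (fun h x hx => h x (k hx)) (co_mono · k)
  case adj => exact h.imp (fun h x hx => h x (k hx)) (co_mono · k)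
  case cz => exact h
  all_goals exact fun x hx => h x (k hx)

end syn

theorem W_end {Z : Mf 4} {ι lam T : Type} [Fintype ι] [Fintype lam] [NormedAddCommGroup T]
    [NormedSpace ℝ T] {𝔉 : Mod61.Fam Z.I Z.M ι lam T} (o : Ref 𝔉) {t : T} {x : Z.M}
    (hS : ∀ a b, 𝔉.S t x a b = 𝔉.B.P a b x ∧ 𝔉.Si t x a b = 𝔉.B.P a b x)
    (hc : 𝔉.cf t x = 0 ∧ 𝔉.la t x = 0) (a : ι) :
    o.W t 0 a x = ∑ j, 𝔉.B.P a j x • o.A t j x := by
  simp [Ref.W, Md.addC, Fam.W0, hS, hc]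

theorem eq_self {κ lam : Type} [Fintype κ] [Fintype lam] {Y : Mf 3} [CompactSpace Y.M]
    {D : YD Y.I Y.M κ lam} (hD : D.OK) {m : Md Y.M (Option κ) lam} {W W₁ W₂ : m.Cn}
    {Φ Φ₁ Φ₂ : Y.M → m.V} {z z₁ z₂} (A : D.Adm ⟨m, W, Φ, z⟩)
    (e₁ : (⟨m, W₁, Φ₁, z₁⟩ : YC Y.M κ lam) = ⟨m, W, Φ, z⟩)
    (e₂ : (⟨m, W₂, Φ₂, z₂⟩ : YC Y.M κ lam) = ⟨m, W, Φ, z⟩) :
    Mod61.EqOn D.B D.Z univ (cy ⟨m, W₁, Φ₁, z₁⟩) (cy ⟨m, W₂, Φ₂, z₂⟩) (fun x => m.p x.1) 1 := by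
  cases e₁; cases e₂
  exact ceq_refl hD.B hD.G (ad0 A.adm) isOpen_univ

variable {Wi : Type} {X : Mf 4} {A κ lam : Type} [Fintype A] [Fintype κ] [Fintype lam]
  [DecidableEq lam] {M : Mark X A κ} {W : World M} {N : ML M lam} {Λ : Lns W N}
  {A' h : Type} [Fintype A'] [DecidableEq A'] [Fintype h] {r n : ℕ}
  {J : Job Wi Λ A' h r n} {c : M.Cl} {σ : Cel A'} {δ : ℝ}
  {p : Prt A A' h} {U : Type} [Fintype U] {b : Bp J c} {E : EC b p U δ} {y : J.Obc c}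
  {x : Pnt E.o r} {ψ : E.K} {δ₀ : ℝ} {μ : Ed c → Option U} {P P' : Set (Reg A)}

theorem pg_sp (H : PG J c σ p) (h1 : P ⊆ p.P) (h2 : P' ⊆ P) : PG J c σ (sp p P P' ∅) :=
  ⟨H.ok, H.mem, fun π k => H.pok.pc π (h1 k), h2, H.pok.fr, fun _ k => k.elim,
    fun s s' a a' e =>
      let ⟨k1, k2, k3, _⟩ := H.pok.loc s s' a a' e
      ⟨k1, fun π k => k2 π (h1 k), fun w => (k3 w).imp_right
        (van_mono · (biUnion_subset_biUnion_left h1)), fun _ k => k.elim⟩⟩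

/-- the index of the unperturbed equations of a chart -/
theorem idx_eq0 (H : PG J c σ p) (eo : E.OK) (z : E.o.Φ0 = 0) (hP : PJ J c)
    (hF : ∀ a ∈ cylW c, ∀ β f, Bs (J.xs a).D β → Fz κ (lam ⊕ lam) 8 (Add46.jX J a) f β δ)
    (go : Go δ y p.P) (hf : ∀ i ∈ EdP c p.P, ∀ t ∈ (b.F p U δ).Q,
      Flt (J.xs i.1).D ((en E i).sl E.o (E.R + 1) t))
    (g : LG (J.B c) (J.G c y.s) (J.B c) (J.G c (b.θ p U x.t)) (W.un c p.P) id
      (fun z a i => (J.B c).P a i z) (J.B c).l) {u ζ}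
    (e : Mod61.EqOn (J.B c) (J.G c y.s).F (W.un c p.P) y.x.con (x0 x).cfg u ζ)
    {d : ℤ} (hd : Ix δ y p.P p.P' d) (m : ℕ) : Idx 8 ((b.F p U δ).eq0 r n m) x d := by
  obtain ⟨⟨s, br, hO⟩, o, R, x', e, -, -, -, ⟨u', ζ', e'⟩, hd⟩ := hd
  obtain rfl : s = y.s := e
  let Y := H.ends U b eo.d0 eo.d1
  have hl : Y.Lit E.o E.R := ⟨eo.R5, eo.lit⟩
  have k' : (go.bp.Fm p.P p.P' (fun _ : T0 => y.s) δ).OK :=
    (Add46.jGR H.ok H.pok.pc H.pok.sub go.bp eo.d0 eo.d1).X.ok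
  have A0 := fun r n m => Add46.aff_eq0 (r := r) (n := n) (m := m) Y hl z fun i k =>
    hf i ((H.act_iff _ _).1 k)
  obtain ⟨f0, h0⟩ := (Map77.adj_rem Y.ok).rp (A0 0 0 0) 8 (by norm_num)
  obtain ⟨f1, h1⟩ := (Map77.adj_rem Y.ok).rp (A0 r n m) 8 (by norm_num)
  have a := ad0_of go.adm
  have a' := x'.ad0 k'
  have e2 := ceq_trans (lg_refl g.hB g.hG H.cl.2) g (mapsTo_id _) a' a ((x0 x).ad0 Y.ok)
    (ceq_symm_id g.hB g.hG H.cl.2 a a' e') e
  rw [show (fun z d a => ∑ i, (J.B c).P d i (id z) * (J.B c).P i a z) = fun z i a => (J.B c).P i a z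
    from funext₃ fun z => (g.hB.pr z).idem, show (fun z => (J.B c).l (id z) ∘L (J.B c).l z) =
      (J.B c).l from funext g.hB.lidem] at e2
  refine (idx_iff Y.ok (by norm_num) h1 x).2 ((Ends.cq_two (X := Y) (by norm_num) hl (A0 0 0 0)
    (A0 r n m) h0 h1 (y := x0 x) (y' := x) rfl fun i hi k k0 => ?_).symm.fr ?_)
  · have hi' := (H.act_iff _ _).1 hi
    have l := fun r n m => Add46.loc_eq0 (r := r) (n := n) (m := m) (k := 8) Y hl hi
      (hP.nil _ i.1.2).1 k k0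
    have bs := bs_sl Y hl z (a := i) x.ht (hf i hi' _ x.ht)
    exact ⟨_, cyl_fz (Y := Add46.jX J i.1) bs (fun f => hF _ i.1.2 _ f bs) _ k k0, l _ _ _, l _ _ _⟩
  · rw [Nat27.TT_eq Y.ok (by norm_num) h0]
    exact ff_tr (y := x') (y' := x0 x) k' Y.ok g (Map77.cb_P k') rfl rfl
      (isCompact_thk W.toCaps c (J.Θ y.s) one_pos (by norm_num))
      (μ_thk H.ok go.bp b (fun _ : T0 => y.s) (b.θ p U)) e2
      (Nat27.idx_ff k' (by norm_num) hd)

variable (H : CS σ E) (z : E.o.Φ0 = 0) {t₀ : Tq p U} (h0 : t₀ ∈ (b.F p U δ).Q) (K : Set h)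
include H z h0

/-- the slices of the frozen reference -/
theorem sl_rf (i : Ed c) {s : ℝ} (hs : 5 < s) {t : Tq p U} (ht : t ∈ (b.F p U δ).Q) :
    (en (res E t₀ P P' K) i).sl (rf E t₀ P P' K) s t = (en E i).sl E.o s t₀ := by
  have k := H.ee.okP i
  have u := fun w => End14.pt_U k (R := 5) le_rfl hs w
  refine congrArg₂ (fun W Φ => (⟨((en E i).sl E.o s t₀).m, W, Φ, 0⟩ : YC _ κ (lam ⊕ lam)))
    (funext₂ fun a w => ?_) (funext fun w => (congrFun z _).symm)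
  have e := W_end (rf E t₀ P P' K) (k.S _ ht _ (u w)) (k.cf _ ht _ (u w)) a
  rw [(rf E t₀ P P' K).A_eq] at e
  exact e.trans (W_end E.o (k.S _ h0 _ (u w)) (k.cf _ h0 _ (u w)) a).symm

/-- the restricted chart -/
theorem ok_res : (res E t₀ P P' K).OK := by
  have eo := H.eo
  have R := eo.R5.trans_lt (lt_add_one _)
  refine ⟨eo.d0, eo.d1, eo.R5, fun i => ⟨fun t ht s hs => ?_, fun t ht w => ?_⟩,
    fun _ _ k => (k rfl).elim, fun i _ t ht => ?_⟩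
  · exact (sl_rf H z h0 K i (eo.R5.trans_lt hs) ht).trans (((eo.lit i).eq _ h0 s hs).trans
      (sl_rf H z h0 K i R ht).symm)
  · have := congrArg (fun β => ∀ w, β.W none w = 0) (sl_rf (P := P) (P' := P') H z h0 K i R ht)
    exact this.mpr ((eo.lit i).tmp _ h0) w
  · exact eq_self (H.ee.okP i).D ((eo.lit i).adm H.F (H.ee.okP i) eo.R5 h0)
      ((congrArg (bh _ · 0) (smul_zero _)).trans (Rd78.bh_zero _)) (sl_rf H z h0 K i R ht)

omit z h0 in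
/-- **the index of a restricted chart** -/
theorem idx_res (hy : J.Ov σ c y.s) (ch : E.Ch δ₀ σ μ y x ψ) (hP : PJ J c)
    (hF : ∀ a ∈ cylW c, ∀ β f, Bs (J.xs a).D β → Fz κ (lam ⊕ lam) 8 (Add46.jX J a) f β δ)
    (h1 : P ⊆ p.P) (h2 : P' ⊆ P) (h3 : P' ⊆ p.P') {d : ℤ} (hd : Ix δ y P P' d) (m : ℕ) :
    Idx 8 ((b.F (sp p P P' ∅) U δ).eq0 r n m) (rx H x h1 h3 ∅) d := by
  have G := pg_sp H.toPG h1 h2
  obtain ⟨u, ζ, e⟩ := ceq0 H.toPG hy ch
  have s : W.un c P ⊆ W.un c p.P := biUnion_subset_biUnion_left h1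
  have e := ceq_mono e s
  refine idx_eq0 (E := res E x.t P P' ∅) (x := rx H x h1 h3 ∅) G (ok_res H ch.z x.ht ∅) rfl hP hF (go_mono ch.go h1)
    (fun i ⟨π, a, k⟩ t ht => ?_)
    (G.pok.kt2 H.ok H.mem hy (H.ovx x) (θ_eq ch.rep.s)).toLG (u := u) (ζ := ζ)
    ⟨e.m, fun w hw a => ?_, fun w hw => ?_, Subsingleton.elim _ _⟩ hd m
  · erw [sl_rf H ch.z x.ht ∅ i (H.eo.R5.trans_lt (lt_add_one _)) ht]
    exact flt_ch H.toPG hy ch hP ⟨π, h1 a, k⟩ x.ht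
  · have k : ∀ a, (x0 (E := res E x.t P P' ∅) (rx H x h1 h3 ∅)).cfg.W a w = (x0 x).cfg.W a w :=
      fun a => by
        refine congrArg₂ (· + ·) ?_ (congrArg (fun v => opL (idx _ _ v a)) (indicator_of_mem hw _))
        rw [(rf E x.t P P' ∅).A_eq]
        rfl
    refine Eq.trans ?_ (e.W w hw a)
    exact congrArg (fun S => _ + S ∘L u w - _) (Finset.sum_congr rfl fun j _ => congrArg _ (k j))
  · exact (add_zero _).trans (((congrFun ch.z w).symm.trans (add_zero _).symm).trans (e.Φ w hw))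

section scene
open G75 Ins26
variable {κ lam : Type} [Fintype κ] [Fintype lam] [DecidableEq lam] (Lm : LM κ lam)

/-- **NT-IDX** -/
theorem idx : NfStmt Lm Idx2 := fun _ _ _ _ r _ J _ _ _ _ _ c G _ hP => by
  obtain ⟨δ₀, h0, h1⟩ := exists_fz J c G.ok hP
  refine ⟨δ₀, h0, fun δ hδ => .of fun _ σ q y l b E x ψ C => ?_⟩
  have ch := C.gd.ch
  have k := fun (P' : Set _) (s : P' ⊆ {hp l.1 false}) => idx_res C.cs (C.θ ▸ C.cs.ovx x) ch hP (h1 δ hδ).2.2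
    sub_in s (s.trans sub_in) (C.h1.spl.ex y _ _ (fun π k => C.cs.pok.pc π (sub_in k)) s
      (go_mono ch.go sub_in)) (min r 1)
  have k1 := k ∅ (empty_subset _)
  have k2 := k _ Subset.rfl
  simp only [ix, finsum_mem_singleton, finsum_mem_empty, add_zero] at k1 k2
  exact ⟨ok_res C.cs ch.z x.ht ∅, k1, k2⟩

end scene
end Crest.Agent.X212.Nti57
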