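import Crest.Agent.X212.Num57.IxF
import Crest.Agent.X212.Pte3.Bas

/-! X212/Num57/Ixc (helper57): PT-IXC, the index of a chart of a part is constant. -/

set_option autoImplicit false
set_option linter.unusedSectionVars false
noncomputable section
open scoped Manifold ContDiff Topology InnerProductSpace
open MeasureTheory Set Function Filter

namespace Crest.Agent.X212.Rz57
open An M Nd18 Mod61 Nk89 Cht98 Rf65 Pte3

variable {Wi : Type} {X : Mf 4} {A κ lam : Type} [Fintype A] [Fintype κ] [Fintype lam]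
  [DecidableEq lam] {M : Mark X A κ} {W : World M} {N : ML M lam} {Λ : Lns W N}
  {A' h : Type} [Fintype A'] [DecidableEq A'] [Fintype h] {r n : ℕ}
  {J : Job Wi Λ A' h r n} {c : M.Cl} {σ : Cel A'} {p : Prt A A' h} {U : Type} [Fintype U] {δ : ℝ}
  {b : Bp J c}

/-- **PT-IXC** -/
theorem ixC (H : PG J c σ p) {E : EC b p U δ} (hE : E.OK) (hb : J.Ov σ c b.s) (hs : SmC E)
    (hF : FrC E) : IxC E fun _ => True :=
  let ⟨d, hd⟩ := idx_const (H.ends U b hE.d0 hE.d1) (k := 8) (by norm_num) ⟨hE.R5, hE.lit⟩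
    (H.convex hb).isPreconnected hs.aff hs.sm fun q t ht i hi =>
      hF q t ht i ((H.act_iff hE.d0 hE.d1).1 hi)
  ⟨d, fun q x _ => hd q x⟩

theorem ixP (hF : FrP J c) : IxP J c := fun hJ hP =>
  (hF hJ hP).imp fun _ h => ⟨h.1, fun δ₀ h0 σ p U _ μ H b δ E g hs =>
    ixC ⟨H.ok, H.mem, H.pok⟩ g.ok g.ov hs (h.2 δ₀ h0 σ p U μ H b δ E g)⟩

end Crest.Agent.X212.Rz57
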