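import Crest.Agent.X212.Num57.Hod
import Crest.Agent.X212.Idg99.Lc
import Crest.Agent.X212.Eqv71.Cfg
import Crest.Agent.X212.Pj41.Cm
import Crest.Agent.X212.Tmp64.Sq
import Crest.Agent.X212.Nd18.Defs

/-!
X212 / NUM (helper57): the densities `sgd` (signature), `eud` (Euler number), `lad` (`Λ²`); they are
natural under isometries and vanish on cylinders.
-/

set_option autoImplicit false
set_option linter.unusedSectionVars false
noncomputable section
open scoped Manifold ContDiff Topology Kronecker Matrix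
open MeasureTheory Finset Filter

namespace Crest.Agent.X212.Num57
open An Sob92 Wz78 Idg99 Eqv71
open Map77 (Vol)

section pt
variable {ι ι' : Type} [Fintype ι] [Fintype ι'] {P : ι → ι → ℝ} {o : ι → ι → ι → ι → ℝ}
  {U : ι' → ι → ℝ}

theorem rot4_vol (h : Vol P o) : rot4 P o = o := by
  funext a b c d
  simp only [rot4, smul_eq_mul, mul_assoc, ← mul_sum, h.po4, h.po3, h.po2, h.po]

theorem stM_rot (U : ι' → ι → ℝ) (o : ι → ι → ι → ι → ℝ) : Idg99.stM (rot4 U o)
    = Matrix.of U ⊗ₖ Matrix.of U * (Idg99.stM o * (Matrix.of U)ᵀ ⊗ₖ (Matrix.of U)ᵀ) := by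
  ext s t
  simp only [Idg99.stM, Matrix.of_apply, rot4_eq, Matrix.mul_apply, Matrix.kroneckerMap_apply,
    Matrix.transpose_apply, Fintype.sum_prod_type (α₁ := ι × ι), sum_div, mul_sum, sq2, smul_eq_mul]
  exact sum_congr rfl fun _ _ => sum_congr rfl fun _ _ => by ring

theorem P_stM (h : Vol P o) : Matrix.of P ⊗ₖ Matrix.of P * Idg99.stM o = Idg99.stM o := by
  ext s t
  simp only [Idg99.stM, Matrix.of_apply, Matrix.mul_apply, Matrix.kroneckerMap_apply,
    Fintype.sum_prod_type, mul_assoc, ← mul_div_assoc, ← sum_div, ← mul_sum, h.po2, h.po]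

/-- the five term identity -/
theorem schouten (h : Vol P o) (a b c d e f : ι) : o a b c d * P e f
    = P a f * o e b c d + P b f * o a e c d + P c f * o a b e d + P d f * o a b c e := by
  obtain ⟨u, hu⟩ := Map77.exists_on h.pr h.tr
  obtain ⟨s, hs⟩ := h.frame hu
  simp only [hs, hu.pr, Map77.cof, Fin.sum_univ_four, Matrix.cons_val_zero, Matrix.cons_val_one,
    Matrix.cons_val]
  ring

theorem c4_zero (h : Vol P o) {n : ι} (h1 : P n n = 1) (h0 : ∀ a, a ≠ n → P a n = 0)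
    {f : ι → ι → ι → ι → ℝ} (hf : ∀ a b c d, a = n ∨ b = n ∨ c = n ∨ d = n → f a b c d = 0) :
    c4 o f = 0 :=
  sum_eq_zero fun a _ => sum_eq_zero fun b _ => sum_eq_zero fun c _ => sum_eq_zero fun d _ => by
    by_cases k : a = n ∨ b = n ∨ c = n ∨ d = n
    · rw [hf a b c d k, mul_zero]
    · have := schouten h a b c d n n
      simp only [not_or] at k
      rw [h1, h0 a k.1, h0 b k.2.1, h0 c k.2.2.1, h0 d k.2.2.2] at this
      rw [show o a b c d = 0 by linarith, zero_mul]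

theorem c4_rot (h : Vol P o) (UU : ∀ a b, ∑ c, U c a * U c b = P a b) (f : ι → ι → ι → ι → ℝ) :
    c4 (rot4 U o) (rot4 U f) = c4 o f := by
  have := sum_rot4 U (rot4 U o) f
  simp only [rot4_rot4, UU, smul_eq_mul] at this
  rw [show (fun a c => P a c) = P from rfl, rot4_vol h] at this
  exact this

variable {V V' : Type} [NormedAddCommGroup V] [NormedSpace ℝ V] [FiniteDimensional ℝ V]
  [NormedAddCommGroup V'] [NormedSpace ℝ V'] [FiniteDimensional ℝ V']

theorem tr_comm (u : V →L[ℝ] V') (w : V' →L[ℝ] V) : tr (u ∘L w) = tr (w ∘L u) :=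
  LinearMap.trace_comp_comm' (w : V' →ₗ[ℝ] V) (u : V →ₗ[ℝ] V')

theorem tr_sum {α : Type} (s : Finset α) (r : α → ℝ) (T : α → V →L[ℝ] V) :
    tr (∑ a ∈ s, r a • T a) = ∑ a ∈ s, r a * tr (T a) := by
  simp [tr]

theorem tr_rot {T : V →L[ℝ] V} {u : V →L[ℝ] V'} {w : V' →L[ℝ] V} (hT : w ∘L u ∘L T = T)
    {R : ι → ι → V →L[ℝ] V} {R' : ι' → ι' → V' →L[ℝ] V'}
    (h : ∀ a b, w ∘L R' a b = ∑ s : ι × ι, (U a s.1 * U b s.2) • (R s.1 s.2 ∘L w)) :
    (fun a b c d => tr ((u ∘L T ∘L w) * R' a b * R' c d))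
      = rot4 U fun a b c d => tr (T * R a b * R c d) := by
  funext a b c d
  have e : (u ∘L T ∘L w) * R' a b * R' c d = ∑ s : (ι × ι) × ι × ι,
      sq2 (sq2 U) ((a, b), (c, d)) s • (u ∘L (T * R s.1.1 s.1.2 * R s.2.1 s.2.2) ∘L w) := by
    ext v
    have h1 := fun a b v => congrArg (fun S : V' →L[ℝ] V => S v) (h a b)
    simp only [ContinuousLinearMap.comp_apply, _root_.sum_apply, _root_.smul_apply] at h1
    simp only [ContinuousLinearMap.comp_apply, mul_apply_eq_comp, _root_.sum_apply,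
      _root_.smul_apply, h1, map_sum, map_smul, smul_sum, smul_smul, sq2,
      Fintype.sum_prod_type (α₁ := ι × ι)]
  rw [e, tr_sum, rot4_eq]
  refine sum_congr rfl fun s _ => ?_
  rw [tr_comm, ContinuousLinearMap.comp_assoc, tr_comm, smul_eq_mul, mul_assoc T]
  congr 2
  conv_rhs => rw [← hT]
  rfl

variable {α β γ : Type} [Fintype α] [Fintype β] [Fintype γ]

/-- a matrix as a linear map -/
def mL : Matrix α β ℝ →ₗ[ℝ] (β → ℝ) →L[ℝ] α → ℝ where
  toFun A := LinearMap.toContinuousLinearMap (Matrix.mulVecLin A)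
  map_add' A B := by ext1 v; exact Matrix.add_mulVec A B v
  map_smul' r A := by ext1 v; exact Matrix.smul_mulVec r A v

/-- the same, as a continuous map -/
def mC : (α → β → ℝ) →L[ℝ] (β → ℝ) →L[ℝ] α → ℝ :=
  LinearMap.toContinuousLinearMap (mL ∘ₗ (Matrix.ofLinearEquiv ℝ).toLinearMap)

theorem mL_apply (A : Matrix α β ℝ) (v : β → ℝ) : mL A v = A *ᵥ v := rfl

theorem mL_comp (A : Matrix α β ℝ) (B : Matrix β γ ℝ) : mL (A * B) = mL A ∘L mL B := by
  ext1 v; exact (Matrix.mulVec_mulVec v A B).symm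

theorem tr_mL (A : Matrix α α ℝ) : tr (mL A) = A.trace := by
  classical
  exact Matrix.trace_toLin'_eq A

end pt

section rot
variable {E H : Type*} [NormedAddCommGroup E] [NormedSpace ℝ E] [TopologicalSpace H]
  {I : ModelWithCorners ℝ E H} {M : Type*} [TopologicalSpace M] [ChartedSpace H M]
  [IsManifold I ∞ M] {α β γ δ : Type} [Fintype α] [Fintype β] [Fintype γ] [Fintype δ]
  {v : (x : M) → TangentSpace I x} {x : M}

theorem sa_mat {S : M → Matrix α β ℝ} (h : SM I S x) : SA I (V := α → β → ℝ) S x :=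
  contMDiffAt_pi_space.2 fun s => contMDiffAt_pi_space.2 fun t => h s t

theorem sa_mL {S : M → Matrix α β ℝ} (h : SM I S x) : SA I (fun y => mL (S y)) x :=
  (sa_mat h).clm mC

theorem dv_mL {S : M → Matrix α β ℝ} (h : SM I S x) :
    dv I v (fun y => mL (S y)) x = mL (Dm I v S x) := by
  refine (dv_clm mC (sa_mat h).md).trans (congrArg mC ?_)
  funext s t
  exact (dv_clm ((ContinuousLinearMap.proj t).comp
    (ContinuousLinearMap.proj (R := ℝ) (φ := fun _ => β → ℝ) s)) (sa_mat h).md).symm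

theorem dm_mul {S : M → Matrix α β ℝ} {T : M → Matrix β γ ℝ} (h : SM I S x) (h' : SM I T x) :
    Dm I v (fun y => S y * T y) x = Dm I v S x * T x + S x * Dm I v T x := by
  ext s t
  simp only [Dm, Matrix.mul_apply, Matrix.of_apply, Matrix.add_apply, ← sum_add_distrib]
  rw [dv_sum' _ fun u => (h s u).mul (h' u t)]
  exact sum_congr rfl fun u _ => dv_mul (h s u) (h' u t)

theorem dm_kron {S : M → Matrix α β ℝ} {T : M → Matrix γ δ ℝ} (h : SM I S x) (h' : SM I T x) :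
    Dm I v (fun y => S y ⊗ₖ T y) x = Dm I v S x ⊗ₖ T x + S x ⊗ₖ Dm I v T x := by
  ext s t; exact dv_mul (h s.1 t.1) (h' s.2 t.2)

theorem curv_mL [DecidableEq α] {ι : Type} [Fintype ι] {e : ι → (x : M) → TangentSpace I x}
    {c : ι → ι → ι → M → ℝ} {Ω : ι → M → Matrix α α ℝ} (h : ∀ a, SM I (Ω a) x) (a b : ι) :
    curv I e c (fun a y => mL (Ω a y)) a b x = mL (cm I e c Ω a b x) := by
  have hm : ∀ A B : Matrix α α ℝ, mL A * mL B = mL (A * B) := fun A B => (mL_comp A B).symm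
  simp only [curv, cm, dv_mL (h _), hm, map_smul, map_sum, map_sub, map_add]

end rot

variable {E : Type} [NormedAddCommGroup E] [NormedSpace ℝ E] [FiniteDimensional ℝ E]
  [MeasurableSpace E] [BorelSpace E]
  {HM : Type} [TopologicalSpace HM] {I : ModelWithCorners ℝ E HM}
  {M : Type} [TopologicalSpace M] [ChartedSpace HM M] [IsManifold I ∞ M]
  [MeasurableSpace M] {ι : Type} [Fintype ι] {lam : Type} [Fintype lam]
  {E' : Type} [NormedAddCommGroup E'] [NormedSpace ℝ E'] [FiniteDimensional ℝ E']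
  [MeasurableSpace E'] [BorelSpace E']
  {HM' : Type} [TopologicalSpace HM'] {I' : ModelWithCorners ℝ E' HM'}
  {M' : Type} [TopologicalSpace M'] [ChartedSpace HM' M'] [IsManifold I' ∞ M']
  [MeasurableSpace M'] {ι' : Type} [Fintype ι'] {lam' : Type} [Fintype lam']
  {V V' : Type} [NormedAddCommGroup V] [NormedSpace ℝ V] [FiniteDimensional ℝ V]
  [NormedAddCommGroup V'] [NormedSpace ℝ V'] [FiniteDimensional ℝ V']

section defs
variable (F : Fr I M ι) (o : ι → ι → ι → ι → M → ℝ)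

/-- the signature density -/
def sgd (x : M) : ℝ := -(1 / (96 * Real.pi ^ 2)) *
  Ind95.cwT (fun a b c d => o a b c d x) fun a b k l => Rm I F.e F.c F.Gam a b k l x

open Classical in
/-- the Euler density -/
def eud (x : M) : ℝ :=
  -(1 / (128 * Real.pi ^ 2)) * cwS I F.e F.P F.c F.Gam (fun a b c d => o a b c d x) x

/-- the density of `Λ²` -/
def lad (B : Base M ι lam) (G : Geo I M ι lam) (x : M) : ℝ :=
  -(1 / (32 * Real.pi ^ 2)) * cwd G.F B.o B.l G.a x

theorem eud_eq [DecidableEq ι] (x : M) : eud F o x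
    = -(1 / (128 * Real.pi ^ 2)) * cwS I F.e F.P F.c F.Gam (fun a b c d => o a b c d x) x := by
  unfold eud; congr!

theorem cwd_c4 (T : M → V →L[ℝ] V) (A : ι → M → V →L[ℝ] V) (x : M) : cwd F o T A x = c4
    (fun a b c d => o a b c d x)
    fun a b c d => tr (T x * curv I F.e F.c A a b x * curv I F.e F.c A c d x) := rfl

theorem cwd_mL {α : Type} [Fintype α] [DecidableEq α] (S : M → Matrix α α ℝ)
    {Ω : ι → M → Matrix α α ℝ} {x : M} (h : ∀ a, SM I (Ω a) x) :
    cwd F o (fun y => mL (S y)) (fun a y => mL (Ω a y)) x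
      = cwm (fun a b c d => o a b c d x) (S x) fun a b => cm I F.e F.c Ω a b x := by
  have hm : ∀ A B : Matrix α α ℝ, mL A * mL B = mL (A * B) := fun A B => (mL_comp A B).symm
  simp only [cwd_c4, curv_mL h, hm, tr_mL, cwm]

theorem sgd_cwd [DecidableEq ι] (x : M) : sgd F o x = -(1 / (96 * Real.pi ^ 2)) *
    cwd F o (fun y => mL (Pm F.P y)) (fun a y => mL (Idg99.Om F.P F.Gam a y)) x := by
  rw [cwd_mL F o _ fun a => sm_Om (lc_gam F) (frm F) a x, cwm_Pm (lc_gam F) (frm F), sgd]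

theorem eud_cwd [DecidableEq ι] (x : M) : eud F o x = -(1 / (128 * Real.pi ^ 2)) *
    cwd F o (fun y => mL (stM fun a b c d => o a b c d y)) (fun a y => mL (Om2 F.P F.Gam a y)) x := by
  rw [cwd_mL F o _ fun a => sm_Om2 (lc_gam F) (frm F) a x, eud_eq, cwS]

theorem cwd_neg (T : M → V →L[ℝ] V) (A : ι → M → V →L[ℝ] V) (x : M) :
    cwd F (fun a b c d x => -o a b c d x) T A x = -cwd F o T A x := by
  simp only [cwd, neg_mul, sum_neg_distrib]

theorem sgd_neg (x : M) : sgd F (fun a b c d x => -o a b c d x) x = -sgd F o x := by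
  classical
  rw [sgd_cwd, sgd_cwd, cwd_neg, mul_neg]

theorem eud_neg (x : M) : eud F (fun a b c d x => -o a b c d x) x = eud F o x := by
  classical
  have : (stM fun a b c d => -o a b c d x) = -stM fun a b c d => o a b c d x := by
    ext s t; simp [Idg99.stM, neg_div]
  simp only [eud_eq, cwS, cwm, this, Matrix.neg_mul, Matrix.trace_neg, c4, neg_mul_neg]

end defs

/-! ### naturality -/

variable {F : Fr I M ι} {o : ι → ι → ι → ι → M → ℝ} {F' : Fr I' M' ι'}
  {o' : ι' → ι' → ι' → ι' → M' → ℝ} {φ : M → M'} {O : Set M} {U : M → ι' → ι → ℝ} {x : M}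

/-- an orientation preserving local isometry -/
structure RO (F : Fr I M ι) (o : ι → ι → ι → ι → M → ℝ) (F' : Fr I' M' ι')
    (o' : ι' → ι' → ι' → ι' → M' → ℝ) (O : Set M) (φ : M → M') (U : M → ι' → ι → ℝ) : Prop where
  rot : Rot I I' φ O F.e F.P F'.e F'.P fun b a x => U x b a
  vo : ∀ x ∈ O, Vol (fun a b => F.P a b x) fun a b c d => o a b c d x
  o : ∀ x ∈ O, (fun a b c d => o' a b c d (φ x)) = rot4 (U x) fun a b c d => o a b c d x

namespace RO
variable (h : RO F o F' o' O φ U) (hx : x ∈ O)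
include h hx

theorem cwd {A : ι → M → V →L[ℝ] V} {A' : ι' → M' → V' →L[ℝ] V'} {T : M → V →L[ℝ] V}
    {T' : M' → V' →L[ℝ] V'} {u : V →L[ℝ] V'} {w : M → V' →L[ℝ] V} (hA : ∀ a, SA I (A a) x)
    (hA' : Con I' F'.P A') (hw : SA I w x)
    (hi : ∀ y ∈ O, Eqv71.Itw I F.e (Eqv71.pb φ (fun b a x => U x b a) A') A w y)
    (hT : w x ∘L u ∘L T x = T x) (hT' : T' (φ x) = u ∘L T x ∘L w x) :
    cwd F' o' T' A' (φ x) = cwd F o T A x := by
  rw [cwd_c4, cwd_c4, h.o x hx, hT', tr_rot (U := U x) hT, c4_rot (h.vo x hx) fun a b => h.rot.UU a b x hx]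
  intro a b
  rw [h.rot.curv' (frm F) (frm F') (ker F') hx (fun a => hA'.sm a _)
    (Eventually.of_forall fun z a => hA'.proj a z), Fintype.sum_prod_type]
  simp only [ContinuousLinearMap.comp_finsetSum, ContinuousLinearMap.comp_smul,
    itw_curv (frm F) ((h.rot.ev hx).mono hi) hw (h.rot.sa_pb hx fun a => hA'.sm a _) hA]

theorem cwm {α α' : Type} [Fintype α] [DecidableEq α] [Fintype α'] [DecidableEq α']
    {Ω : ι → M → Matrix α α ℝ} {Ω' : ι' → M' → Matrix α' α' ℝ} {S : M → Matrix α α ℝ}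
    {S' : M' → Matrix α' α' ℝ} {u : Matrix α' α ℝ} {w : M → Matrix α α' ℝ}
    (hΩ : ∀ a, SM I (Ω a) x) (hΩ' : ∀ a y, SM I' (Ω' a) y)
    (hp : ∀ a y, ∑ b, F'.P a b y • Ω' b y = Ω' a y) (hw : ∀ y ∈ O, SM I w y)
    (hi : ∀ y ∈ O, ∀ a, Dm I (F.e a) w y + Ω a y * w y = w y * ∑ b, U y b a • Ω' b (φ y))
    (hS : w x * (u * S x) = S x) (hS' : S' (φ x) = u * (S x * w x)) :
    Num57.cwd F' o' (fun y => mL (S' y)) (fun a y => mL (Ω' a y)) (φ x)
      = Num57.cwd F o (fun y => mL (S y)) (fun a y => mL (Ω a y)) x :=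
  h.cwd hx (u := mL u) (w := fun y => mL (w y)) (fun a => sa_mL (hΩ a))
    ⟨fun a y => sa_mL (hΩ' a y), fun a y => by simp only [← map_smul, ← map_sum, hp]⟩
    (sa_mL (hw x hx)) (fun y hy a => by
      rw [dv_mL (hw y hy), ← mL_comp, ← map_add, hi y hy, mL_comp, map_sum]
      simp only [map_smul, Eqv71.pb])
    (by rw [← mL_comp, ← mL_comp, hS]) (by rw [← mL_comp, ← mL_comp, hS'])

theorem tU : (Matrix.of (U x))ᵀ * Matrix.of (U x) = Pm F.P x := by
  ext a b; exact h.rot.UU a b x hx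

theorem Ut : Matrix.of (U x) * (Matrix.of (U x))ᵀ = Pm F'.P (φ x) := by
  ext a b; exact h.rot.UU' a b x hx

theorem UP : Matrix.of (U x) * Pm F.P x = Matrix.of (U x) := by
  ext a b; exact h.rot.UP (frm F) hx a b

theorem PU : Pm F.P x * (Matrix.of (U x))ᵀ = (Matrix.of (U x))ᵀ := by
  classical
  rw [← Pm_symm (frm F), ← Matrix.transpose_mul, h.UP hx]

theorem tP : (Matrix.of (U x))ᵀ * Pm F'.P (φ x) = (Matrix.of (U x))ᵀ := by
  rw [← h.Ut hx, ← Matrix.mul_assoc, h.tU hx, h.PU hx]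

theorem smU : SM I (fun y => (Matrix.of (U y))ᵀ) x := fun s t => h.rot.sU t s x hx

theorem om [DecidableEq ι] [DecidableEq ι'] (a : ι) :
    Dm I (F.e a) (fun y => (Matrix.of (U y))ᵀ) x + Idg99.Om F.P F.Gam a x * (Matrix.of (U x))ᵀ
      = (Matrix.of (U x))ᵀ * ∑ b, U x b a • Idg99.Om F'.P F'.Gam b (φ x) := by
  have L := lc_gam F
  set D := Dm I (F.e a) (fun y => (Matrix.of (U y))ᵀ) x with hD
  set W := (Matrix.of (U x))ᵀ with hW
  have h1 : D = (Idg99.Gm F.Gam a x + (Idg99.Gm F.Gam a x)ᵀ) * W + Pm F.P x * D := by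
    rw [← Dm_Pm L, hD, ← dm_mul (sm_Pm (frm F) x) (h.smU hx)]
    ext s t
    exact dv_congr ((h.rot.ev hx).mono fun y hy => (congrFun (congrFun (h.PU hy) s) t).symm)
  have h2 : ∑ b, U x b a • Idg99.Gm F'.Gam b (φ x) = Dᵀ * W + Wᵀ * (Idg99.Gm F.Gam a x * W) := by
    have k : ∀ b, Idg99.Gm F'.Gam b (φ x) = ∑ c, U x b c • ((Dm I (F.e c) (fun y => (Matrix.of (U y))ᵀ) x)ᵀ
        * W + Wᵀ * (Idg99.Gm F.Gam c x * W)) := fun b => by
      ext s t
      refine (h.rot.gam_eq (frm F) (frm F') (ker F') L (lc_gam F') hx b s t).trans ?_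
      simp only [Eqv71.gam, Matrix.sum_apply, Matrix.smul_apply, smul_eq_mul, Matrix.add_apply, hW,
        Dm, Matrix.mul_apply, Matrix.transpose_apply, Matrix.of_apply, Idg99.Gm, mul_sum, mul_assoc,
        mul_comm (U x t _)]
    have p1 : ∑ c, F.P a c x • Dm I (F.e c) (fun y => (Matrix.of (U y))ᵀ) x = D := by
      ext s t; simpa [Matrix.sum_apply, hD, Dm] using (frm F).projD a (fun y => U y t s) x
    have p2 : ∑ c, F.P a c x • Idg99.Gm F.Gam c x = Idg99.Gm F.Gam a x := by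
      ext s t; simpa [Matrix.sum_apply, Idg99.Gm] using L.proj1 (frm F) (sep F) a s t x
    simp only [k, smul_sum, smul_smul]
    rw [sum_comm, ← p1, ← p2]
    simp only [← sum_smul, h.rot.UU _ _ x hx, smul_add, sum_add_distrib, Matrix.transpose_sum,
      Matrix.transpose_smul, Matrix.sum_mul, Matrix.mul_sum, Matrix.smul_mul, Matrix.mul_smul]
  have h3 : W * ∑ b, U x b a • Idg99.Om F'.P F'.Gam b (φ x) = W * (∑ b, U x b a • Idg99.Gm F'.Gam b (φ x))ᵀ := by
    conv_lhs => rw [hW, ← h.tP hx, Matrix.mul_assoc]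
    simp only [Matrix.mul_sum, Matrix.mul_smul, Pm_Om (lc_gam F') (frm F'), Matrix.transpose_sum,
      Matrix.transpose_smul, hW]
  have h4 : Idg99.Om F.P F.Gam a x * W = -(Idg99.Gm F.Gam a x * W) := by
    conv_lhs => rw [hW, ← h.PU hx, ← Matrix.mul_assoc, Om_Pm L (frm F), Matrix.neg_mul]
  have h5 : W * Wᵀ = Pm F.P x := h.tU hx
  rw [h3, h2, h4]
  simp only [Matrix.transpose_add, Matrix.transpose_mul, Matrix.transpose_transpose, Matrix.mul_add,
    ← Matrix.mul_assoc, h5, Pm_Gt L (frm F)]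
  conv_lhs => rw [h1, Matrix.add_mul]
  abel

/-- **naturality of the signature density** -/
theorem sgd : sgd F' o' (φ x) = sgd F o x := by
  classical
  rw [sgd_cwd, sgd_cwd, h.cwm hx (u := Matrix.of (U x)) (fun a => sm_Om (lc_gam F) (frm F) a x)
    (sm_Om (lc_gam F') (frm F')) (Om_proj (lc_gam F') (frm F') (sep F')) (fun y hy => h.smU hy)
    (fun y hy => h.om hy) (by rw [h.UP hx, h.tU hx]) (by rw [h.PU hx, h.Ut hx])]

/-- **naturality of the Euler density** -/
theorem eud : eud F' o' (φ x) = eud F o x := by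
  classical
  rw [eud_cwd, eud_cwd]
  refine congrArg _ (h.cwm hx (u := Matrix.of (U x) ⊗ₖ Matrix.of (U x))
    (w := fun y => (Matrix.of (U y))ᵀ ⊗ₖ (Matrix.of (U y))ᵀ)
    (fun a => sm_Om2 (lc_gam F) (frm F) a x) (sm_Om2 (lc_gam F') (frm F'))
    (Om2_proj (lc_gam F') (frm F') (sep F'))
    (fun y hy s t => (h.smU hy s.1 t.1).mul (h.smU hy s.2 t.2)) (fun y hy a => ?_) ?_ ?_)
  · have k := h.om hy a
    rw [dm_kron (h.smU hy) (h.smU hy), eq_sub_of_add_eq k]
    simp only [Om2, kr, Matrix.add_mul, Matrix.mul_add, Matrix.mul_sum, Matrix.mul_smul, smul_add,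
      ← Matrix.mul_kronecker_mul, Matrix.one_mul, Matrix.mul_one, sum_add_distrib]
    ext s t
    simp only [Matrix.add_apply, Matrix.kroneckerMap_apply, Matrix.sub_apply, Matrix.sum_apply,
      Matrix.smul_apply, smul_eq_mul, sub_mul, mul_sub, sum_mul, mul_sum, mul_assoc, mul_left_comm]
    ring
  · rw [← Matrix.mul_assoc, ← Matrix.mul_kronecker_mul, h.tU hx]
    exact P_stM (h.vo x hx)
  · rw [h.o x hx]; exact stM_rot _ _

end RO

section lg
variable {B : Base M ι lam} {G : Geo I M ι lam} {B' : Base M' ι' lam'} {G' : Geo I' M' ι' lam'}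
  {v : M → CL (Eu lam) (Eu lam')}

theorem vol_of_base (hB : B.OK I) (x : M) : Vol (fun a b => B.P a b x) fun a b c d => B.o a b c d x :=
  ⟨hB.pr x, hB.rk x, fun _ _ _ _ => hB.o12 _ _ _ _ x, fun _ _ _ _ => hB.o23 _ _ _ _ x,
    fun _ _ _ _ => hB.o34 _ _ _ _ x, fun _ _ _ _ => hB.oP _ _ _ _ x, hB.onm x⟩

theorem ro_of_lg (g : LG B G B' G' O φ U v) : RO G.F B.o G'.F B'.o O φ U :=
  ⟨by rw [g.hG.P, g.hG'.P]; exact g.rot, fun x _ => by rw [g.hG.P]; exact vol_of_base g.hB x,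
    fun x hx => by funext a b c d; exact (g.be x hx).o a b c d⟩

theorem lg_lad (g : LG B G B' G' O φ U v) (hx : x ∈ O) : lad B' G' (φ x) = lad B G x := by
  have e := g.be x hx
  refine congrArg _ ((ro_of_lg g).cwd hx (u := v x) (w := fun y => trn (v y))
    (fun a => g.hG.con.sm a x) (g.hG'.P ▸ g.hG'.con) (sa_trn (g.sv x hx))
    (fun y hy => (g.par y hy).trn (g.sv y hy) (fun a => g.hG.sk a y)
      fun a => skw_sum _ fun b => g.hG'.sk b _) ?_ ?_)
  · rw [← ContinuousLinearMap.comp_assoc, e.vv]; exact g.hB.lidem x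
  · rw [← ContinuousLinearMap.comp_assoc, comp_proj e.vv (g.hB.lidem x), e.vv']

variable [BorelSpace M] [BorelSpace M'] {O' : Set M'} {ψ : M' → M}
  (g : KG B G B' G' O O' φ ψ U v)
include g

theorem kg_sgd : ∫ y in O', sgd G'.F B'.o y ∂G'.F.μ = ∫ x in O, sgd G.F B.o x ∂G.F.μ :=
  g.integral_rel fun _ hx => (ro_of_lg g.toLG).sgd hx

theorem kg_eud : ∫ y in O', eud G'.F B'.o y ∂G'.F.μ = ∫ x in O, eud G.F B.o x ∂G.F.μ :=
  g.integral_rel fun _ hx => (ro_of_lg g.toLG).eud hx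

theorem kg_lad : ∫ y in O', lad B' G' y ∂G'.F.μ = ∫ x in O, lad B G x ∂G.F.μ :=
  g.integral_rel fun _ hx => lg_lad g.toLG hx

end lg

section frel
variable {F' : Fr I' M' ι} {o' : ι → ι → ι → ι → M' → ℝ} (h : Pj41.FRel F F' φ O)
include h

theorem ro_of_frel (hv : ∀ x ∈ O, Vol (fun a b => F.P a b x) fun a b c d => o a b c d x)
    (ho : ∀ a b c d, ∀ x ∈ O, o' a b c d (φ x) = o a b c d x) :
    RO F o F' o' O φ fun x b a => F.P b a x :=
  ⟨⟨h.op, fun x hx => (h.ld x hx).contMDiffAt, fun a b x _ => F.P_sm a b x, fun b x hx => by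
      simp only [← map_smul, ← map_sum, F.P_e, h.e b x hx],
    fun a b x hx => by simp only [F.P_symm _ a, (hv x hx).pr.idem],
    fun a b x hx => by simp only [F.P_symm b, (hv x hx).pr.idem, ← h.P hx]⟩, hv,
    fun x hx => by rw [rot4_vol (hv x hx)]; funext a b c d; exact ho a b c d x hx⟩

theorem frel_cwd [I.Boundaryless] [I'.Boundaryless] (hx : x ∈ O) {A : ι → M → V →L[ℝ] V}
    {A' : ι → M' → V →L[ℝ] V} {T : M → V →L[ℝ] V} {T' : M' → V →L[ℝ] V}
    (ho : ∀ a b c d, o' a b c d (φ x) = o a b c d x) (hA : ∀ a, ∀ y ∈ O, A' a (φ y) = A a y)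
    (hT : T' (φ x) = T x) : cwd F' o' T' A' (φ x) = cwd F o T A x := by
  simp only [cwd, ho, hT, ← h.curv hx (A := A) (A' := A')
    fun a => (h.op.eventually_mem hx).mono fun y hy => (hA a y hy).symm]

end frel

/-! ### cylinders -/

section cyl
open Cyf70 Nd18
variable {E3 : Type} [NormedAddCommGroup E3] [NormedSpace ℝ E3] [FiniteDimensional ℝ E3]
  [MeasurableSpace E3] [BorelSpace E3]
  {H3 : Type} [TopologicalSpace H3] {I3 : ModelWithCorners ℝ E3 H3} [I3.Boundaryless]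
  {Y : Type} [TopologicalSpace Y] [ChartedSpace H3 Y] [IsManifold I3 ∞ Y] [T2Space Y]
  [MeasurableSpace Y] [BorelSpace Y] [SecondCountableTopology Y] [CompactSpace Y]
  {κ : Type} [Fintype κ] {FY : Fr I3 Y κ}
  {p : Option κ → Option κ → Option κ → Option κ → Y × ℝ → ℝ} {q : Y × ℝ}

theorem cwd_cyl (hv : Vol (fun a b => (cyl FY).P a b q) fun a b c d => p a b c d q)
    {A : Option κ → Y × ℝ → V →L[ℝ] V} (hs : ∀ a, SA (IC I3) (A a) q) (h0 : A none = 0)
    (h1 : ∀ a s, A a (q.1, s) = A a q) (T : Y × ℝ → V →L[ℝ] V) : cwd (cyl FY) p T A q = 0 := by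
  have k : ∀ a, dv (IC I3) ((cyl FY).e none) (A a) q = 0 := fun a =>
    (dv_none (e := FY.e) (hs a).md).trans (by simp [h1])
  have k0 : ∀ a, dv (IC I3) ((cyl FY).e a) (A none) q = 0 := fun a => by
    rw [h0]; exact congrFun (dv_const (0 : V →L[ℝ] V)) q
  have k1 : ∀ b, curv (IC I3) (cyl FY).e (cyl FY).c A none b q = 0 := fun b => by
    rw [curv, k, k0, h0]; simp [cyl, cc]
  have k2 : ∀ b, curv (IC I3) (cyl FY).e (cyl FY).c A b none q = 0 := fun b => by
    rw [curv, k, k0, h0]; cases b <;> simp [cyl, cc]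
  refine c4_zero hv (n := none) rfl (fun a ha => by cases a; exacts [(ha rfl).elim, rfl]) ?_
  rintro a b c d (rfl | rfl | rfl | rfl) <;> simp [k1, k2, tr]

theorem om_cyl [DecidableEq κ] : Idg99.Om (cyl FY).P (cyl FY).Gam none = 0 ∧
    ∀ a y s t, Idg99.Om (cyl FY).P (cyl FY).Gam a (y, s) = Idg99.Om (cyl FY).P (cyl FY).Gam a (y, t) := by
  rw [Tmp64.gam_cyl]
  have h1 : ∀ y s t, Pm (cyl FY).P (y, s) = Pm (cyl FY).P (y, t) := fun y s t => by
    ext a b; cases a <;> cases b <;> rfl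
  have h2 : ∀ a y s t, Idg99.Gm (cc FY.Gam) a (y, s) = Idg99.Gm (cc FY.Gam) a (y, t) :=
    fun a y s t => by ext b c; cases a <;> cases b <;> cases c <;> rfl
  have h3 : ∀ q, Idg99.Gm (cc FY.Gam) none q = 0 := fun q => by ext b c; rfl
  exact ⟨funext fun q => by simp [Idg99.Om, h3], fun a y s t => by
    simp only [Idg99.Om, h1 y s t, h2 a y s t]⟩

theorem sgd_cyl (hv : Vol (fun a b => (cyl FY).P a b q) fun a b c d => p a b c d q) :
    sgd (cyl FY) p q = 0 := by
  classical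
  rw [sgd_cwd, cwd_cyl hv (fun a => sa_mL (sm_Om (lc_gam _) (frm _) a q))
    (funext fun y => by simp [om_cyl.1]) fun a s => by rw [om_cyl.2 a q.1 s q.2], mul_zero]

theorem eud_cyl (hv : Vol (fun a b => (cyl FY).P a b q) fun a b c d => p a b c d q) :
    eud (cyl FY) p q = 0 := by
  classical
  rw [eud_cwd, cwd_cyl hv (fun a => sa_mL (sm_Om2 (lc_gam _) (frm _) a q))
    (funext fun y => by simp [Om2, kr, om_cyl.1])
    fun a s => by simp only [Om2, kr, om_cyl.2 a q.1 s q.2], mul_zero]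

variable {D : YD I3 Y κ lam} {B : Base M (Option κ) lam} {G : Geo I M (Option κ) lam}

theorem lad_yd (hD : D.OK) (q : Y × ℝ) : lad D.B D.G q = 0 := by
  rw [lad]
  exact mul_eq_zero_of_right _ (cwd_cyl (vol_of_base hD.B q) (fun a => hD.G.con.sm a q) rfl
    (fun a s => by cases a <;> rfl) _)

/-- **the densities vanish on literal necks** -/
theorem nk_zero [I.Boundaryless] (K : Nk D B G) (hD : D.OK) {z : M} (hz : z ∈ K.ψ.target) :
    sgd G.F B.o z = 0 ∧ eud G.F B.o z = 0 ∧ lad B G z = 0 := by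
  obtain ⟨q, hq, rfl⟩ := K.ψ.surjOn hz
  have r : Pj41.FRel D.Z G.F K.ψ K.ψ.source := Pj41.fRel_of_iso K.iso
  have hv : ∀ q, Vol (fun a b => D.Z.P a b q) fun a b c d => D.B.o a b c d q := vol_of_base hD.B
  have h := ro_of_frel (o := D.B.o) (o' := B.o) r (fun x _ => hv x) K.o
  refine ⟨(h.sgd hq).trans (sgd_cyl (hv q)), (h.eud hq).trans (eud_cyl (hv q)), ?_⟩
  rw [← lad_yd hD q, lad, lad, frel_cwd r hq (fun a b c d => K.o a b c d q hq) K.a (K.l q hq)]
  rfl

end cyl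

end Crest.Agent.X212.Num57
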