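import Crest.Agent.X212.Num57.Idr
import Crest.Agent.X212.Num99.Defs
import Crest.Agent.X212.Add46.Dif

/-!
# Row 212 (helper57): the clauses `FdS` and `QdS`
-/

set_option autoImplicit false
set_option linter.unusedSectionVars false
noncomputable section
open Set Function Filter

namespace Crest.Agent.X212.Sec57
open An Nd18 M Rf65 G75 Lix26 Cht98 Num99
open Add46 (LocAt)

variable {κ lam : Type} [Fintype κ] [Fintype lam] [DecidableEq lam] {Lm : LM κ lam}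
  (geo : Geo2Stmt Lm)

section job
variable {S : Scene Lm} {D : S.Dat} {i : S.L} {Wi A' h : Type} [Fintype A'] [DecidableEq A']
  [Fintype h] {r n : ℕ} {J : Job Wi (D.Λ i) A' h r n} {c : S.M.Cl} {l : S.ls} {δ : ℝ}
  (hS : S.OK) (hJ : J.OK) (hl : l.1 ∈ c.1) (h0 : 0 < δ) (h1 : δ ≤ dl0) (T : LocAt J c δ l)
include hS hJ hl h0 h1 T

theorem idr_ng {z : J.Obc c} (g : Go δ z {hp l.1 false})
    (ng : ∀ x ∈ D.W.pc c (hp l.1 false), Ng (J.B c) (J.G c z.s) z.x.W (1 / 3) x) : 0 ≤ idr δ z (hp l.1 false) := by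
  have := ix_le hJ h0 h1 (fun _ k => k ▸ piece hS l hl) subset_rfl g (fun x hx => ng x (by
    rwa [un_one] at hx)) (T.ex z g).2 (T.ex z g).1
  omega

include geo

theorem idr_fl : A0 J c δ l fun _ d => 0 ≤ d := fun z g f => by
  have ha : Act J.m c l (some false) (J.Θ z.s) := ⟨hS.lsp l l.2, g.br, g.O, hl⟩
  obtain ⟨d, k, -⟩ := geo S D i l J.m c _ Wi _ _ (J.K c l _ _ ha) hS ha (hJ.xs l).1 (hJ.nk ..)
  exact idr_ng hS hJ hl h0 h1 T g fun x hx => ng_flat k.ins.hB k.ins.hG g.adm.ok g.adm.conn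
    (neg_L k (pc_eq hS D l hl ▸ hx)) (f x hx)

theorem idr_q : Ak J c δ l (1 / 4) fun _ d => 0 ≤ d := fun z g ξ A ea kq => by
  have ha : Act J.m c l (some false) (J.Θ z.s) := ⟨hS.lsp l l.2, g.br, g.O, hl⟩
  obtain ⟨d, k, -⟩ := geo S D i l J.m c _ Wi _ _ (J.K c l _ _ ha) hS ha (hJ.xs l).1 (hJ.nk ..)
  have e := pc_eq hS D l hl
  have m : ((⟨l, hl, ha.1⟩, false) : Ed c) ∈ EdP c {hp l.1 false} := ⟨_, rfl, if_pos rfl⟩
  obtain ⟨d₀, hd, el⟩ := g.lim _ m ha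
  have i1 := ea.int
  have i2 := ea.le.trans_eq (by rw [zero_pow two_ne_zero, zero_mul])
  simp only [kI, Job.Obc.kap] at kq
  rw [e] at A i1 i2 kq
  obtain ⟨W, C, li, ng, it, q⟩ := rep k A (sl_on k.ins.hB k.ins.hG k.ins.cl k.ins.tam.ok A i1
    (asd_pt k.ins.hB k.ins.hG A.adm.ok A.adm.conn k.ins.cl.isOpen i1 i2) kq) (g.bs _ m)
    (Add46.elim_lim (b := true) (h0.trans hd) el)
  let z' : J.Obc c := { z with x := ⟨z.x.m, W, z.x.Φ, z.x.z⟩ }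
  have g' : Go δ z' {hp l.1 false} := ⟨g.br, g.O, ⟨A.adm.ok, C, contMDiff_const, fun _ => map_zero _⟩,
    g.bs, by
      rintro ⟨⟨a, _⟩, b⟩ ⟨_, rfl, j⟩ _
      obtain ⟨rfl, rfl⟩ := Kl48.hp_eq.1 j
      exact ⟨δ + 1, lt_add_one δ, li _⟩, by rwa [un_one, e]⟩
  have p := idr_ng hS hJ hl h0 h1 T g' (e ▸ ng)
  have t := (T.dif z z' rfl g g' (Pnt66.eqv_refl (g.bs _ m).ok (g.bs _ m).adm)).2.2
  simp only [kI, Job.Obc.kap, e] at t
  rw [kq, show _ = (1 / 4 : ℝ) from q, add_left_inj, Int.cast_inj] at t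
  exact t ▸ p

end job

variable (L : IxL κ (lam ⊕ lam) 8)
include geo L

/-- **CLAUSES FD, QD** -/
theorem fqdS : FdS Lm ∧ QdS Lm := by
  have k : AllL Lm fun J c δ l => A0 J c δ l (fun _ d => 0 ≤ d) ∧ Ak J c δ l (1 / 4) fun _ d => 0 ≤ d :=
    fun S D i Wi A' h _ _ _ r n J c l hS hJ hm hl hN py _ =>
      let ⟨u, u0, T⟩ := Add46.loc L D.nrm (D.lnrm i) hJ hm ⟨hl, hS.lsp l l.2⟩ (piece hS l hl) hN.1 ⟨0, py⟩
      ⟨min u dl0, lt_min u0 dl0_pos, fun δ k =>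
        have t := T δ ⟨k.1, k.2.trans (min_le_left ..)⟩
        ⟨idr_fl geo hS hJ hl k.1 (k.2.trans (min_le_right ..)) t,
          idr_q geo hS hJ hl k.1 (k.2.trans (min_le_right ..)) t⟩⟩
  constructor <;> intro S D i Wi A' h _ _ _ r n J c l a b d e f g j <;>
    obtain ⟨u, u0, T⟩ := k S D i Wi A' h r n J c l a b d e f g j
  exacts [⟨u, u0, fun δ k => (T δ k).1⟩, ⟨u, u0, fun δ k => (T δ k).2⟩]

end Crest.Agent.X212.Sec57
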