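import Crest.Agent.X212.End3.Pnt
import Crest.Agent.X212.Nk89.Geo
import Crest.Agent.X212.Tmp64.Cfg

/-! X212/Num57/RzL (helper57): a standard configuration is the base point of a literal
reference. -/

set_option autoImplicit false
set_option linter.unusedSectionVars false
noncomputable section
open scoped Manifold ContDiff Topology InnerProductSpace
open MeasureTheory Set Function Filter Real

namespace Crest.Agent.X212.Rz57
open An An.Pre Sob92 Prm93 Mod61 Nd18 Cyf70 Nk89 Pj41 Eqv71 End3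
open Grp76 (Nice)
open Tmp64 (AdmOn admOn_univ sqC sqM)

variable {E : Type} [NormedAddCommGroup E] [NormedSpace ℝ E] [FiniteDimensional ℝ E]
  [MeasurableSpace E] [BorelSpace E]
  {HM : Type} [TopologicalSpace HM] {I : ModelWithCorners ℝ E HM} [I.Boundaryless]
  {M : Type} [TopologicalSpace M] [ChartedSpace HM M] [IsManifold I ∞ M]
  [MeasurableSpace M] [T2Space M] [BorelSpace M] [SecondCountableTopology M]
  {ι κ : Type} [Fintype ι] [Fintype κ] {lam : Type} [Fintype lam]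
  {T : Type} [NormedAddCommGroup T] [NormedSpace ℝ T]

/-- on a half cylinder every module is `t`-invariant -/
theorem exists_inv {Y : X212.M.Mf 3} [CompactSpace Y.M] {D : YD Y.I Y.M κ lam} (hD : D.OK) {σ R : ℝ}
    (hσ : ∀ s, σ * (σ * s) = s) {c : Cfg (Y.M × ℝ) (Option κ) lam 0}
    (hc : AdmOn c D.B D.G {z | R < σ * z.2}) : ∃ (β : YC Y.M κ lam) (u : _), D.Adm β ∧ β.Φ = 0 ∧
      Iso0 (IC Y.I) c.m (cy β).m {z | R + 1 < σ * z.2} u := by
  have cD : Tmp64.Cy D.F D.B D.G := ⟨rfl, rfl, fun _ _ _ _ _ _ _ => rfl, fun _ _ _ => rfl,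
    fun _ => rfl, fun a _ _ _ => by cases a <;> rfl⟩
  let θ : ℝ → ℝ := fun t => t + (1 - smoothTransition (σ * t - R)) * (σ * (R + 1) - t)
  have h1 : ContDiff ℝ ∞ θ := contDiff_id.add ((contDiff_const.sub (smoothTransition.contDiff.comp
    (by fun_prop))).mul (by fun_prop))
  have h2 : ∀ t, R < σ * θ t := fun t => by
    have e : σ * θ t = σ * t + (1 - smoothTransition (σ * t - R)) * (σ * (σ * (R + 1)) - σ * t) := by
      simp only [θ]; ring
    rw [e, hσ]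
    rcases le_or_gt (σ * t - R) 0 with h | h
    · rw [smoothTransition.zero_of_nonpos h]; linarith
    · rcases (smoothTransition.le_one (σ * t - R)).eq_or_lt with h' | h'
      · rw [h']; linarith
      · nlinarith [mul_nonneg (smoothTransition.nonneg (σ * t - R)) h.le]
  have h4 : ∀ x : Y.M × ℝ, R + 1 < σ * x.2 → Tmp64.sq θ x = x := fun x hx => Prod.ext rfl (by
    simp only [Tmp64.sq, θ, smoothTransition.one_of_one_le (show 1 ≤ σ * x.2 - R by linarith)]; ring)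
  have a := cD.adm_sq_of_band (J := {s | R < σ * s}) h1 h2 (hc.mono fun _ h => h.2)
  obtain ⟨u, -, k, -⟩ := cD.exists_tmp hD.B a 0
  have f := cD.adm_sq (θ := fun _ => 0) contDiff_const a
  have e : (fun b (x : Y.M × ℝ) => (Tmp64.frz 0 (sqC θ c)).W b (x.1, 0)) =
      (Tmp64.frz 0 (sqC θ c)).W := funext₂ fun b x => (Tmp64.inv_frz 0 _).Wi b x.1 0 x.2
  refine ⟨⟨pbM (fun y => (y, 0)) (sqC θ c).m, fun b y => (Tmp64.frz 0 (sqC θ c)).W b (y, 0), 0, 0⟩,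
    u, ⟨⟨f.ok, (e ▸ f.conn :), contMDiff_const, fun _ => map_zero _, .inl rfl⟩,
      fun y => Tmp64.frz_none 0 (y, 0)⟩, rfl, fun x _ => k.iso.su x trivial, fun x hx => ?_,
    fun x _ => k.iso.J x trivial, fun x hx b => ?_, fun x hx s => ?_⟩
  · exact congrArg c.m.p (h4 x hx) ▸ k.iso.iso x trivial
  · exact (k.iso.ρ x trivial b).trans (congrArg (u x ∘L c.m.ρ b ·) (h4 x hx))
  · exact (k.iso.j x trivial s).trans (congrArg (u x ∘L c.m.j · s) (h4 x hx))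

section rb
variable {𝔉 : Fam I M ι lam T} {o : Ref 𝔉} {r : ℕ} (h : 𝔉.OK) (y : Pnt o r)

/-- the reference is moved to a point -/
@[reducible] def rb : Ref 𝔉 where
  m := o.m
  A0 := o.m.addC o.A0 y.α
  Φ0 := o.Φ0 + y.φ
  ok := o.ok
  conn := isConn_addC o.ok o.conn (fun a => (Grp76.pj o.m.A a).contMDiff.comp (Cb.sm (y.cα h)))
    (fun x => idx_mem (y.pα h x)) fun x => idx_sum (y.pα h x)
  cp := o.cp
  cρ := o.cρ
  cj := o.cj
  cA a := Cb_add (o.cA a) (Cb_clm (opL ∘L Grp76.pj o.m.A a) (y.cα h))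
  cΦ := Cb_add o.cΦ (y.cφ h)
  pos := y.pΦ h
  b := o.b
  sb := o.sb
  bP := o.bP

theorem rb_W (t : T) : (rb h y).W t 0 = o.W t y.α := funext₂ fun a x => by
  simp only [W_apply, Fam.W0, Ref.A, Md.addC, smul_add, Finset.sum_add_distrib, Pi.zero_apply,
    PiLp.zero_apply, map_zero, smul_zero, Finset.sum_const_zero]
  abel

end rb

variable {𝔉 : Fam I M (Option κ) lam T} {δ R : ℝ} (X : Ends 𝔉 δ) {t : T} (ht : t ∈ 𝔉.Q)
  {c : Cfg M (Option κ) lam 0} (hc : Adm0 c 𝔉.B (𝔉.G t)) (h0 : ∀ x ∉ 𝔉.Om', c.Φ x = 0)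

theorem sl_rb {o : Ref 𝔉} {r : ℕ} (h : 𝔉.OK) (y : Pnt o r) {P : End 𝔉} {s : ℝ}
    (e : ∀ z, y.α (P.pt s z) = 0 ∧ y.φ (P.pt s z) = 0) (t : T) :
    P.sl (rb h y) s t = P.sl o s t :=
  cfg_ext rfl rfl rfl (funext₂ fun a z => by rw [rb_W, W_apply, W_apply, (e z).1]; rfl)
    (funext fun z => (congrArg (_ + ·) (e z).2).trans (add_zero _))

include hc h0

theorem exists_ref0 (hR : X.R ≤ R) {β : ∀ a, YC (X.P a).Y.M κ lam} {ζ : X.A → Circle}
    {u : ∀ a, (X.P a).Y.M × ℝ → CL c.m.V (β a).m.V} (hβ : ∀ a, (X.P a).D.Adm (β a))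
    (iu : ∀ a, Iso0 (IC (X.P a).Y.I) (cmM (X.P a).K.ψ c.m) (cy (β a)).m {z | R < (X.P a).sg * z.2} (u a))
    (pu : ∀ a z, R < (X.P a).sg * z.2 → (X.P a).K.ψ z ∈ 𝔉.Om → ∀ b, (X.P a).D.Z.D b (u a) z +
      (β a).W b z.1 ∘L u a z - u a z ∘L c.W b ((X.P a).K.ψ z) = 0)
    (hΦ : ∀ a z, R < (X.P a).sg * z.2 →
      (β a).Φ z.1 = cs (β a).m.J (ζ a) (u a z (c.Φ ((X.P a).K.ψ z)))) :
    ∃ o : Ref 𝔉, X.Lit o (R + 4) ∧ Rep c (pt0 o 0 ht) ∧
      ∀ a, (X.P a).D.Eqv (β a) ((X.P a).sl o (R + 4 + 1) t) := by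
  have h := X.ok
  have H := X.okP
  have hR4 : X.R ≤ R + 4 := by linarith
  have el := fun a => end_lit (H a) hR (c := c) (adm_ph (hβ a) (ζ a)⁻¹) (iu a)
  choose hf f1 f2 f3 using fun a => exists_height (K := fun _ : Unit => (X.P a).K)
    (σ := fun _ => (X.P a).sg) (R := R) fun _ s hs => mem_J (H a) hR hs
  obtain ⟨c', a, k1, k2, k3⟩ := exists_lits h.G0.P
    (c := ⟨c.m, Spn45.can c.m 𝔉.G0, 0, 0⟩)
    ⟨hc.ok, Spn45.isConn_can h.B h.G0 hc.ok, contMDiff_const, fun _ => map_zero _, .inl rfl⟩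
    (fun a => (el a).1) (fun a => (el a).2) f1
    (fun a x hx => (f2 a x hx).elim fun _ k => mem_U' (H a) hR k)
    fun a b k => (X.dis k).mono (U_mono _ hR) (U_mono _ hR)
  choose i i1 i2 using k3
  have lit : ∀ e (z : (X.P e).Y.M × ℝ), R + 4 < (X.P e).sg * z.2 →
      a ((X.P e).K.ψ z) = i e ∘L u e z ∧
        LitAt c' (ph (ζ e)⁻¹ (β e)) (i e) ((X.P e).K.ψ z) z.1 := fun e z hz => by
    have s := mem_src (H e) hR4 hz
    obtain ⟨j1, j⟩ := i2 e _ (f3 e () _ (by rw [(X.P e).K.tm_ψ z s]; exact hz.le))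
    rw [(X.P e).K.ψ.left_inv s] at j1
    refine ⟨j1, ?_⟩
    rw [show z.1 = ((X.P e).K.ψ.symm ((X.P e).K.ψ z)).1 by rw [(X.P e).K.ψ.left_inv s]]
    exact ⟨j.p, j.ρ, j.j, j.W, j.Φ⟩
  have hi : ∀ {e} {z : (X.P e).Y.M × ℝ}, R + 4 < (X.P e).sg * z.2 → R < (X.P e).sg * z.2 :=
    fun hz => by linarith
  have lΦ : ∀ e (z : (X.P e).Y.M × ℝ), R + 4 < (X.P e).sg * z.2 →
      c'.Φ ((X.P e).K.ψ z) = a ((X.P e).K.ψ z) (c.Φ ((X.P e).K.ψ z)) := fun e z hz => by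
    rw [(lit e z hz).1, (lit e z hz).2.Φ]
    show i e (cs _ _ ((β e).Φ z.1)) = _
    rw [hΦ e z (hi hz), cs_mul (show (β e).m.J * (β e).m.J = -1 from (hβ e).adm.ok.Jsq),
      ← Circle.coe_mul, inv_mul_cancel, Circle.coe_one, cs_one]
    rfl
  have cb := fun e => exists_cbc.1 (exists_cbc_cy (adm_stab (adm_ph (hβ e) (ζ e)⁻¹) (i1 e)))
  let o : Ref 𝔉 :=
    { m := c'.m
      A0 := c'.W
      Φ0 := 𝔉.Om'.indicator c'.Φ
      ok := k1.ok
      conn := k1.conn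
      cp := cb_of_lit X hR4 k1.ok.sp (fun e z hz => (lit e z hz).2.p) fun e => (cb e).1
      cρ b := cb_of_lit X hR4 (k1.ok.sρ b) (fun e z hz => (lit e z hz).2.ρ b) fun e => (cb e).2.1 b
      cj := cb_of_lit X hR4 k1.ok.sj (fun e z hz => (lit e z hz).2.j) fun e => (cb e).2.2.1
      cA b := cb_of_lit X hR4 (fun x => k1.conn.cc.sm b x) (fun e z hz => (lit e z hz).2.W b)
        fun e => (cb e).2.2.2.1 b
      cΦ := Grp76.Cb_ind h.Om' (cb_of_lit X hR4 k1.sm (fun e z hz => (lit e z hz).2.Φ)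
        fun e => (cb e).2.2.2.2)
      pos x := by
        by_cases hx : x ∈ 𝔉.Om'
        · rw [indicator_of_mem hx, indicator_of_mem hx, k1.pos]
        · rw [indicator_of_notMem hx c'.Φ, map_zero] }
  have : o.B0 := ⟨rfl⟩
  have oW : ∀ e, ∀ t' ∈ 𝔉.Q, ∀ z : (X.P e).Y.M × ℝ, R + 4 < (X.P e).sg * z.2 → ∀ b,
      o.W t' 0 b ((X.P e).K.ψ z) = cjL (i e) ((β e).W b z.1) := fun e t' ht' z hz b =>
    (W_end (H e) o ht' (U_mono _ hR4 (mem_U (H e) hR4 hz)) b).trans ((lit e z hz).2.W b)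
  have C' : o.m.IsConn 𝔉.B (𝔉.G t) (o.W t 0) := isConn_W h ht contMDiff_const fun x a => zero_mem _
  have sa : Sm I a := fun x => k2.su x trivial
  have zA : ∀ e (z : (X.P e).Y.M × ℝ), R + 4 < (X.P e).sg * z.2 →
      gA o t c a ((X.P e).K.ψ z) = 0 := fun e z hz =>
    indicator_apply_eq_zero.2 fun hx => PiLp.ext fun b => by
      have e1 : (𝔉.G t).F.D b a ((X.P e).K.ψ z) = i e ∘L (X.P e).D.Z.D b (u e) z := by
        refine ((gRel h (H e) ht).fr.D (U_mono _ hR4 (mem_U (H e) hR4 hz)) b (u := a) (u' := a)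
          (.of_forall fun _ => rfl)).trans ?_
        refine (Dw_end (H e) hR4 (fun z hz => (lit e z hz).1) [b] hz).trans ?_
        exact dv_clm (ContinuousLinearMap.compL ℝ c.m.V _ _ (i e)) ((iu e).su z (hi hz)).md
      show hsL (-(((𝔉.G t).F.D b a _ + o.W t 0 b _ ∘L a _ - a _ ∘L c.W b _) ∘L trn (a _))) = 0
      rw [map_neg, e1, oW e t ht z hz, (lit e z hz).1, neg_eq_zero]
      refine (congrArg hsL (dA_emb (i1 e).iso _ _ _ _)).trans ?_
      rw [pu e z (hi hz) hx, ContinuousLinearMap.zero_comp, map_zero, map_zero]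
  have gp : gP o c a 1 = 𝔉.Om'.indicator fun x => a x (c.Φ x) - c'.Φ x := funext fun x => by
    by_cases hx : x ∈ 𝔉.Om' <;> simp [gP, o, hx]
  have zP : ∀ e (z : (X.P e).Y.M × ℝ), R + 4 < (X.P e).sg * z.2 →
      gP o c a 1 ((X.P e).K.ψ z) = 0 := fun e z hz => by
    rw [gp]
    exact indicator_apply_eq_zero.2 fun _ => sub_eq_zero.2 (lΦ e z hz).symm
  have hcs : ∀ {V : Type} [Zero V] {f : M → V}, (∀ e (z : (X.P e).Y.M × ℝ),
      R + 4 < (X.P e).sg * z.2 → f ((X.P e).K.ψ z) = 0) → HasCompactSupport f := fun k =>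
    X.hcs (R + 4) fun e x hx => by
      obtain ⟨z, hz, rfl⟩ := (H e).exists_ψ hx
      exact k e z hz
  have sA : Sm I (gA o t c a) := by
    refine Grp76.sm_ind h.Om fun x _ => (PiLp.continuousLinearEquiv 2 ℝ fun _ : Option κ =>
      o.m.A).symm.toContinuousLinearMap.contMDiff.contMDiffAt.comp x
      (contMDiffAt_pi_space.2 fun b => ?_)
    have := FSm.cc (((dv_smoothAt ((𝔉.G t).F.sm b x) (sa x)).add
      (FSm.cc (C'.cc.sm b x) (sa x))).sub (FSm.cc (sa x) (hc.conn.cc.sm b x))) (FSm.ad (sa x))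
    simp only [ad_trn] at this
    exact hsL.contMDiff.contMDiffAt.comp x this.neg
  obtain ⟨y, rfl, y2, y3, y4⟩ := pt o h 0 t c a 1 ht hc (fun x hx => h0 x hx.2)
    ((k2.mono (subset_univ _)).mEq (OK.on hc.ok _) (OK.on k1.ok _)) (.of_hcs sA (hcs zA))
    (.of_hcs (gp ▸ Grp76.sm_ind h.Om' fun x _ => ((sa.clm_apply hc.sm).sub k1.sm) x) (hcs zP))
  have sl : ∀ e, ∀ t' ∈ 𝔉.Q, ∀ s, R + 4 < s →
      (X.P e).sl (rb h y) s t' = stab (ph (ζ e)⁻¹ (β e)) c'.m.J (i e) := fun e t' ht' s hs => by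
    have hz : ∀ y, R + 4 < (X.P e).sg * ((y, (X.P e).sg * s) : (X.P e).Y.M × ℝ).2 := fun y => by
      rwa [sg_sq]
    rw [sl_rb h y fun z => ⟨(y3 _).trans ((congrArg _ (zA e _ (hz z))).trans (map_zero _)),
      (congrFun y4 _).trans (zP e _ (hz z))⟩, stab, Subsingleton.elim (ph (ζ e)⁻¹ (β e)).z 0]
    refine cfg_ext (funext fun y => (lit e _ (hz y)).2.p)
      (funext fun b => funext fun y => (lit e _ (hz y)).2.ρ b) (funext fun y => (lit e _ (hz y)).2.j)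
      (funext fun b => funext fun y => oW e t' ht' _ (hz y) b) (funext fun y => ?_)
    refine Eq.trans ?_ (lit e _ (hz y)).2.Φ
    by_cases hx : (X.P e).pt s y ∈ 𝔉.Om'
    · exact indicator_of_mem hx _
    · exact (indicator_of_notMem hx _).trans ((lΦ e _ (hz y)).trans
        ((congrArg _ (h0 _ hx)).trans (map_zero _))).symm
  refine ⟨rb h y, ⟨hR4, fun e => ⟨fun t' ht' s hs => ?_, fun t' ht' z => ?_⟩⟩,
    ⟨a, 1, y2.m, (congrArg (Par _ c.W · _ _ _ a) (rb_W h y _)).mpr y2.W, fun x hx => (add_zero _).trans (y2.Φ x hx),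
      Subsingleton.elim _ _⟩, fun e => ?_⟩
  · rw [sl e t' ht' s hs, sl e t' ht' _ (by linarith)]
  · have := congrArg (fun γ : YC (X.P e).Y.M κ lam => ∀ z, γ.W none z = 0)
      (sl e t' ht' (R + 4 + 1) (by linarith))
    exact this.mpr (adm_stab (adm_ph (hβ e) (ζ e)⁻¹) (i1 e)).tmp z
  · rw [sl e _ ht _ (by linarith)]
    exact ⟨_, _, eqv_stab (hβ e) (H e).D (i1 e) (ζ e)⁻¹⟩

/-- **a standard configuration is the base point of a literal reference** -/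
theorem exists_ref {β : ∀ a : {a // X.Act a}, YC (X.P a).Y.M κ lam}
    (hβ : ∀ a, (X.P a.1).D.Adm (β a)) (he : ∀ a : {a // X.Act a}, ∃ w ζ s,
      EqOn (X.P a).D.B (X.P a).D.Z ((X.P a).H s) ((X.P a).K.pb c) (cy (β a)) w ζ) :
    ∃ (o : Ref 𝔉) (R : ℝ), X.Lit o R ∧ Rep c (pt0 o 0 ht) ∧
      ∀ a, (X.P a.1).D.Eqv (β a) ((X.P a).sl o (R + 1) t) := by
  choose w ζ s he using he
  obtain ⟨S, hS⟩ := Finite.bddAbove_range s
  have hR : X.R ≤ max X.R S := le_max_left _ _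
  have adm := fun a => admOn_end X.ok (X.okP a) ht hc hR
  have k : ∀ a, ∃ (β' : YC (X.P a).Y.M κ lam) (ζ : Circle)
      (u : (X.P a).Y.M × ℝ → CL c.m.V β'.m.V), (X.P a).D.Adm β' ∧ Iso0 (IC (X.P a).Y.I) (cmM (X.P a).K.ψ c.m) (cy β').m {z | max X.R S + 1 < (X.P a).sg * z.2} u ∧
      (∀ z, max X.R S + 1 < (X.P a).sg * z.2 → (X.P a).K.ψ z ∈ 𝔉.Om → ∀ b, (X.P a).D.Z.D b u z +
        β'.W b z.1 ∘L u z - u z ∘L c.W b ((X.P a).K.ψ z) = 0) ∧
      (∀ z, max X.R S + 1 < (X.P a).sg * z.2 → β'.Φ z.1 = cs β'.m.J ζ (u z (c.Φ ((X.P a).K.ψ z)))) ∧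
      ∀ h : X.Act a, β' = β ⟨a, h⟩ := fun a => by
    have s1 : ∀ z : (X.P a).Y.M × ℝ, max X.R S + 1 < (X.P a).sg * z.2 →
        max X.R S < (X.P a).sg * z.2 := fun z => (lt_add_one _).trans
    by_cases ha : X.Act a
    · have s2 : ∀ z : (X.P a).Y.M × ℝ, max X.R S + 1 < (X.P a).sg * z.2 → z ∈ (X.P a).H (s ⟨a, ha⟩) :=
        fun z hz => ((hS ⟨_, rfl⟩).trans (le_max_right _ _)).trans_lt (s1 z hz)
      have e := he ⟨a, ha⟩
      have b := admOn_univ.2 (hβ ⟨a, ha⟩).adm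
      exact ⟨_, _, _, hβ ⟨a, ha⟩, .of_mEq (isOpen_hi _ _) ⟨e.m.su.mono s2,
        fun x hx => e.m.uu x (s2 x hx), fun x hx => e.m.uu' x (s2 x hx),
        fun x hx => e.m.J x (s2 x hx), fun x hx => e.m.ρ x (s2 x hx), fun x hx => e.m.j x (s2 x hx)⟩
        ((adm a).mono s1).ok (b.mono (subset_univ _)).ok, fun z hz _ => (par0_iff fun a' x _ =>
          b.conn.proj' (X.okP a).D.B a' x trivial).2 e.W z (s2 z hz), fun z hz => e.Φ z (s2 z hz),
        fun _ => rfl⟩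
    · obtain ⟨β', u, k1, k2, k3⟩ := exists_inv (X.okP a).D (sg_sq _) (adm a)
      have off := fun z hz => ((X.okP a).dich X.ok.Om le_rfl).resolve_left ha
        (U_mono _ hR (mem_U (X.okP a) hR (s1 z hz)))
      exact ⟨β', 1, u, k1, k3, fun z hz hx => (off z hz hx).elim, fun z hz =>
        (congrFun k2 _).trans ((congrArg _ ((congrArg _ (h0 _ (mt (X.ok.sub ·) (off z hz)))).trans
          (map_zero _))).trans (cs_zero _ _)).symm, fun h => (ha h).elim⟩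
  choose β' ζ' u k1 k2 k3 k4 k5 using k
  obtain ⟨o, l1, l2, l3⟩ := exists_ref0 X ht hc h0 (hR.trans (lt_add_one _).le) k1 k2 k3 k4
  exact ⟨o, _, l1, l2, fun a => k5 a a.2 ▸ l3 a⟩

end Crest.Agent.X212.Rz57
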