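import Crest.Agent.X212.Num57.RzE
import Crest.Agent.X212.Num57.RzL
import Crest.Agent.X212.Nk89.Frd
import Crest.Agent.X212.Nd18.Ind

/-! X212/Num57/Rz (helper57): IX-RZ, standard configurations have an index. -/

set_option autoImplicit false
set_option linter.unusedSectionVars false
noncomputable section
open scoped Manifold ContDiff Topology InnerProductSpace
open MeasureTheory Set Function Filter

namespace Crest.Agent.X212.Rz57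
open An M Cyf70 Mod61 Map77 Nk89 Nd18

variable {κ lam : Type} [Fintype κ] [Fintype lam] {Z : Mf 4} {k : ℕ} {δ R : ℝ}

section gen
variable {T : Type} [NormedAddCommGroup T] [NormedSpace ℝ T] {𝔉 : Fam Z.I Z.M (Option κ) lam T}
  {X : Ends 𝔉 δ} {A : Type} [Fintype A] (f : A ≃ {a // X.Act a}) {P : A → End 𝔉}
  (hP : ∀ a, X.P (f a) = P a) {o : Ref 𝔉} {t : T} (ht : t ∈ 𝔉.Q)
include hP

theorem ch0 (l : X.Lit o R) (hQ : ∀ s ∈ 𝔉.Q, s = t) (hk : 3 ≤ k)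
    {e : ∀ a, PtX ((P a).Y.M × ℝ) (Option κ) lam 0 0 0}
    (H : ∀ a (h : (P a).D.Adm ((P a).sl o (R + 1) t))
      (h0 : ∀ x ∉ (P a).O' R, ((P a).sl o (R + 1) t).Φ x.1 = 0), CylOK (δ := δ) h h0 k (e a))
    (ht : t ∈ 𝔉.Q) : Aff o (Fs 𝔉) 0 0 0 (eR P o R t e) ∧
      ∀ a h h0, (P a).Loc o k δ R (eR P o R t e) t h h0 (e a) := by
  obtain rfl : P = fun a => X.P (f a) := funext fun a => (hP a).symm
  have hi : Injective fun a => (f a).1 := Subtype.val_injective.comp f.injective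
  exact ⟨aff_eR l hi (fun a => (f a).2) ht (fun a h => ⟨f.symm ⟨a, h⟩, by simp⟩) hQ
    fun a h h0 => (H a h h0).aff, fun a h h0 => loc_eR l hi (fun a => (f a).2) ht a h h0 hk
      ((H a h h0).loc _ (End.sg_cases _))⟩

theorem fred0 {r n m : ℕ} {e : T → PtX Z.M (Option κ) lam r n m}
    (H : ∀ a h h0, ∃ eZ, CylOK (δ := δ) h h0 k eZ ∧ (P a).Loc o k δ R e t h h0 eZ) :
    X.Fred o R k e t := fun a ha => by
  obtain rfl : P = fun a => X.P (f a) := funext fun a => (hP a).symm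
  obtain ⟨a', rfl⟩ : ∃ a', (f a').1 = a := ⟨f.symm ⟨a, ha⟩, by simp⟩
  exact H a'

theorem ref0 {c : C0 Z κ lam} (hc : Adm0 c 𝔉.B (𝔉.G t)) (h0 : ∀ x ∉ 𝔉.Om', c.Φ x = 0)
    {β : ∀ a, YC (P a).Y.M κ lam} (hβ : ∀ a, (P a).D.Adm (β a)) (he : ∀ a, ∃ w ζ s,
      EqOn (P a).D.B (P a).D.Z ((P a).H s) ((P a).K.pb c) (cy (β a)) w ζ) :
    ∃ (o : Ref 𝔉) (R : ℝ), X.Lit o R ∧ Rep c (pt0 o 0 ht) ∧
      ∀ a, (P a).D.Eqv (β a) ((P a).sl o (R + 1) t) := by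
  obtain rfl : P = fun a => X.P (f a) := funext fun a => (hP a).symm
  have e := Equiv.piCongrLeft_apply_apply (fun a : {a // X.Act a} => YC (X.P a).Y.M κ lam) f β
  obtain ⟨o, R, l, r, q⟩ := exists_ref X ht hc h0 (β := f.piCongrLeft _ β)
    (f.surjective.forall.2 fun a => (e a).symm ▸ hβ a) (f.surjective.forall.2 fun a =>
      (e a).symm ▸ he a)
  exact ⟨o, R, l, r, fun a => e a ▸ q (f a)⟩

end gen

theorem eqOn_cg {Z' : Mf 4} {B : Base Z'.M (Option κ) lam} {F : Fr Z'.I Z'.M (Option κ)}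
    {S S' : Set Z'.M} {ψ ψ' : Z'.M → Z.M} {c : C0 Z κ lam} {γ : C0 Z' κ lam}
    {w : Z'.M → CL c.m.V γ.m.V} {ζ : Circle} (e : EqOn B F S (pb ψ c) γ w ζ) (hs : S' ⊆ S)
    (h : Set.EqOn ψ' ψ S') {Φ : Z.M → c.m.V} {Φ' : Z'.M → γ.m.V}
    (hΦ : ∀ z ∈ S', Φ' z = cs γ.m.J ζ (w z (Φ (ψ' z)))) :
    EqOn (r := 0) B F S' (pb ψ' ⟨c.m, c.W, Φ, 0⟩) ⟨γ.m, γ.W, Φ', 0⟩ w ζ :=
  ⟨⟨e.m.su.mono hs, fun z hz => (e.m.uu z (hs hz)).trans (congrArg c.m.p (h hz).symm),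
    fun z hz => e.m.uu' z (hs hz), fun z hz => e.m.J z (hs hz), fun z hz b => (e.m.ρ z (hs hz) b).trans
      (congrArg (fun x => w z ∘L ∑ a, B.P b a z • c.m.ρ a x) (h hz).symm),
    fun z hz s => (e.m.j z (hs hz) s).trans (congrArg (w z ∘L c.m.j · s) (h hz).symm)⟩,
    fun z hz a => (congrArg (_ - w z ∘L c.W a ·) (h hz)).trans (e.W z (hs hz) a), hΦ,
    Subsingleton.elim _ _⟩

variable {b : BG κ lam Z} {O : Set Z.M} (g : b.GR O δ)

/-- the ends of the family -/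
abbrev En (a : b.A) : End g.𝔉 := ⟨(b.E a).X.Y, (b.E a).X.D, g.K a, (b.E a).out⟩

/-- **literal references carry charts** -/
theorem ch_of [Subsingleton g.T] {o : Ref g.𝔉} (l : g.X.Lit o R) (hk : 3 ≤ k)
    (H : ∀ a (h : (En g a).D.Adm ((En g a).sl o (R + 1) g.t))
      (h0 : ∀ x ∉ (En g a).O' R, ((En g a).sl o (R + 1) g.t).Φ x.1 = 0),
      CylOK (δ := δ) h h0 k (eZ (b.E a).X.N (b.E a).X.D)) :
    g.Ch k o R (eR (En g) o R g.t fun a => eZ (b.E a).X.N (b.E a).X.D) :=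
  have c := ch0 g.f g.hP l (fun _ _ => Subsingleton.elim _ _) hk H g.ht
  ⟨l, c.1, fun a h h0 => ⟨H a h h0, c.2 a h h0⟩⟩

variable {g} in
theorem fred_of {o : Ref g.𝔉} {r n m : ℕ} {e : g.T → PtX Z.M (Option κ) lam r n m}
    (h : g.Ch k o R e) : g.X.Fred o R k e g.t := fred0 g.f g.hP fun a h' h0 => ⟨_, h.loc a h' h0⟩

theorem O'_eq (hR : g.X.R ≤ R) {a : b.A} {f : Bool} {s : ℝ}
    (hf : ∀ x ∈ (b.E a).U s, x ∈ O ↔ f = true) : (En g a).O' R = spO f univ := by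
  obtain ⟨s', e⟩ := g.hψ a
  have k : (En g a).OK g.X.ψ δ g.X.R :=
    (congrArg (End.OK · _ _ _) (g.hP a)).mp (g.X.okP (g.f a))
  ext z
  have hz : ∀ c ≤ max R (max s s'), c < (En g a).sg * ((En g a).sg * (max R (max s s') + 1)) :=
    fun c hc => by rw [End.sg_sg]; linarith
  rw [k.mem_O' g.X.ok hR (z := (z.1, (En g a).sg * (max R (max s s') + 1)))
    (hz _ (le_max_left _ _)), g.hO', e ⟨trivial, hz _ (by simp)⟩,
    hf _ ⟨_, ⟨trivial, hz _ (by simp)⟩, rfl⟩]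
  cases f <;> simp [spO]

/-- **standard configurations are base points of literal references** -/
theorem lit_of (hb : b.OK O) {c : C0 Z κ lam} {β : ∀ a, (b.E a).X.C} (hc : b.Std c β)
    {f : b.A → Bool} (hf : ∀ a, ∃ s, ∀ x ∈ (b.E a).U s, x ∈ O ↔ f a = true) :
    ∃ (o : Ref g.𝔉) (R : ℝ), g.X.Lit o R ∧ (∃ u ζ, EqOn b.B b.G.F b.O
      ⟨c.m, c.W, O.indicator c.Φ, 0⟩ (noz (pt0 o 0 g.ht).cfg) u ζ) ∧ ∀ a, (b.E a).X.D.Eqv
        ⟨(β a).m, (β a).W, bif f a then (β a).Φ else 0, 0⟩ ((En g a).sl o (R + 1) g.t) := by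
  choose w ζ s h using hc.2
  obtain ⟨o, R, l, ⟨u, ξ, e⟩, q⟩ := ref0 g.f g.hP g.ht (c := ⟨c.m, c.W, O.indicator c.Φ, 0⟩)
    (β := fun a => ⟨(β a).m, (β a).W, bif f a then (β a).Φ else 0, 0⟩)
    (g.hB ▸ g.hG ▸ ⟨hc.1.ok, hc.1.conn, Grp76.sm_ind hb.cl' fun x _ => hc.1.sm x, fun x => by
      by_cases hx : x ∈ O
      · simp only [indicator_of_mem hx, hc.1.pos]
      · simp only [indicator_of_notMem hx, map_zero]⟩)
    (fun x hx => indicator_of_notMem (g.hO' ▸ hx) _) (fun a => by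
      have k := (h a).adm
      cases f a
      exacts [⟨⟨k.adm.ok, k.adm.conn, contMDiff_const, fun _ => map_zero _, .inl rfl⟩, k.tmp⟩,
        ⟨⟨k.adm.ok, k.adm.conn, k.adm.sm, k.adm.pos, .inl rfl⟩, k.tmp⟩]) fun a => by
      obtain ⟨s₁, e₁⟩ := g.hψ a
      obtain ⟨s₂, e₂⟩ := hf a
      have m : ∀ c ≤ max (s a) (max s₁ s₂), (En g a).H (max (s a) (max s₁ s₂)) ⊆
          univ ×ˢ (b.E a).ht c := fun c hc z hz => ⟨trivial, hc.trans_lt hz⟩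
      refine ⟨w a, ζ a, _, eqOn_cg (Z' := cylM _) (h a).eq (m _ (le_max_left _ _))
        (e₁.mono (m _ (by simp))) fun z hz => ?_⟩
      have k := e₂ _ ⟨z, m _ (by simp) hz, rfl⟩
      rw [e₁ (m _ (by simp) hz)]
      cases hh : f a
      · rw [indicator_of_notMem (mt k.1 (by simp [hh]))]
        exact ((congrArg _ (map_zero _)).trans (cs_zero _ _)).symm
      · rw [indicator_of_mem (k.2 hh)]
        exact (h a).eq.Φ z (m _ (le_max_left _ _) hz)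
  refine ⟨o, R, l, ⟨u, ξ, ?_⟩, q⟩
  rw [← g.hB, ← g.hG, ← g.hO]
  exact ⟨e.m, e.W, e.Φ, Subsingleton.elim _ _⟩

variable (κ lam) in
/-- **IX-RZ** -/
theorem rz (hk : 7 ≤ k) : RzStmt κ lam k := fun _ _ _ _ _ δ hb hc h0 h1 hz => by
  obtain ⟨g, _, -⟩ := hb.gr δ h0 h1
  choose f s hf hz using hz
  obtain ⟨o, R, l, e, q⟩ := lit_of g hb hc fun a => ⟨s a, hf a⟩
  have ch := ch_of g l (by omega : 3 ≤ k) fun a h h0 => hz a _ h _ h0 (O'_eq g l.le (hf a)) (q a)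
  obtain ⟨d, hd⟩ := (g.X.fred o R 0 0 0 k _ hk l ch.aff (pt0 o 0 g.ht) (fred_of ch)).1
  exact ⟨d, g, o, R, 0, 0, 0, _, ch, e, hd⟩

end Crest.Agent.X212.Rz57
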