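import Crest.Agent.X212.Num57.Frx
import Crest.Agent.X212.Ins26.D0
import Crest.Agent.X212.Rf65.Pl

/-! # Row 212, GL-FRX (helper57): the jobs of a scene -/

set_option autoImplicit false
set_option linter.unusedSectionVars false
noncomputable section
open MeasureTheory Set

namespace Crest.Agent.X212.Frx57
open An M G75 Ins26 Num57

variable {κ lam : Type} [Fintype κ] [Fintype lam] [DecidableEq lam] {Lm : LM κ lam} {S : Scene Lm}
  {i : S.L}

theorem pc_top (W : Caps S.M) : W.pc S.M.c0 (M.top _) = univ := eq_univ_of_forall fun z =>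
  have : z ∈ (W.φ S.M.c0).target := W.tgt _ ▸ fun _ h => h.elim
  .inl ⟨_, S.M.sys.U_top ▸ mem_univ _, (W.φ _).right_inv this⟩

/-- the topological term on the closed manifold -/
theorem tp_eq {W : World S.M} (Λ : Lns W (S.N i)) (m : S.M.Cl) {p : Prm S.A}
    (hO : p ∈ S.M.O S.M.c0.1) : tp (Λ.B m S.M.c0) (Λ.G m S.M.c0 p) = d0 S i := by
  have := Gj67.cpt0 W
  obtain ⟨β, sg, l2, h⟩ := exists_nb_univ (S := S) i
  obtain ⟨h1, h2, h3⟩ := nb_int (c := S.M.c0) S.M.sys.piece_top (by simp) Λ m hO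
    (S.M.sys.U_top ▸ h)
  rw [pc_top, Measure.restrict_univ] at h1 h2 h3
  have g := Λ.G_ok m hO
  have k := Num57.OK.of_base (W.Z _).dim (Λ.B_ok m _) g
  have i2 : Integrable (lad (Λ.B m S.M.c0) (Λ.G m S.M.c0 p)) (Λ.G m S.M.c0 p).F.μ :=
    lad99 (Λ.B_ok m _) g ▸ int_sm (Idg99.sm_lad (Λ.B_ok m _) g (W.Z _).dim)
  rw [d0_eq h, ← h1, ← h2, ← h3, sub_div, ← integral_div, ← integral_div, ← integral_const_mul]
  refine Eq.trans ?_ ((integral_sub ((i2.div_const 2).sub (k.int_sgd.div_const 2))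
    (((k.int_eud.add k.int_sgd).div_const 2).const_mul 3)).trans
    (congrArg (· - _) (integral_sub (i2.div_const 2) (k.int_sgd.div_const 2))))
  exact integral_congr_ae (.of_forall fun x => by simp only [Pi.sub_apply, Pi.add_apply]; ring)

variable {D : S.Dat} {Wi : Type} {r n : ℕ} {J : Job Wi (D.Λ i) (S.A ⊕ Unit) S.ls r n}
  {X : Finset S.A} {a₀ : Option S.A} {j : ℕ} {n₀ : ℤ} {T : ℝ} (h : Rf65.GX J X a₀ j n₀ T)
include h

/-- the index condition of the generic class -/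
theorem idx_gx (σ) (hσ : σ ∈ J.𝒦) (s) (hs : J.Ov σ S.M.c0 s) : 6 * J.k +
    tp (J.B S.M.c0) (J.G S.M.c0 s) + 2 * r - 2 * n - 2 - 2 * Fintype.card S.ls = n₀ := by
  rw [tp_eq _ _ (h.ok.memO hσ hs), h.k, h.r, kz, Fintype.card_coe]
  push_cast; ring

/-- **GL-FRX for the generic class** -/
theorem frx_gx : Kof81.FrxL J n₀ := frxL (by rw [h.r]; omega) (idx_gx h)

end Crest.Agent.X212.Frx57
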