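import Crest.Agent.X212.Dr59.Lat
import Crest.Agent.X212.Cyl58.OE

/-!
X212 / NUM (helper57): more on `Dr59.Lat` : pull-back, diagonalisation, splitting along necks,
filling in points.
-/

set_option autoImplicit false
set_option linter.unusedSectionVars false
set_option linter.style.haveILetI false

open Set Filter Topology Function Module Matrix
open scoped ContDiff Manifold
open Crest.Agent.R208 Crest.Agent.R208.F Crest.Agent.X212.Int54 Crest.Agent.X212.Dr59
open Crest.Agent.X212.Cyl58 (IsOE)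

noncomputable section

namespace Crest.Agent.X212.Num57

variable {E : Type*} [NormedAddCommGroup E] [NormedSpace ℝ E] [FiniteDimensional ℝ E]
  {H : Type*} [TopologicalSpace H] {I : ModelWithCorners ℝ E H} [I.Boundaryless]
  {M : Type*} [TopologicalSpace M] [ChartedSpace H M] [IsManifold I ∞ M]
  {E' : Type*} [NormedAddCommGroup E'] [NormedSpace ℝ E'] [FiniteDimensional ℝ E']
  {H' : Type*} [TopologicalSpace H'] {J : ModelWithCorners ℝ E' H'} [J.Boundaryless]
  {N : Type*} [TopologicalSpace N] [ChartedSpace H' N] [IsManifold J ∞ N]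
  {k n : ℕ} {U V W K : Set M} {o c c' e : M → Ext E} {j : N → M}

theorem cs_pull [T2Space N] (h : Cs I k K e) (hj : IsOE J I j) (hK : K ⊆ range j) :
    Cs J k (j ⁻¹' K) (pm J I j e) := by
  have h1 : tsupport (pm J I j e) ⊆ j ⁻¹' tsupport e := closure_minimal (fun y hy => by_contra fun k =>
    hy (by rw [pm_apply, image_eq_zero_of_notMem_tsupport k, map_zero]))
    ((isClosed_tsupport e).preimage hj.continuous)
  exact ⟨h.cl.pm (.of_contMDiff hj.contMDiff (mapsTo_univ _ _)),
    (hj.isOpenEmbedding.isInducing.isCompact_preimage' h.hc (h.sub.trans hK)).of_isClosed_subset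
      (isClosed_tsupport _) h1, h1.trans (preimage_mono h.sub)⟩

theorem finrank_oe (hj : IsOE J I j) {S : Set N} (hS : IsOpen S) (k : ℕ) :
    finrank ℝ (HR I k (j '' S)) = finrank ℝ (HR J k S) :=
  (LinearEquiv.ofBijective _ (oe_st_bij hj.loc hj.inj hS)).finrank_eq

theorem finrank_pd (φ : PartialDiffeomorph J I N M ∞) {S : Set N} (hS : IsOpen S)
    (h : S ⊆ φ.source) (k : ℕ) : finrank ℝ (HR I k (φ '' S)) = finrank ℝ (HR J k S) :=
  (LinearEquiv.ofBijective _ (pd_st_bij φ hS h)).finrank_eq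

theorem finrank0 (hU : IsOpen U) (h : IsConnected U) : finrank ℝ (HR I 0 U) = 1 := by
  have k := bd0 (I := I) hU h.2
  have := k.finite
  obtain ⟨x, hx⟩ := h.1
  exact le_antisymm k.finrank_le (finrank_pos_iff_exists_ne_zero.2
    ⟨(cl_one : Cl I 0 U 1).cls, fun h0 =>
      one_ne_zero ((cls_eq_zero.1 h0).deg0 (cl_one (I := I)).dg hx)⟩)

theorem hz_biUnion {α : Type*} {s : Set α} (hs : s.Finite) {V : α → Set M}
    (ho : ∀ a ∈ s, IsOpen (V a)) (hd : s.PairwiseDisjoint V) (h : ∀ a ∈ s, HZ I k (V a)) :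
    HZ I k (⋃ a ∈ s, V a) := by
  induction s, hs using Finite.induction_on with
  | empty => simpa using hz_empty
  | @insert a s ha hs ih =>
    rw [biUnion_insert]
    exact fun c hc => ex_disj (ho a (.inl rfl)) (isOpen_biUnion fun b hb => ho b (.inr hb))
      (disjoint_iUnion₂_right.2 fun b hb => hd (.inl rfl) (.inr hb) fun e => ha (e ▸ hb))
      (h a (.inl rfl) c (hc.mono subset_union_left))
      (ih (fun b hb => ho b (.inr hb)) (hd.subset (subset_insert _ _)) (fun b hb => h b (.inr hb)) c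
        (hc.mono subset_union_right))

section mv
variable [T2Space M] [SigmaCompactSpace M]

/-- attaching a piece without cohomology -/
theorem res_bij (hU : IsOpen U) (hV : IsOpen V) (h1 : HZ I (k + 1) V) (h2 : HZ I (k + 1) (U ∩ V))
    (hs : Sj I k U V) (e : U ∪ V = W) (h : U ⊆ W) : Bijective (res (I := I) (k := k + 1) h) := by
  subst e
  exact ⟨(injective_iff_map_eq_zero _).2 fun _ hx => res_inj hU hV hs hx (h1.eq _),
    res_surj hU hV h2⟩

theorem sj0 (hW : IsOpen (U ∩ V)) (h : IsPreconnected (U ∩ V)) : Sj I 0 U V := by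
  refine sj_right fun y => ?_
  rcases (U ∩ V).eq_empty_or_nonempty with k | k
  · exact ⟨0, by rw [map_zero]; exact ((k ▸ hz_empty : HZ I 0 (U ∩ V)).eq y).symm⟩
  · have h1 := finrank0 (I := I) hW ⟨k, h⟩
    obtain ⟨x, hx⟩ := k
    obtain ⟨r, hr⟩ := (finrank_eq_one_iff_of_nonzero' (cl_one : Cl I 0 (U ∩ V) 1).cls fun h0 =>
      one_ne_zero ((cls_eq_zero.1 h0).deg0 (cl_one (I := I)).dg hx)).1 h1 y
    exact ⟨r • (cl_one : Cl I 0 V 1).cls, by rw [map_smul, ← hr]; rfl⟩

/-- a closed form that is exact on `V` is cohomologous to a form supported in `U` -/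
theorem exists_cs (hU : IsOpen U) (hV : IsOpen V) (hc : IsCompact (U ∪ V))
    (h : Cl I (k + 1) (U ∪ V) c) (hx : Ex I V c) :
    ∃ e, Cs I (k + 1) U e ∧ Ex I (U ∪ V) (c - e) := by
  obtain ⟨χ, hχ⟩ := exists_cut (I := I) hU hV
  obtain ⟨q, h1, h2, h3⟩ := hx.deg (h.dg.mono subset_union_right)
  have z : Cz I (U ∪ V) V (1 - χ) := ⟨fun x hx => contMDiffAt_const.sub (hχ.sm x hx),
    fun x hx hw => (hχ.o x (hx.resolve_right hw) hw).mono fun y hy => by simp [hy]⟩
  have o := hU.union hV
  refine ⟨_, (cs_indicator o (h.sub (cl_dM o (z.sm_smul h1) (z.dg_smul h2)))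
    (hc.diff (isOpen_interior.inter hV : IsOpen (interior {x | χ x = 0} ∩ V))) sdiff_subset
    fun x hx k => ?_).mono fun x hx => by_contra fun k => hx.2 ?_,
    (ex_dM (z.sm_smul h1)).congr fun x hx => ?_⟩
  · have k' : x ∈ interior {x | χ x = 0} ∩ V := by_contra fun e => k ⟨hx, e⟩
    rw [Pi.sub_apply, ← h3 x k'.2, sub_eq_zero]
    exact dM_congr (eventually_of_mem (mem_interior_iff_mem_nhds.1 k'.1) fun y hy => by
      simp [show χ y = 0 from hy])
  · exact ⟨mem_interior_iff_mem_nhds.2 (hχ.z x (hx.1.resolve_left k) k), hx.1.resolve_left k⟩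
  · rw [Pi.sub_apply, indicator_of_mem hx, Pi.sub_apply, sub_sub_cancel]

variable {β : EuclideanSpace ℝ (Fin 4) → M}

theorem res_pt (hβ : IsOE 𝓘(ℝ, EuclideanSpace ℝ (Fin 4)) I β) (hW : IsOpen W) (h : range β ⊆ W)
    (hk : k < 2) : Bijective (res (I := I) (k := k + 1) (sdiff_subset : W \ {β 0} ⊆ W)) := by
  have e : W \ {β 0} ∩ range β = β '' {0}ᶜ := by
    ext x
    refine ⟨?_, ?_⟩
    · rintro ⟨k, y, rfl⟩
      exact ⟨y, fun e => k.2 (congrArg β e), rfl⟩
    · rintro ⟨y, k, rfl⟩
      exact ⟨⟨h ⟨y, rfl⟩, fun e => k (hβ.inj e)⟩, y, rfl⟩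
  have z : ∀ k < 2, HZ I (k + 1) (W \ {β 0} ∩ range β) := fun k hk =>
    e ▸ (hz_oe hβ.loc hβ.inj isOpen_compl_singleton).2 (hz_punct (by omega))
  have o : IsOpen (W \ {β 0}) := hW.sdiff isClosed_singleton
  refine res_bij o hβ.isOpen_range
    (image_univ (f := β) ▸ (hz_oe hβ.loc hβ.inj isOpen_univ).2 hz_univ) (z k hk) ?_
    (Subset.antisymm (union_subset sdiff_subset h) fun x hx => ?_) _
  · obtain rfl | rfl : k = 0 ∨ k = 1 := by omega
    · exact sj0 (o.inter hβ.isOpen_range) (e ▸ (isConnected_compl_singleton_of_one_lt_rank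
        (by rw [← finrank_eq_rank]; simp) 0).isPreconnected.image _ hβ.continuous.continuousOn)
    · exact (z 0 two_pos).sj
  · by_cases k : x = β 0
    exacts [.inr ⟨0, k.symm⟩, .inl ⟨hx, k⟩]

/-- **filling in points** does not change `H¹`, `H²` of a four-manifold -/
theorem res_pts {α : Type*} {β : α → EuclideanSpace ℝ (Fin 4) → M} {s : Set α} (hs : s.Finite)
    (hβ : ∀ a ∈ s, IsOE 𝓘(ℝ, EuclideanSpace ℝ (Fin 4)) I (β a)) (hW : IsOpen W)
    (h : ∀ a ∈ s, range (β a) ⊆ W) (hd : ∀ a ∈ s, ∀ b ∈ s, β b 0 ∈ range (β a) → a = b) (hk : k < 2)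
    (e : U = W \ (fun a => β a 0) '' s) (hU : U ⊆ W) : Bijective (res (I := I) (k := k + 1) hU) := by
  induction s, hs using Finite.induction_on generalizing U with
  | empty =>
    obtain rfl : U = W := by simpa using e
    rw [show (res hU : HR I (k + 1) U → _) = id from funext res_self]
    exact bijective_id
  | @insert a s ha hs ih =>
    have h1 := ih (fun b hb => hβ b (.inr hb)) (fun b hb => h b (.inr hb))
      (fun b hb c hc => hd b (.inr hb) c (.inr hc)) rfl sdiff_subset
    have h2 := res_pt (hβ a (.inl rfl)) (hW.sdiff (hs.image fun a => β a 0).isClosed)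
      (fun x hx => ⟨h a (.inl rfl) hx, by
        rintro ⟨b, hb, rfl⟩
        exact ha (hd a (.inl rfl) b (.inr hb) hx ▸ hb)⟩) hk
    obtain rfl : U = (W \ (fun a => β a 0) '' s) \ {β a 0} := by
      rw [e, image_insert_eq, sdiff_sdiff, union_singleton]
    rw [show (res hU : HR I (k + 1) W → _) = res sdiff_subset ∘ res sdiff_subset from
      funext fun x => (res_res _ _ x).symm]
    exact h2.comp h1

end mv

variable [MeasurableSpace E] [BorelSpace E] [MeasurableSpace M] [BorelSpace M]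
  [SecondCountableTopology M] [T2Space M] [MeasurableSpace E'] [BorelSpace E'] [MeasurableSpace N]
  [BorelSpace N] [SecondCountableTopology N] [T2Space N]
  {ι : Type*} [Fintype ι] [DecidableEq ι] {f : ι → M → Ext E} {G : Matrix ι ι ℝ}

theorem ip_pull (hd : finrank ℝ E = finrank ℝ E') (ho : Ori I o) (hj : IsOE J I j)
    (he : ∀ x, x ∉ range j → e x = 0) (c : M → Ext E) :
    ip J (pm J I j o) (pm J I j c) (pm J I j e) = ip I o c e := by
  rw [ip, ip, ← pm_mul]
  exact (integ_map hd ho (ho.pm hj.loc) hj.contMDiff hj.inj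
    (fun y _ => mul_self_pos.2 ((ho.pm hj.loc).ne y)) fun x hx => by
      rw [Pi.mul_apply, he x hx, mul_zero, map_zero]).symm

theorem lat_pull (hd : finrank ℝ E = finrank ℝ E') (hj : IsOE J I j) (h : Lat I o (range j) K f G) :
    Lat J (pm J I j o) univ (j ⁻¹' K) (fun i => pm J I j (f i)) G :=
  ⟨h.ori.pm hj.loc, isOpen_univ, subset_univ _,
    (bd_oe hj.loc hj.inj isOpen_univ).1 (image_univ (f := j) ▸ h.bd),
    fun i => cs_pull (h.cs i) hj h.sub,
    fun i k => (ip_pull hd h.ori hj (fun _ => (h.csU k).eq_zero) _).trans (h.gram i k), h.det⟩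

theorem lat_finrank (h : Lat I o U K f G) : finrank ℝ (HR I 2 U) = Fintype.card ι :=
  haveI := h.bd.finite
  le_antisymm h.bd.finrank_le (Fintype.linearIndependent_iff.2 fun x hx =>
    congrFun (h.indep (cls_eq_zero.1 ((h.cls_comb x).trans hx)))).fintype_card_le_finrank

theorem sig_diag (d : ι → ℝ) : sigPos (diagonal d).toQuadraticForm' = {i | 0 < d i}.ncard ∧
    sigNeg (diagonal d).toQuadraticForm' = {i | d i < 0}.ncard := by
  have e : (diagonal d).toQuadraticForm' = QuadraticMap.weightedSumSquares ℝ d := by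
    ext x
    rw [toQuadraticForm', LinearMap.BilinMap.toQuadraticMap_apply, toLinearMap₂'_apply',
      QuadraticMap.weightedSumSquares_apply]
    exact Finset.sum_congr rfl fun i _ => by rw [mulVec_diagonal, smul_eq_mul]; ring
  rw [e]
  exact ⟨QuadraticForm.sigPos_weightedSumSquares, QuadraticForm.sigNeg_weightedSumSquares⟩

theorem inv_diag {d : ι → ℝ} (h : (diagonal d).det ≠ 0) (x y : ι → ℝ) :
    x ⬝ᵥ (diagonal d)⁻¹ *ᵥ y = ∑ i, x i * y i / d i := by
  have h1 : ∀ i, d i ≠ 0 := fun i k =>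
    h (by rw [det_diagonal]; exact Finset.prod_eq_zero (Finset.mem_univ i) k)
  rw [inv_eq_left_inv (B := diagonal fun i => (d i)⁻¹) (by
    rw [diagonal_mul_diagonal, ← diagonal_one]
    exact congrArg _ (funext fun i => inv_mul_cancel₀ (h1 i)))]
  simp only [dotProduct, mulVec_diagonal]
  exact Finset.sum_congr rfl fun i _ => by ring

/-- an orthogonal basis -/
theorem lat_diag (h : Lat I o U K f G) :
    ∃ (f' : ι → M → Ext E) (d : ι → ℝ), Lat I o U K f' (diagonal d) := by
  have hG : G.IsHermitian := (conjTranspose_eq_transpose_of_trivial G).trans h.symm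
  have e := hG.conjStarAlgAut_star_eigenvectorUnitary
  rw [Unitary.conjStarAlgAut_star_apply, star_eq_conjTranspose,
    conjTranspose_eq_transpose_of_trivial] at e
  have k := h.change (P := (hG.eigenvectorUnitary : Matrix ι ι ℝ)ᵀ) (by
    rw [det_transpose]
    exact ((isUnit_iff_isUnit_det _).1 Unitary.isUnit_coe).ne_zero)
  rw [transpose_transpose, e] at k
  exact ⟨_, _, k⟩

/-- compactly supported classes that form a basis and detect classes -/
theorem lat_of_basis (ho : Ori I o) (hU : IsOpen U) (hK : K ⊆ U) (b : Basis ι ℝ (HR I 2 U))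
    (hf : ∀ i, Cs I 2 K (f i)) (e : ∀ i, ((hf i).on U).cls = b i)
    (hn : ∀ a, Cs I 2 K a → (∀ c, Cl I 2 U c → ip I o c a = 0) → Ex I U a) :
    Lat I o U K f (Matrix.of fun i k => ip I o (f i) (f k)) := by
  haveI := b.finiteDimensional_of_finite
  have cc : ∀ x : ι → ℝ, Cs I 2 K (∑ i, x i • f i) := fun x => cs_sum fun i _ => (hf i).smul _
  have cl : ∀ x : ι → ℝ, ((cc x).on U).cls = ∑ i, x i • b i := fun x => by
    simp only [← e]; exact cls_sum fun i => ((hf i).on U).smul (x i)
  refine ⟨ho, hU, hK, bd_of_finrank (finrank_eq_card_basis b).le, hf, fun _ _ => rfl,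
    fun h0 => ?_⟩
  obtain ⟨x, hx, h1⟩ := exists_mulVec_eq_zero_iff.2 h0
  refine hx (funext (Fintype.linearIndependent_iff.1 b.linearIndependent x ((cl x).symm.trans
    (cls_eq_zero.2 (hn _ (cc x) fun c hc => ?_)))))
  rw [((cc x).mono hK).ip_coh ho hc.sm ((cc (b.repr hc.cls)).on U).sm
    (cls_eq.1 ((b.sum_repr _).symm.trans (cl _).symm)),
    (cc x).ip_sum ho fun i _ => (((hf i).on K).smul _).sm]
  refine Finset.sum_eq_zero fun i _ => ?_
  rw [ip_smul, ip_sum_right ho ((hf i).on K).sm fun k _ => (hf k).smul _, mul_eq_zero]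
  exact .inr ((Finset.sum_congr rfl fun k _ => by rw [ip_smul_right, mul_comm]; rfl).trans
    (congrFun h1 i))

theorem lat_split' (h : Lat I o (U ∪ V) K f G) (hU : IsOpen U) (hV : IsOpen V)
    (hc : IsCompact (U ∪ V)) (hz : ∀ y : HR I 2 U, ∃ x : HR I 2 (U ∪ V),
      res subset_union_left x = y ∧ res subset_union_right x = 0) :
    ∃ (n : ℕ) (e : Fin n → M → Ext E) (d : Fin n → ℝ), Lat I o U U e (diagonal d) := by
  haveI := sigmaCompact (I := I) M
  haveI := (h.bd.of_surj _ fun y => (hz y).imp fun _ h => h.1).finite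
  have : ∀ y : HR I 2 U, ∃ (e : M → Ext E) (he : Cs I 2 U e), (he.on U).cls = y := fun y => by
    obtain ⟨x, h1, h2⟩ := hz y
    obtain ⟨c, hc', rfl⟩ := exists_cls x
    obtain ⟨e, he, hx⟩ := exists_cs hU hV hc hc' (cls_eq_zero.1 h2)
    exact ⟨e, he, (cls_eq.2 (hx.mono subset_union_left)).symm.trans h1⟩
  choose e he e' using this
  exact ⟨_, lat_diag (lat_of_basis h.ori hU Subset.rfl (finBasis ℝ _) (fun i => he _) (fun i => e' _)
    fun a ha h0 => (h.ex (ha.on _) fun i => (ip_comm ha.cl.dg _).trans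
      (h0 _ ((h.cs i).on U))).mono subset_union_left)⟩

/-- **splitting along a neck without `H²`** -/
theorem lat_split (h : Lat I o (U ∪ V) K f G) (hU : IsOpen U) (hV : IsOpen V)
    (hc : IsCompact (U ∪ V)) (hz : HZ I 2 (U ∩ V)) :
    ∃ (n : ℕ) (e : Fin n → M → Ext E) (d : Fin n → ℝ), Lat I o U U e (diagonal d) := by
  haveI := sigmaCompact (I := I) M
  obtain ⟨χ, hχ⟩ := exists_cut (I := I) hU hV
  exact lat_split' h hU hV hc fun y => mv_mid hU hV hχ (by rw [hz.eq (res _ y), map_zero])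

end Crest.Agent.X212.Num57
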