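import Crest.Agent.X212.Num57.Es
import Crest.Agent.X212.Num57.Lt
import Crest.Agent.X212.Idg99.Sig
import Crest.Agent.X212.Cyl58.Cps
import Crest.Agent.X212.M.Api

/-!
X212 / NUM (helper57): the characteristic numbers of compact open pieces.
-/

set_option autoImplicit false
set_option linter.unusedSectionVars false
set_option linter.style.haveILetI false
noncomputable section
open scoped Manifold ContDiff Topology Matrix
open MeasureTheory Set Filter Module Function TopologicalSpace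
open Crest.Agent.R208 Crest.Agent.R208.F Crest.Agent.X212.Dr59 Crest.Agent.X212.Int54

namespace Crest.Agent.X212.Num57
open An Sob92 Wz78 Pj41
open Cyl58 (IsOE isOE_val)
open Line51 (Ln)

section gen
variable {E : Type} [NormedAddCommGroup E] [NormedSpace ℝ E] [FiniteDimensional ℝ E]
  [MeasurableSpace E] [BorelSpace E]
  {HM : Type} [TopologicalSpace HM] {I : ModelWithCorners ℝ E HM} [I.Boundaryless]
  {M : Type} [TopologicalSpace M] [ChartedSpace HM M] [IsManifold I ∞ M]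
  [MeasurableSpace M] [BorelSpace M] [SecondCountableTopology M] [T2Space M]
  {E' : Type} [NormedAddCommGroup E'] [NormedSpace ℝ E'] [FiniteDimensional ℝ E']
  [MeasurableSpace E'] [BorelSpace E']
  {HN : Type} [TopologicalSpace HN] {J : ModelWithCorners ℝ E' HN} [J.Boundaryless]
  {N : Type} [TopologicalSpace N] [ChartedSpace HN N] [IsManifold J ∞ N]
  [MeasurableSpace N] [BorelSpace N] [SecondCountableTopology N] [T2Space N]
  {ι : Type} [Fintype ι] {F : Fr I M ι} {o : ι → ι → ι → ι → M → ℝ} {j : N → M}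
  {v : M → Ext E} {Ω K : Set M} {α : Type*} [Fintype α] [DecidableEq α] {e : α → M → Ext E}
  {G : Matrix α α ℝ}

theorem OK.cm (h : OK F o) (h4 : finrank ℝ E' = 4) (hj : IsLocalDiffeomorph J I ∞ j) :
    OK (cmF hj F) fun a b c d y => o a b c d (j y) :=
  ⟨h4, cmF_vol hj F, fun a b c d => (h.sm a b c d).comp hj.contMDiff, fun y => h.vo (j y)⟩

theorem OK.same_cm (h : OK F o) (h4 : finrank ℝ E' = 4) (hj : IsLocalDiffeomorph J I ∞ j) :
    SameOn (vol (cmF hj F) fun a b c d y => o a b c d (j y)) (pm J I j (vol F o)) univ :=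
  sameOn_of_rat_pos fun y _ => by
    have k : ∀ a b c d, e4 (pm J I j (vol F o) y) (ee (cmF hj F) y a) (ee (cmF hj F) y b)
        (ee (cmF hj F) y c) (ee (cmF hj F) y d) = o a b c d (j y) := fun a b c d => by
      rw [← e4_vol F (h.vo' _), e4, e4, pm_apply, evA_pb]
      refine congrArg _ (funext fun i => ?_)
      fin_cases i <;> exact (cmF_rel hj F).e _ y trivial
    rw [rat_vol (o := fun a b c d y => o a b c d (j y)) _ h4 ((h.cm h4 hj).vo' y)]
    simp only [ph, k, ← sq, (h.vo (j y)).nm]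
    norm_num

theorem OK.ro_cm (h : OK F o) (hj : IsLocalDiffeomorph J I ∞ j) :
    RO (cmF hj F) (fun a b c d y => o a b c d (j y)) F o univ j fun y b a => F.P b a (j y) :=
  ro_of_frel (cmF_rel hj F) (fun y _ => h.vo (j y)) fun _ _ _ _ _ _ => rfl

theorem intOn_cpt (hΩ : IsCompact Ω) {g : M → ℝ} (hg : An.Sm I g) : IntegrableOn g Ω F.μ :=
  hg.continuous.continuousOn.integrableOn_compact hΩ

/-- **the numbers of a compact open set** -/
theorem OK.set_es (h : OK F o) (hΩ : IsCompact Ω) (L : Lat I v Ω K e G)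
    (hs : SameOn v (vol F o) Ω) :
    ∫ x in Ω, eud F o x ∂F.μ + ∫ x in Ω, sgd F o x ∂F.μ = 2 * ((finrank ℝ (HR I 0 Ω) : ℝ)
      - finrank ℝ (HR I 1 Ω) + sigPos G.toQuadraticForm') ∧
    ∫ x in Ω, sgd F o x ∂F.μ = (sigPos G.toQuadraticForm' : ℝ) - sigNeg G.toQuadraticForm' := by
  let U : Opens M := ⟨Ω, L.op⟩
  haveI : CompactSpace U := isCompact_iff_compactSpace.1 hΩ
  have hj : IsOE I I (Subtype.val : U → M) := isOE_val U
  have r : range (Subtype.val : U → M) = Ω := Subtype.range_coe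
  have k := h.cm h.h4 hj.loc
  have L' := (lat_pull rfl hj (r.symm ▸ L)).of_same k.ori (((h.same_cm h.h4 hj.loc).trans
    (hs.symm.pm (fun y _ => hj.loc y) fun y _ => y.2)).mono (subset_univ _))
  have b : ∀ n, bb I U n = finrank ℝ (HR I n Ω) := fun n => by
    rw [bb, ← finrank_oe hj isOpen_univ, image_univ, r]
  rw [← b, ← b, ← L'.bp, ← L'.bm, ← k.es, ← k.sg_eq, ← r, ← cmF_integral hj h.isv,
    ← cmF_integral hj h.isv]
  simp only [(h.ro_cm hj.loc).sgd trivial, (h.ro_cm hj.loc).eud trivial, and_self]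

/-- every compact open set has an orthogonal basis -/
theorem exists_lat (h4 : finrank ℝ E = 4) (hv : Ori I v) (ho : IsOpen Ω) (hΩ : IsCompact Ω) :
    ∃ (n : ℕ) (e : Fin n → M → Ext E) (d : Fin n → ℝ), Lat I v Ω Ω e (Matrix.diagonal d) := by
  let U : Opens M := ⟨Ω, ho⟩
  haveI : CompactSpace U := isCompact_iff_compactSpace.1 hΩ
  have hj : IsOE I I (Subtype.val : U → M) := isOE_val U
  have r : (Subtype.val : U → M) '' univ = Ω := by simp [U]
  obtain ⟨n, F, hF⟩ := Met55.exists_fr (I := I) (M := U)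
  have k := ok_ov h4 hF (hv.pm hj.loc)
  have b := oe_st_bij (k := 2) hj.loc hj.inj isOpen_univ
  haveI := k.fin2
  haveI : FiniteDimensional ℝ (HR I 2 Ω) := r ▸ Module.Finite.of_injective _ b.1
  have c : ∀ a, Cl I 2 Ω a → Cs I 2 Ω (Ω.indicator a) := fun a ha =>
    cs_indicator ho ha hΩ Subset.rfl fun x hx h' => (h' hx).elim
  choose f hf hf' using fun i => exists_cls (finBasis ℝ (HR I 2 Ω) i)
  refine ⟨_, lat_diag (lat_of_basis hv ho Subset.rfl (finBasis ℝ _) (fun i => c _ (hf i))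
    (fun i => (cls_congr fun x hx => indicator_of_mem hx _).trans (hf' i)) fun a ha h0 => ?_)⟩
  have m : Mp I I univ Ω (Subtype.val : U → M) := .of_contMDiff hj.contMDiff fun y _ => y.2
  refine r ▸ ex_oe hj.loc hj.inj isOpen_univ (cls_eq_zero.1 (k.Q_nondeg (y := ((ha.on Ω).pm m).cls)
    fun z => ?_))
  obtain ⟨y, rfl⟩ := b.2 z
  obtain ⟨c, hc, rfl⟩ := exists_cls y
  rw [Q_ori k.ori (hv.pm hj.loc) (same_ov h4 (hv.pm hj.loc)), Q_symm, ← h0 c (r ▸ hc),
    ← ip_pull rfl hv hj fun x hx => ha.eq_zero fun h' => hx ⟨⟨x, h'⟩, rfl⟩]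
  rfl

/-- the square of a class of a compact open set -/
theorem integOn_sq (hΩ : IsCompact Ω) (L : Lat I v Ω K e G) {a b : M → Ext E} (ha : Cl I 2 Ω a)
    (hb : Cl I 2 Ω b) : integOn I v (a * b) Ω
      = (fun i => ip I v a (e i)) ⬝ᵥ G⁻¹ *ᵥ fun i => ip I v b (e i) := by
  have c := cs_indicator L.op hb hΩ Subset.rfl fun x hx h' => (h' hx).elim
  have k := L.ip_eq ha c
  simp only [fun i => (L.csU i).ip_congr (o := v) (c := Ω.indicator b) (c' := b)
    fun x hx => indicator_of_mem hx _] at k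
  rw [← k, ip, integ_eq_integOn (s := Ω) fun x hx => by
    rw [Pi.mul_apply, c.eq_zero hx, mul_zero, map_zero]]
  exact integOn_congr L.op.measurableSet fun x hx => by
    rw [Pi.mul_apply, Pi.mul_apply, indicator_of_mem hx]

variable {lam : Type} [Fintype lam]

theorem lad99 {B : Base M ι lam} {G : Geo I M ι lam} (hB : B.OK I) (hG : G.OK B) :
    Idg99.lad B G = lad B G := funext fun x => by
  rw [Idg99.lad_eq hB hG, lad, cwd99]; ring

variable [DecidableEq lam] {L : Ln E M lam}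

theorem OK.lad_ln (h : OK F o) (hL : L.On I univ) (x : M) : lad (L.base F.P o) (L.geo F) x
    = rat (vol F o) (L.F I * L.F I) x / (2 * Real.pi) ^ 2 := by
  rw [← lad99 (Idg99.lb_ok h hL) (hL.geo_ok h.isv o), Idg99.lad, Idg99.fl_ln h hL rfl,
    rat_vol_mul F h.h4 (h.vo' x) ((hL.cl_F isOpen_univ).dg x trivial)]
  change Idg99.c4 (fun a b c d => o a b c d x) _ / _ = 1 / 4 * Idg99.c4 _ _ / _
  field_simp
  ring

theorem OK.set_lad (h : OK F o) (hL : L.On I univ) (hv : Ori I v) (hΩ : MeasurableSet Ω)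
    (hs : SameOn v (vol F o) Ω) : ∫ x in Ω, lad (L.base F.P o) (L.geo F) x ∂F.μ
      = integOn I v (L.F I * L.F I) Ω / (2 * Real.pi) ^ 2 := by
  simp only [h.lad_ln hL, integral_div]
  rw [integOn_congr_ori hv h.ori hΩ hs, (unitV_vol F h.h4 h.vo').integOn_eq h.isv]

end gen

/-! ### pieces of a world -/

section world
open M Cyl58
variable {X : Mf 4} {A κ : Type} [Fintype A] [Fintype κ] {M : Mark X A κ} (C : Caps M) {c : M.Cl}
  {π : Reg A} (h : M.sys.Piece c.1 π) {K : Set X.M} {α : Type*} [Fintype α] [DecidableEq α]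
  {e : α → X.M → Ext X.E} {G : Matrix α α ℝ}
include h

theorem U_src : M.sys.U π ⊆ (C.φ c).source := C.src c ▸ U_sub h

theorem res_pc {k : ℕ} (hk : k < 2) : Bijective (res (I := (C.Z c).I) (k := k + 1)
    (subset_union_left : C.φ c '' M.sys.U π ⊆ C.pc c π)) := by
  haveI := sigmaCompact (I := (C.Z c).I) (C.Z c).M
  have b : ∀ p ∈ {p : A × Bool | M.pin p.1 ∧ π p.1 = some p.2}, p.1 ∈ c.1 := fun p hp =>
    h.bd_subset (Sys.mem_bd_of hp.2)
  refine res_pts (β := fun p : A × Bool => C.β c p.1 p.2) (toFinite _)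
    (fun p hp => C.βoe c _ (b p hp) hp.1 _) (isOpen_pc C h)
    (fun p hp => range_subset_iff.2 fun z => (β_mem_pc C h (b p hp) hp.1 z).2 hp.2)
    (fun p hp q hq ⟨_, e⟩ => Prod.ext_iff.2 (caps_disj C (b p hp) hp.1 (b q hq) hq.1 e)) hk
    (Subset.antisymm ?_ ?_) _
  · rintro _ ⟨x, hx, rfl⟩
    exact ⟨.inl ⟨x, hx, rfl⟩, fun ⟨p, hp, e⟩ => caps_ne C (U_sub h hx) (b p hp) hp.1 _ e.symm⟩
  · rintro z ⟨k | ⟨a, b, h1, h2, rfl⟩, k'⟩
    exacts [k, (k' ⟨(a, b), ⟨h1, h2⟩, rfl⟩).elim]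

theorem finrank_pc {k : ℕ} (hk : k < 2) :
    finrank ℝ (HR (C.Z c).I (k + 1) (C.pc c π)) = finrank ℝ (HR X.I (k + 1) (M.sys.U π)) :=
  (LinearEquiv.ofBijective _ (res_pc C h hk)).finrank_eq.trans
    (finrank_pd _ (M.sys.isOpen_U π) (U_src C h) _)

theorem lat_pc (L : Lat X.I M.o (M.sys.U π) K e G) :
    Lat (C.Z c).I (C.o c) (C.pc c π) (C.φ c '' K) (fun i => psh (C.φ c) (e i)) G :=
  have k := L.push _ (U_src C h) (C.ori c) ((C.oφ c).mono (L.sub.trans (U_src C h)))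
  k.of_bd (isOpen_pc C h) (k.sub.trans subset_union_left) (k.bd.of_inj _ (res_pc C h one_lt_two).1)

/-- **every capped piece has numbers** -/
theorem exists_lat_U (hp : ∀ a ∈ Sys.bd π, M.pin a) : ∃ (n : ℕ) (e : Fin n → X.M → Ext X.E)
    (d : Fin n → ℝ), Lat X.I M.o (M.sys.U π) (M.sys.U π) e (Matrix.diagonal d) := by
  obtain ⟨C⟩ := caps X A κ M
  have b : ∀ p ∈ {p : A × Bool | π p.1 = some p.2}, p.1 ∈ c.1 ∧ M.pin p.1 := fun p k =>
    ⟨h.bd_subset (Sys.mem_bd_of k), hp _ (Sys.mem_bd_of k)⟩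
  have oe := fun p k => C.βoe c _ (b p k).1 (b p k).2 p.2
  have e : C.φ c '' M.sys.U π ∪ ⋃ p ∈ {p : A × Bool | π p.1 = some p.2}, range (C.β c p.1 p.2)
      = C.pc c π := Subset.antisymm (union_subset subset_union_left (iUnion₂_subset fun p k =>
        range_subset_iff.2 fun z => (β_mem_pc C h (b p k).1 (b p k).2 z).2 k))
      (union_subset_union_right _ fun _ ⟨a, b, _, h2, h3⟩ => mem_biUnion (x := (a, b)) h2 ⟨0, h3.symm⟩)
  obtain ⟨n, f, d, L⟩ := exists_lat (C.Z c).dim (C.ori c) (isOpen_pc C h) (isCompact_pc C h hp)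
  have z : HZ (C.Z c).I 2 (⋃ p ∈ {p : A × Bool | π p.1 = some p.2}, range (C.β c p.1 p.2)) :=
    hz_biUnion (toFinite _) (fun p k => (oe p k).isOpen_range)
      (fun p k q k' ne => disjoint_left.2 fun _ ⟨_, h1⟩ ⟨_, h2⟩ => ne (Prod.ext_iff.2
        (caps_disj C (b p k).1 (b p k).2 (b q k').1 (b q k').2 (h1.trans h2.symm))))
      fun p k => image_univ (f := C.β c p.1 p.2) ▸
        (hz_oe (oe p k).loc (oe p k).inj isOpen_univ).2 hz_univ
  have s := (res_pc C h one_lt_two).2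
  have hc := isCompact_pc C h hp
  rw [← e] at L hc
  obtain ⟨n, f, d, L⟩ := lat_split' L (pd_open _ (M.sys.isOpen_U π) (U_src C h))
    (isOpen_biUnion fun p k => (oe p k).isOpen_range) hc fun y => by
      obtain ⟨x, rfl⟩ := s y
      exact ⟨res e.subset x, res_res _ _ x, z.eq _⟩
  have t : C.φ c '' M.sys.U π ⊆ (C.φ c).symm.source := by
    rintro _ ⟨x, hx, rfl⟩; exact (C.φ c).map_source (U_src C h hx)
  have k := L.push (C.φ c).symm t M.ori
    (SameOn.symm (Orx52.Pos.symm ((C.oφ c).mono (U_src C h)).symm (U_src C h)))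
  have e' : (C.φ c).symm '' (C.φ c '' M.sys.U π) = M.sys.U π :=
    (C.φ c).toPartialEquiv.symm_image_image_of_subset_source (U_src C h)
  rw [e'] at k
  exact ⟨n, _, d, k⟩

omit h in
theorem exists_br (c : M.Cl) : ∃ p, p ∈ M.Br c.1 := by
  classical
  refine ⟨(0, fun a => if a ∈ c.1 then 1 else 0), ⟨fun a => ?_, c.2.mono fun a ha => ?_⟩,
    fun a ha => if_pos ha⟩
  · dsimp only; split_ifs <;> norm_num
  · exact by_contra fun k => ha (if_neg k)

variable {W : World M} {lam : Type} [Fintype lam] [DecidableEq lam] {N : ML M lam} (Λ : Lns W N)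
  (m : M.Cl) {p : Prm A}

omit h in
theorem ok_W (hO : p ∈ M.O c.1) : OK (W.F m c p) (Λ.B m c).o ∧
    SameOn (W.o c) (vol (W.F m c p) (Λ.B m c).o) univ := by
  rw [show (Λ.B m c).o = _ from ((W.L m c).ov_F (Mark.mem_Ω _ hO)).symm]
  exact ⟨ok_ov (W.Z c).dim ((W.L m c).F_vol p) (W.ori c), (same_ov (W.Z c).dim (W.ori c)).symm⟩

theorem ip_pc {a : X.M → Ext X.E} (ha : Cs X.I 2 (M.sys.U π) a) :
    ip (W.Z c).I (W.o c) (Ln.F (W.Z c).I ((Λ.Λ m c).ln p)) (psh (W.φ c) a)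
      = ip X.I M.o (Ln.F X.I ⟨N.p, 0⟩) a := by
  obtain ⟨q, hq⟩ := exists_br c
  have s := U_src W.toCaps h
  have o := M.sys.isOpen_U π
  have mp : Mp X.I (W.Z c).I (M.sys.U π) univ (W.φ c) := (pd_mp _ s).mono Subset.rfl (subset_univ _)
  have l := ((Λ.Λ m c).ln_on p).pull mp
  rw [ha.ip_psh _ s (W.ori c) M.ori ((W.oφ c).mono s),
    ← ha.ip_congr fun y hy => ((Λ.Λ m c).ln_on p).F_pull isOpen_univ o mp hy]
  exact ha.ip_coh M.ori (l.cl_F o).sm ((N.ok.mono (subset_univ _)).cl_F o).sm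
    (Line51.Uni.ex_F (L := ⟨N.p, 0⟩) o ((Λ.iso m c q hq).toUni.mono s) (N.ok.mono (subset_univ _)) l)

/-- **the numbers of a capped piece** -/
theorem pc_nums (hp : ∀ a ∈ Sys.bd π, M.pin a) (hO : p ∈ M.O c.1)
    (L : Lat X.I M.o (M.sys.U π) K e G) :
    ∫ z in W.pc c π, (eud (W.F m c p) (Λ.B m c).o z + sgd (W.F m c p) (Λ.B m c).o z) / 2
        ∂(W.F m c p).μ = 1 - finrank ℝ (HR X.I 1 (M.sys.U π)) + sigPos G.toQuadraticForm' ∧
    ∫ z in W.pc c π, sgd (W.F m c p) (Λ.B m c).o z ∂(W.F m c p).μ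
      = (sigPos G.toQuadraticForm' : ℝ) - sigNeg G.toQuadraticForm' ∧
    ∫ z in W.pc c π, lad (Λ.B m c) (Λ.G m c p) z ∂(W.F m c p).μ
      = ((fun i => ip X.I M.o (Ln.F X.I ⟨N.p, 0⟩) (e i)) ⬝ᵥ
        G⁻¹ *ᵥ fun i => ip X.I M.o (Ln.F X.I ⟨N.p, 0⟩) (e i)) / (2 * Real.pi) ^ 2 := by
  obtain ⟨k, s⟩ := ok_W Λ m hO
  have hc := isCompact_pc W.toCaps h hp
  have L' := lat_pc W.toCaps h L
  obtain ⟨h1, h2⟩ := k.set_es hc L' (s.mono (subset_univ _))
  have l := (Λ.Λ m c).ln_on p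
  have c2 := (l.cl_F isOpen_univ).mono (subset_univ (W.pc c π))
  refine ⟨?_, h2, ?_⟩
  · rw [integral_div, integral_add (intOn_cpt hc (sm_eud k.sm)) (intOn_cpt hc (sm_sgd k.sm)), h1,
      finrank0 L'.op (isConnected_pc _ h), finrank_pc _ h two_pos]
    push_cast; ring
  · have := k.set_lad l (W.ori c) L'.op.measurableSet (s.mono (subset_univ _))
    simp only [integOn_sq hc L' c2 c2, ip_pc h Λ m (L.csU _)] at this
    rw [← this, show (W.F m c p).P = _ from (W.L m c).F_P (Mark.mem_Ω _ hO)]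
    rfl

end world

end Crest.Agent.X212.Num57
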