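import Crest.Agent.X212.Num57.Nb
import Crest.Agent.X212.Br55.Defs

/-!
# X212 / Num57 (helper57): the scene-free numbers `Br55.NbX`

* `nbx_eq`, `nbx_of_lat` : the numbers can be read off from any lattice;
* `nbx_push` : transport along a positive partial diffeomorphism covered by an isometry of the lines;
* `nbT : Br55.NbT lam`.
-/

set_option autoImplicit false
set_option linter.unusedSectionVars false

open Set Function Module Matrix MeasureTheory
open scoped ContDiff Manifold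
open Crest.Agent.R208.F (Ext)
open Crest.Agent.R208.FI

noncomputable section

namespace Crest.Agent.X212.Num57
open Dr59 Int54 An M G75 Br55
open Line51 (Ln Uni)
open Orx52 (Pos)

variable {lam lam' : Type} [Fintype lam] [Fintype lam'] {X X' : Mf 4} {o : X.M → Ext X.E} {o' : X'.M → Ext X'.E}
  {p : X.M → Matrix lam lam ℂ} {q : X'.M → Matrix lam' lam' ℂ} {U K : Set X.M} {β sg l2 β' sg' l2' : ℝ}
  {ι : Type} [Fintype ι] [DecidableEq ι] {e : ι → X.M → Ext X.E} {G : Matrix ι ι ℝ}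

variable (X p) in
/-- the curvature of the projector field -/
abbrev Fp : X.M → Ext X.E := Ln.F X.I ⟨p, 0⟩

theorem isq_diag' {d : ι → ℝ} (h : Lat X.I o U K e (diagonal d)) (a : X.M → Ext X.E) :
    isq X.I o e (diagonal d) a a / (2 * Real.pi) ^ 2 = ∑ n, (ip X.I o a (e n) / (2 * Real.pi)) ^ 2 / d n := by
  rw [isq, inv_diag h.det, Finset.sum_div]
  exact Finset.sum_congr rfl fun n _ => by ring

theorem nbx_eq (h : NbX X o p U β sg l2) (hp : (⟨p, 0⟩ : Ln X.E X.M lam).On X.I U) (L : Lat X.I o U K e G) :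
    β = 1 - finrank ℝ (HR X.I 1 U) + sigPos G.toQuadraticForm' ∧
    sg = (sigPos G.toQuadraticForm' : ℝ) - sigNeg G.toQuadraticForm' ∧
    l2 = isq X.I o e G (Fp X p) (Fp X p) / (2 * Real.pi) ^ 2 := by
  obtain ⟨_, _, _, f, d, k, rfl, rfl, rfl⟩ := h
  rw [← (sig_eq k L).1, ← (sig_eq k L).2, (sig_diag d).1, (sig_diag d).2,
    ← isq_eq k L (hp.cl_F L.op) (hp.cl_F L.op), isq_diag' k]
  exact ⟨rfl, rfl, rfl⟩

theorem nbx_of_lat (hp : (⟨p, 0⟩ : Ln X.E X.M lam).On X.I U) (L : Lat X.I o U K e G) :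
    NbX X o p U (1 - finrank ℝ (HR X.I 1 U) + sigPos G.toQuadraticForm')
      ((sigPos G.toQuadraticForm' : ℝ) - sigNeg G.toQuadraticForm')
      (isq X.I o e G (Fp X p) (Fp X p) / (2 * Real.pi) ^ 2) := by
  obtain ⟨f, d, k⟩ := lat_diag (L.mono L.sub Subset.rfl)
  refine ⟨ι, _, _, f, d, k, ?_, ?_, ?_⟩
  · rw [← (sig_eq k L).1, (sig_diag d).1]
  · rw [← (sig_eq k L).1, ← (sig_eq k L).2, (sig_diag d).1, (sig_diag d).2]
  · rw [← isq_eq k L (hp.cl_F L.op) (hp.cl_F L.op), isq_diag' k]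

theorem nbx_uniq (hp : (⟨p, 0⟩ : Ln X.E X.M lam).On X.I U) (h : NbX X o p U β sg l2)
    (h' : NbX X o p U β' sg' l2') : β = β' ∧ sg = sg' ∧ l2 = l2' := by
  obtain ⟨_, _, _, _, _, k, -⟩ := id h
  obtain ⟨h1, h2, h3⟩ := nbx_eq h hp k
  obtain ⟨k1, k2, k3⟩ := nbx_eq h' hp k
  exact ⟨h1.trans k1.symm, h2.trans k2.symm, h3.trans k3.symm⟩

/-- **transport of the numbers** -/
theorem nbx_push (φ : PartialDiffeomorph X.I X'.I X.M X'.M ∞) (hU : U ⊆ φ.source) (ho : Ori X'.I o')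
    (hφ : Pos X.I X'.I φ U o o') (hq : (⟨q, 0⟩ : Ln X'.E X'.M lam').On X'.I (φ '' U))
    {u : X.M → Matrix lam' lam ℂ} (hu : Uni X.I p (fun z => q (φ z)) u U) (h : NbX X o p U β sg l2) :
    NbX X' o' q (φ '' U) β sg l2 := by
  obtain ⟨ι, _, _, e, d, k, h1, h2, h3⟩ := h
  have m := pd_mp φ hU
  have s := Orx52.same_symm hφ
  have a : (⟨fun z => q (φ z), 0⟩ : Ln X.E X.M lam').On X.I U :=
    (hq.pull m).congr k.op (fun _ _ => rfl) fun x _ => (congrFun (pm_zero _) x).symm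
  have b := Line51.Uni.on k.op hu.symm a
  refine ⟨ι, _, _, _, d, k.push φ hU ho s, ?_, h2, h3.trans (Finset.sum_congr rfl fun n _ => ?_)⟩
  · rw [h1, (LinearEquiv.ofBijective _ (pd_st_bij (k := 1) φ k.op hU)).finrank_eq]
  · rw [(k.cs n).ip_psh φ hU ho k.ori s, (k.cs n).ip_congr (c := pm _ _ φ _) (c' := Ln.F X.I ⟨fun z => q (φ z), 0⟩) fun x hx => by
        rw [← hq.F_pull (pd_open φ k.op hU) k.op m hx]
        exact a.F_congr k.op (fun _ _ => rfl) (fun x _ => congrFun (pm_zero _) x) hx,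
      (k.cs n).ip_coh k.ori (a.cl_F k.op).sm (b.cl_F k.op).sm
        (Line51.Uni.ex_F (L := ⟨p, 0⟩) (L' := ⟨fun z => q (φ z), 0⟩) k.op hu b a)]

/-- **BR-UTW** -/
theorem nbT (lam : Type) [Fintype lam] : NbT lam := fun _ _ Φ _ _ _ _ _ _ _ hΦ hq hu h =>
  let ⟨_, _, _, _, _, k, _⟩ := id h
  nbx_push Φ.toPartialDiffeomorph (subset_univ _) k.ori (hΦ.mono (subset_univ _)) (hq.mono (subset_univ _))
    (hu.mono (subset_univ _)) h

end Crest.Agent.X212.Num57
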