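import Crest.Agent.X212.Num57.Nk
import Crest.Agent.X212.Num57.Ut

/-!
# X212 / Num57 (helper57): the twists at the caps

* `dgL` : the degree of the line of the caps on the dual of the angle;  `nC`, `Ph` : the neck of a cap and its form;
* `twL`, `twR` : the change of the curvature class;  `ip_Ph`;  `isq_twL`, `isq_twR`;
* `lat_pc` : toric pieces have lattices;  `nbF : Br55.NbF`.
-/

set_option autoImplicit false
set_option linter.unusedSectionVars false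

open Set Filter Topology Function Module Matrix
open scoped ContDiff Manifold Real
open Crest.Agent.R208.F (Ext)

noncomputable section

namespace Crest.Agent.X212.Cap57
open Dr59 Int54 Pj41 Wd38 Br55
open M hiding pm
open Num57 (isq isq_coh Fp nbx_of_lat isq_diag')
open Line51 hiding tp
open Cyl58 (TP TIso Sides)
open Orx52 (TPos)

scoped instance (X : TP V4) : MeasurableSpace X.P.E := borel _
scoped instance (X : TP V4) : BorelSpace X.P.E := ⟨rfl⟩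
scoped instance (X : TP V4) : MeasurableSpace X.P.M := borel _
scoped instance (X : TP V4) : BorelSpace X.P.M := ⟨rfl⟩
scoped instance (t σ) : MeasurableSpace (Ext52.Fill t σ) := borel _
scoped instance (t σ) : BorelSpace (Ext52.Fill t σ) := ⟨rfl⟩

/-- the model of the necks -/
abbrev I31 := (𝓡 3).prod 𝓘(ℝ, ℝ)

variable {Γ : Nm} {C : Cx Γ} {Λ : NmL Γ} {L : LCx C Λ} {w : Shp Γ} {hw : w.OK} {X : TP V4} {R : Rz C hw X}
  {κ lam : Type} [Fintype κ] [Fintype lam] {j m m' : ℤ} {J : Set ℝ} {k : TIso (C.cap j) X J} {a b : ℝ} {n n' : Wt}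
  {p : X.P.M → Matrix κ κ ℂ} {g : X.P.M → Matrix κ Unit ℂ} {q : X.P.M → Matrix lam lam ℂ}
  {g' : X.P.M → Matrix lam Unit ℂ}

variable (L) in
/-- the degree of the line of the caps on the dual of the angle -/
def dgL : ℝ := integ (𝓡 3) (oY C.kd Γ.cap) ((L.S Γ.cap Λ.x).L.F (𝓡 3) * ang (𝓡 3) L.θ) / (2 * π) ^ 2

/-- the chart of a product region -/
def nφ {τ : Γ.ι × Rod53.Z2} {A : Set ℝ} (P : TIso (C.cy τ) X A) :
    PartialDiffeomorph I31 X.P.I ((mF C.kd τ).M × ℝ) X.P.M ∞ := P.φ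

theorem nk_T {τ : Γ.ι × Rod53.Z2} {A : Set ℝ} (P : TIso (C.cy τ) X A) : Nk (nφ P) X.τ A :=
  ⟨P.src, P.tgt, P.tm, X.cont, X.prop⟩

variable (k) in
/-- the neck of a cap -/
def nC (hJ : II j j ⊆ J) : TIso (C.cy Γ.cap) X (II j j) := (C.pC j).trans (k.restr (isOpen_II j j) hJ)

variable (L k) in
/-- the dual form of the neck of a cap -/
def Ph (hJ : II j j ⊆ J) (a b : ℝ) : X.P.M → Ext X.P.E := nkf (nφ (nC k hJ)) X.τ a b (ang (𝓡 3) L.θ)

theorem cl_θ : Cl (𝓡 3) 1 univ (ang (𝓡 3) L.θ) := cl_ang fun q _ => L.hθ q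

theorem cs_Ph (hJ : II j j ⊆ J) (hab : a < b) (h : Icc a b ⊆ II j j) :
    Cs X.P.I 2 (X.τ ⁻¹' Icc a b) (Ph L k hJ a b) := (nk_T _).cs hab h cl_θ

theorem ip_Ph_Ph (hJ : II j j ⊆ J) (o : X.P.M → Ext X.P.E) : ip X.P.I o (Ph L k hJ a b) (Ph L k hJ a b) = 0 := by
  rw [ip, Ph, nkf_sq cl_θ.dg, integ_zero]

theorem on_S0 : (⟨L.S0.L.p, 0⟩ : Ln _ _ K3).On C.X0.I univ :=
  ⟨L.ok0.ln.sm, L.ok0.ln.prj, L.ok0.ln.tr, fun _ _ => cAt_zero, Dg.zero⟩

/-- the curvature on the neck of a cap -/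
theorem ex_neck (hJ : II j j ⊆ J) (H : CC L m p g k) (hp : (⟨p, 0⟩ : Ln X.P.E X.P.M κ).On X.P.I univ) :
    Ex I31 (Prod.snd ⁻¹' II j j) (pm I31 X.P.I (nφ (nC k hJ)) (Fp X.mf p) -
      pm I31 (𝓡 3) Prod.fst ((L.S Γ.cap Λ.x).L.F (𝓡 3))) := by
  obtain ⟨u, H⟩ := H
  obtain ⟨v, k1⟩ := mt_cap (L := L) m j
  have o := (isOpen_II j j).preimage (continuous_snd (X := (mF C.kd Γ.cap).M))
  have m1 : Mp I31 X.P.I (Prod.snd ⁻¹' II j j) univ (nφ (nC k hJ)) := mp_T (nC k hJ) fun _ b => ⟨b, trivial⟩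
  have m2 : Mp I31 (𝓡 3) (Prod.snd ⁻¹' II j j) univ (Prod.fst : (mF C.kd Γ.cap).M × ℝ → _) :=
    ⟨fun _ _ => contMDiffAt_fst, mapsTo_univ _ _⟩
  have m3 : Mp I31 (C.cap j).P.I (Prod.snd ⁻¹' II j j) ((C.cap j).τ ⁻¹' J) (nφ (C.pC j)) :=
    mp_T (C.pC j) fun z b => ⟨b, hJ ((C.pC j).mem b)⟩
  have s := (L.sf Γ.cap Λ.x).ok.ln
  exact (Uni.ex_F (L := Ln.pull _ _ Prod.fst (L.S Γ.cap Λ.x).L) (L' := Ln.pull _ _ (nφ (nC k hJ)) ⟨p, 0⟩) o
    (k1.toUni.symm.trans (H.toUni.comp m3)) (s.pull m2) (hp.pull m1)).congr fun z b => by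
      rw [Pi.sub_apply, Pi.sub_apply, hp.F_pull isOpen_univ o m1 b, s.F_pull isOpen_univ o m2 b]

theorem ip_Ph (hJ : II j j ⊆ J) (hab : a < b) (h : Icc a b ⊆ II j j) (H : CC L m p g k)
    (hp : (⟨p, 0⟩ : Ln X.P.E X.P.M κ).On X.P.I univ) {O : X.P.M → Ext X.P.E} (hO : Ori X.P.I O)
    (hk : TPos k (-C.o0) O) : ip X.P.I (-O) (Fp X.mf p) (Ph L k hJ a b) = (2 * π) ^ 2 * dgL L := by
  have e : cy (oY C.kd Γ.cap) = C.oc Γ.cap := congrArg (pr _) oR_eq_dt.symm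
  rw [ip_neg_ori, Ph, (nk_T _).ip hab h cl_θ hO (Orx52.ori_oF _ _)
    (e ▸ (C.tpos_pC j).trans (hk.restr _ hJ)) ((hp.cl_F isOpen_univ).sm.mono (subset_univ _))
    ((L.sf Γ.cap Λ.x).ok.ln.cl_F isOpen_univ) (ex_neck hJ H hp), neg_neg, dgL, mul_div_cancel₀ _ (by positivity)]

theorem μ_neck (hJ : II j j ⊆ J) {z : X.P.M} (hz : X.τ z ∈ II j j) (m m' : ℤ) :
    L.μ m' (k.symm z) = L.μ m (k.symm z) * L.θ (nkp (nφ (nC k hJ)) z) ^ (m' - m) := by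
  have e : k.symm z = C.S.n (nkp (nφ (nC k hJ)) z, ((nφ (nC k hJ)).symm z).2 + -(j + 1 / 2)) := by
    rw [← k.restr_symm (isOpen_II j j) hJ hz]
    exact ((C.pC j).apply_symm ((k.restr _ hJ).symm.mem hz)).symm
  rw [e, LCx.μ, LCx.μ, C.S.oe.inj.extend_apply, C.S.oe.inj.extend_apply, mul_right_comm, ← _root_.zpow_add,
    add_sub_cancel]

/-- two lines over a cap -/
theorem cc_tw (hJ : II j j ⊆ J) (H : CC L m p g k) (H' : CC L m' q g' k) {D B : Set X.P.M} (oD : IsOpen D)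
    (hD : X.τ ⁻¹' II j j ⊆ closure D) (hB : X.τ ⁻¹' II j j ⊆ B) {u : X.P.M → Matrix lam κ ℂ}
    (hu : Mt X.P.I D p g q g' u B) : ∃ v, Uni X.P.I p q v (X.τ ⁻¹' J) ∧ ∀ z, X.τ z ∈ II j j →
      v z = ((L.θ (nkp (nφ (nC k hJ)) z) ^ (m' - m) : Circle) : ℂ) • u z := by
  have un := fun z => H.unit (z := z)
  obtain ⟨u₁, H⟩ := H
  obtain ⟨u₂, H'⟩ := H'
  have s := mt_T k (p := p) (q := q) (s := fun z => (L.μ m (k.symm z) : ℂ) • g z)
    (s' := fun z => (L.μ m' (k.symm z) : ℂ) • g' z) (D := im k.φ L.S0.D)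
    (((H.symm fun a _ c => L.ok0.fr.iso a c).trans H').congr fun a b _ => by simp only [k.symm_apply b, and_self])
    subset_rfl fun _ b _ => ⟨b, (mem_imT _ b).1⟩
  have o := (isOpen_II j j).preimage X.cont
  refine ⟨_, s.toUni, (s.toUni.mono (preimage_mono hJ)).ext_sec o
    (cl_inter o oD hD ((preimage_mono hJ).trans (imT_cl k L.ok0.dn))) ((hu.toUni.mono hB).phase fun z b =>
      Rod53.cm_zpow ((L.hθ _).comp z ((nk_T (nC k hJ)).mp.sm z b)) _) fun z b c => ⟨g z, un z (hJ b) c.2, ?_⟩⟩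
  have e := s.eq z (hJ b) c.2
  rw [Matrix.mul_smul, μ_neck hJ b m m', smul_eq_iff, inv_mul_cancel_left] at e
  rw [e, Matrix.smul_mul, hu.eq z (hB b) c.1]

/-- two lines away from one cap -/
theorem mt_off (W : WL L R n κ) (W' : WL L R n' lam) (c₀ : Ch w) (h : ∀ c, c ≠ c₀ → c.Ck L R n W'.p W'.g) :
    ∃ u, Uni X.P.I W.p W'.p u (⋃ c : {c // c ≠ c₀}, X.τ ⁻¹' c.1.J) ∧
      ∀ c, c ≠ c₀ → Mt X.P.I (c.D L R) W.p W.g W'.p W'.g u (X.τ ⁻¹' c.J) := by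
  obtain ⟨u, h1, h2⟩ := exists_mt_glue (I := X.P.I) (ι := {c // c ≠ c₀}) (fun c => c.1.isOpen_J.preimage X.cont)
    (fun c => c.1.isOpen_D) (fun c => c.1.cl) (s := fun _ => W.g) (s' := fun _ => W'.g)
    (fun c => Ch.unit (W.ck c.1)) (fun c => (Ch.key W.ok c.1 c.1 (W.ck _) (h _ c.2)).imp fun _ k =>
      k.mono (inter_self _).ge fun _ a => ⟨a.2, a.2⟩) fun _ _ _ _ _ => ⟨1, by simp, by simp⟩
  exact ⟨u, h1, fun c k => h2 ⟨c, k⟩⟩

theorem hL (w : Shp Γ) : II w.l w.l ⊆ Iio (w.l + 3 / 4) := Ioo_subset_Iio_self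

theorem hR (w : Shp Γ) : II w.r w.r ⊆ Ioi (w.r + 1 / 4) := Ioo_subset_Ioi_self

/-- **the twist at the left cap** -/
theorem twL (W : WL L R n κ) (W' : WL L R { n with mL := m } lam) (hab : a < b) (h : Icc a b ⊆ II w.l w.l) :
    Ex X.P.I univ (Fp X.mf W'.p - Fp X.mf W.p - ((m - n.mL : ℤ) : ℝ) • Ph L R.kL (hL w) a b) := by
  obtain ⟨u, h1, h2⟩ := mt_off W W' .L fun c k => by
    cases c
    exacts [W'.tl _, absurd rfl k, W'.cR]
  have r := Shp.rg_one (w := w) le_rfl hw.lt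
  have i := preimage_mono (f := X.τ) (II_mono (x := w.l) (y := w.l + 1) (x' := w.l) (y' := w.l) le_rfl (by omega))
  obtain ⟨v, h3, h4⟩ := cc_tw (hL w) W.cL W'.cL (Ch.isOpen_D (.B _ _ r)) (i.trans (Ch.cl (.B _ _ r))) i
    (h2 (.B _ _ r) nofun)
  have cv : X.τ ⁻¹' Ioi (w.l + 1 / 4) ∪ X.τ ⁻¹' Iio (w.l + 3 / 4) = univ := by
    rw [← preimage_union, union_comm, Iio_union_Ioi_of_lt (by linarith), preimage_univ]
  have nk := nk_T (nC R.kL (hL w))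
  have := ex_twist (isOpen_Ioi.preimage X.cont) (isOpen_Iio.preimage X.cont)
    (nk.cut hab h (fun z _ k => (not_lt.1 k).trans_lt (h ⟨le_rfl, hab.le⟩).1)
      fun z _ k => (h ⟨hab.le, le_rfl⟩).2.trans_le (not_lt.1 k)) (W.ln.mono (subset_univ _))
    (W'.ln.mono (subset_univ _)) (h1.mono fun z (k : _ < X.τ z) => ?_) h3
    (g := fun z => L.θ (nkp (nφ (nC R.kL (hL w))) z) ^ (n.mL - m))
    (fun z k => Rod53.cm_zpow ((L.hθ _).comp z (nk.mp.sm z k)) _) fun z k => by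
      rw [h4 z k, Tau19.csmul_smul, ← _root_.zpow_add, sub_add_sub_cancel, sub_self, zpow_zero, Circle.coe_one, one_smul]
  · rw [cv, nk.ang_eq L.hθ _ hab h, ← neg_sub m, Int.cast_neg, neg_smul, ← sub_eq_add_neg] at this
    exact this
  · rcases Rz.cover hw (X.τ z) with e | e | ⟨j, e1, e2, e⟩
    · exact mem_iUnion.2 ⟨⟨.B _ _ r, nofun⟩, i ⟨k, e⟩⟩
    · exact mem_iUnion.2 ⟨⟨.R, nofun⟩, e⟩
    · exact mem_iUnion.2 ⟨⟨.B _ _ (Shp.rg_one e1 e2), nofun⟩, e⟩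

/-- **the twist at the right cap** -/
theorem twR (W : WL L R n κ) (W' : WL L R { n with mR := m } lam) (hab : a < b) (h : Icc a b ⊆ II w.r w.r) :
    Ex X.P.I univ (Fp X.mf W'.p - Fp X.mf W.p - ((n.mR - m : ℤ) : ℝ) • Ph L R.kR (hR w) a b) := by
  obtain ⟨u, h1, h2⟩ := mt_off W W' .R fun c k => by
    cases c
    exacts [W'.tl _, W'.cL, absurd rfl k]
  have r : w.Rg (w.r - 1) w.r := ⟨by linarith [hw.lt], by omega, le_rfl, fun _ _ _ => by omega⟩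
  have i := preimage_mono (f := X.τ) (II_mono (x := w.r - 1) (y := w.r) (x' := w.r) (y' := w.r) (by omega) le_rfl)
  obtain ⟨v, h3, h4⟩ := cc_tw (hR w) W.cR W'.cR (Ch.isOpen_D (.B _ _ r)) (i.trans (Ch.cl (.B _ _ r))) i
    (h2 (.B _ _ r) nofun)
  have cv : X.τ ⁻¹' Ioi (w.r + 1 / 4) ∪ X.τ ⁻¹' Iio (w.r + 3 / 4) = univ := by
    rw [← preimage_union, union_comm, Iio_union_Ioi_of_lt (by linarith), preimage_univ]
  have nk := nk_T (nC R.kR (hR w))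
  have := ex_twist (isOpen_Ioi.preimage X.cont) (isOpen_Iio.preimage X.cont)
    (nk.cut hab h (fun z _ k => (not_lt.1 k).trans_lt (h ⟨le_rfl, hab.le⟩).1)
      fun z _ k => (h ⟨hab.le, le_rfl⟩).2.trans_le (not_lt.1 k)) (W.ln.mono (subset_univ _))
    (W'.ln.mono (subset_univ _)) h3 (h1.mono fun z (k : X.τ z < _) => ?_)
    (g := fun z => L.θ (nkp (nφ (nC R.kR (hR w))) z) ^ (m - n.mR))
    (fun z k => Rod53.cm_zpow ((L.hθ _).comp z (nk.mp.sm z k)) _) h4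
  · rw [cv, nk.ang_eq L.hθ _ hab h, ← neg_sub n.mR, Int.cast_neg, neg_smul, ← sub_eq_add_neg] at this
    exact this
  · rcases Rz.cover hw (X.τ z) with e | e | ⟨j, e1, e2, e⟩
    · exact mem_iUnion.2 ⟨⟨.L, nofun⟩, e⟩
    · exact mem_iUnion.2 ⟨⟨.B _ _ r, nofun⟩, i ⟨e, k⟩⟩
    · exact mem_iUnion.2 ⟨⟨.B _ _ (Shp.rg_one e1 e2), nofun⟩, e⟩

variable {ι : Type} [Fintype ι] [DecidableEq ι] {U K : Set X.P.M} {e : ι → X.P.M → Ext X.P.E} {G : Matrix ι ι ℝ}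

theorem isq_twL (W : WL L R n κ) (W' : WL L R { n with mL := m } lam) (hab : a < b) (h : Icc a b ⊆ II w.l w.l)
    (k : Lat X.P.I (-R.O) U K e G) (hU : X.τ ⁻¹' Icc a b ⊆ U) :
    isq X.P.I (-R.O) e G (Fp X.mf W'.p) (Fp X.mf W'.p) =
      isq X.P.I (-R.O) e G (Fp X.mf W.p) (Fp X.mf W.p) + 2 * (m - n.mL) * ((2 * π) ^ 2 * dgL L) := by
  rw [isq_add k ((W.ln.cl_F isOpen_univ).mono (subset_univ _)) ((W'.ln.cl_F isOpen_univ).sm.mono (subset_univ _))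
    ((cs_Ph _ hab h).mono hU) ((twL W W' hab h).mono (subset_univ _)), ip_Ph_Ph,
    ip_Ph _ hab h W.cL W.ln R.O_spec.ori R.O_spec.kL, mul_zero, add_zero, Int.cast_sub]

theorem isq_twR (W : WL L R n κ) (W' : WL L R { n with mR := m } lam) (hab : a < b) (h : Icc a b ⊆ II w.r w.r)
    (k : Lat X.P.I (-R.O) U K e G) (hU : X.τ ⁻¹' Icc a b ⊆ U) :
    isq X.P.I (-R.O) e G (Fp X.mf W'.p) (Fp X.mf W'.p) =
      isq X.P.I (-R.O) e G (Fp X.mf W.p) (Fp X.mf W.p) + 2 * (n.mR - m) * ((2 * π) ^ 2 * dgL L) := by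
  rw [isq_add k ((W.ln.cl_F isOpen_univ).mono (subset_univ _)) ((W'.ln.cl_F isOpen_univ).sm.mono (subset_univ _))
    ((cs_Ph _ hab h).mono hU) ((twR W W' hab h).mono (subset_univ _)), ip_Ph_Ph,
    ip_Ph _ hab h W.cR W.ln R.O_spec.ori R.O_spec.kR, mul_zero, add_zero, Int.cast_sub]

variable {β sg l2 : ℝ}

theorem nbx_twL (W : WL L R n κ) (W' : WL L R { n with mL := m } lam) (hab : a < b) (h : Icc a b ⊆ II w.l w.l)
    (hU : X.τ ⁻¹' Icc a b ⊆ U) (k : NbX X.mf (-R.O) W.p U β sg l2) :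
    NbX X.mf (-R.O) W'.p U β sg (l2 + 2 * (m - n.mL) * dgL L) := by
  obtain ⟨ι, _, _, e, d, k, h1, h2, h3⟩ := k
  refine ⟨ι, _, _, e, d, k, h1, h2, ?_⟩
  rw [h3, ← isq_diag' k, ← isq_diag' k]
  refine Eq.trans ?_ (congrArg (· / (2 * π) ^ 2) (isq_twL W W' hab h k hU).symm)
  rw [add_div, mul_left_comm, mul_div_cancel_left₀ _ (by positivity)]

theorem nbx_twR (W : WL L R n κ) (W' : WL L R { n with mR := m } lam) (hab : a < b) (h : Icc a b ⊆ II w.r w.r)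
    (hU : X.τ ⁻¹' Icc a b ⊆ U) (k : NbX X.mf (-R.O) W.p U β sg l2) :
    NbX X.mf (-R.O) W'.p U β sg (l2 + 2 * (n.mR - m) * dgL L) := by
  obtain ⟨ι, _, _, e, d, k, h1, h2, h3⟩ := k
  refine ⟨ι, _, _, e, d, k, h1, h2, ?_⟩
  rw [h3, ← isq_diag' k, ← isq_diag' k]
  refine Eq.trans ?_ (congrArg (· / (2 * π) ^ 2) (isq_twR W W' hab h k hU).symm)
  rw [add_div, mul_left_comm, mul_div_cancel_left₀ _ (by positivity)]

/-! ### lattices of pieces -/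

theorem lat_cut {Z : Mf 4} [CompactSpace Z.M] {o : Z.M → Ext Z.E} (ho : Ori Z.I o) {α : Type*} (B : Finset α)
    {S W : α → Set Z.M} (oS : ∀ a ∈ B, IsOpen (S a)) (oW : ∀ a ∈ B, IsOpen (W a))
    (oC : ∀ a ∈ B, IsOpen ((S a)ᶜ ∪ W a)) (hd : (B : Set α).PairwiseDisjoint W)
    (hs : ∀ a ∈ B, ∀ b ∈ B, a ≠ b → W a ⊆ S b ∨ Disjoint (W a) (S b)) (hz : ∀ a ∈ B, HZ Z.I 2 (S a ∩ W a)) :
    ∃ (n : ℕ) (e : Fin n → Z.M → Ext Z.E) (d : Fin n → ℝ),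
      Lat Z.I o {z | ∀ a ∈ B, z ∈ S a} {z | ∀ a ∈ B, z ∈ S a} e (diagonal d) := by
  have oU : IsOpen {z | ∀ a ∈ B, z ∈ S a} := by
    simpa only [← mem_iInter₂, ofPred_mem_eq] using isOpen_biInter_finset oS
  have cv : {z | ∀ a ∈ B, z ∈ S a} ∪ ⋃ a ∈ B, (S a)ᶜ ∪ W a = univ := eq_univ_of_forall fun z =>
    or_iff_not_imp_left.2 fun k => by
      simp only [mem_ofPred_eq, not_forall] at k
      obtain ⟨a, k1, k2⟩ := k
      exact mem_iUnion₂.2 ⟨a, k1, .inl k2⟩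
  obtain ⟨n, e, d, k⟩ := Num57.exists_lat Z.dim ho isOpen_univ isCompact_univ
  have := Int54.sigmaCompact (I := Z.I) Z.M
  refine Num57.lat_split (cv ▸ k) oU (isOpen_iUnion fun a => isOpen_iUnion (oC a)) (cv ▸ isCompact_univ) ?_
  rw [show {z | ∀ a ∈ B, z ∈ S a} ∩ ⋃ a ∈ B, (S a)ᶜ ∪ W a = ⋃ a ∈ (B : Set α), {z | ∀ a ∈ B, z ∈ S a} ∩ W a from by
    rw [inter_iUnion₂]
    exact iUnion₂_congr fun a k => by
      rw [inter_union_distrib_left, eq_empty_of_forall_notMem (s := {z | ∀ a ∈ B, z ∈ S a} ∩ (S a)ᶜ)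
        fun _ p => p.2 (p.1 a k), empty_union]]
  refine Num57.hz_biUnion B.finite_toSet (fun a k => oU.inter (oW a k))
    (fun a k b k' ne => (hd k k' ne).mono inter_subset_right inter_subset_right) fun a k => ?_
  by_cases c : ∀ b ∈ B, a ≠ b → W a ⊆ S b
  · convert hz a k using 1
    exact Subset.antisymm (fun _ p => ⟨p.1 a k, p.2⟩) fun _ p => ⟨fun b q =>
      (eq_or_ne a b).elim (fun e => e ▸ p.1) fun e => c b q e p.2, p.2⟩
  · simp only [not_forall] at c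
    obtain ⟨b, q, e, c⟩ := c
    rw [eq_empty_of_forall_notMem (s := {z | ∀ a ∈ B, z ∈ S a} ∩ W a) fun _ p =>
      disjoint_left.1 ((hs a k b q e).resolve_left c) p.2 (p.1 b q)]
    exact hz_empty

section Nk

variable {Z : Mf 4} {Y : Mf 3} [CompactSpace Y.M] [ConnectedSpace Y.M] (N : Wd38.Nk Z Y) (s : Bool)

theorem nk_compl : IsOpen ((N.S s)ᶜ ∪ range N.j) := by
  convert (N.h.op (!s)).union N.h.oe.isOpen_range using 1
  refine Subset.antisymm (fun z p => or_iff_not_imp_right.2 fun q => ?_)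
    (union_subset_union_left _ fun z p q => N.h.not_mem q p)
  obtain ⟨t, e⟩ := N.h.cov z q
  rwa [Bool.eq_not_of_ne (x := t) (y := s) fun k => p.resolve_right q (k ▸ e)] at e

theorem nk_side {A : Set Z.M} (h : IsPreconnected A) (hd : Disjoint A (range N.j)) :
    A ⊆ N.S s ∨ Disjoint A (N.S s) := by
  have d : Disjoint (N.S s) (N.S (!s)) := disjoint_left.2 fun _ => N.h.not_mem
  refine (h.subset_or_subset (N.h.op s) (N.h.op (!s)) d fun z p => ?_).imp_right fun k => d.symm.mono_left k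
  obtain ⟨t, e⟩ := N.h.cov z (disjoint_left.1 hd p)
  exact (eq_or_ne t s).imp (fun k : t = s => k ▸ e) fun k => Bool.eq_not_of_ne k ▸ e

theorem nk_half {k : ℕ} (h : HZ Y.I k (univ : Set Y.M)) : HZ Z.I k (N.S s ∩ range N.j) := by
  have o : IsOpen {t : ℝ | 0 < M.pm s * t} := isOpen_lt continuous_const (by fun_prop)
  rw [show N.S s ∩ range N.j = N.j '' (univ ×ˢ {t | 0 < M.pm s * t}) from Subset.antisymm
    (by rintro _ ⟨p, q, rfl⟩; exact ⟨q, ⟨trivial, N.h.j_mem.1 p⟩, rfl⟩)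
    (by rintro _ ⟨q, p, rfl⟩; exact ⟨N.h.mem s q p.2, q, rfl⟩), hz_oe N.h.oe.loc N.h.oe.inj (isOpen_univ.prod o)]
  exact h.prod_convex isOpen_univ o
    (convex_halfSpace_gt (f := fun t => M.pm s * t) ⟨mul_add _, fun _ _ => mul_left_comm _ _ _⟩ 0)

end Nk

variable (R) in
/-- **toric pieces have lattices** -/
theorem lat_pc {B : Finset Bs} (h1 : ∀ a ∈ B, a.OK w ∧ a.pin) (h2 : ∀ a ∈ B, ∀ b ∈ B, a ≠ b → a.Far b)
    (η : Bs → Bool) : ∃ (n : ℕ) (e : Fin n → X.P.M → Ext X.P.E) (d : Fin n → ℝ),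
      Lat X.P.I (-R.O) (pc R B η) (pc R B η) e (diagonal d) := by
  have : CompactSpace X.mf.M := R.cpt
  have s := fun a k => Sid48.nk_S R (h1 a k).1 (η a)
  have r : ∀ a k, range (R.nk a (h1 a k).1).j = R.bd a := fun a k => (R.spec_nk a _).b
  refine lat_cut (Z := X.mf) R.O_spec.ori.neg B (W := R.bd) (fun a k => s a k ▸ (R.nk a _).h.op _)
    (fun a k => r a k ▸ (R.nk a _).h.oe.isOpen_range) (fun a k => s a k ▸ r a k ▸ nk_compl _ _)
    (fun a k b k' e => R.bd_far (h2 a k b k' e)) (fun a k b k' e => s b k' ▸ nk_side _ _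
      (r a k ▸ isPreconnected_range (R.nk a _).h.oe.continuous) (r b k' ▸ R.bd_far (h2 a k b k' e)))
    fun a k => s a k ▸ r a k ▸ nk_half _ _ ?_
  rw [Bs.ty_sph.2 (h1 a k).2]
  exact hz_sphere (d := 3) (k := 1) (by simp)

theorem fst_sub {B : Finset Bs} (h1 : ∀ a ∈ B, a.OK w) {η : Bs → Bool} (h : Nm96.InV B η w.l) :
    X.τ ⁻¹' Iio (w.l + 1 / 2) ⊆ pc R B η := fun z (hz : X.τ z < _) a k => by
  have l := (Sid48.OK_lo (h1 a k)).1
  rw [← h a k, Sid48.side_congr (c' := a.lo) (by omega) (by have := (Sid48.OK_hi (h1 a k)).1; omega)]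
  exact Sid48.sd_lo R (hz.trans_le (by gcongr))

theorem lst_sub {B : Finset Bs} (h1 : ∀ a ∈ B, a.OK w) {η : Bs → Bool} (h : Nm96.InV B η (w.r + 1)) :
    X.τ ⁻¹' Ioi (w.r + 1 / 2) ⊆ pc R B η := fun z (hz : _ < X.τ z) a k => by
  have l := Sid48.OK_hi (h1 a k)
  rw [← h a k, Sid48.side_hi l.1 (by omega)]
  exact Sid48.sd_hi R (lt_of_le_of_lt (by gcongr; exact l.2) hz)

variable (lam) [DecidableEq lam] in
/-- **BR-NB, first pieces** -/
theorem nbF (hd : 0 < dgL L) {μ : ℕ → ℤ × ℤ} (h1 : Tendsto (fun k => (μ k).1) atTop atTop) {mR : ℤ}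
    (h2 : ∀ k, (μ k).2 = mR) : NbF L lam μ := by
  intro F hw n B η c T hF
  obtain ⟨N, e, d, k⟩ := lat_pc (C.rz hw) T.ok T.far η
  by_cases hn : (cp n (0, mR)).OK F.w Λ
  swap
  · exact .of_forall fun _ W => (hn ⟨W.ok.sl, W.ok.sr, W.ok.rod, W.ok.jn, W.ok.eq, W.ok.neg⟩).elim
  obtain ⟨W₀⟩ := exists_WL L (C.rz hw) hn
  obtain ⟨β, sg, l2, h0⟩ : ∃ β sg l2, NbX (C.X hw).mf (-(C.rz hw).O) W₀.p (pc (C.rz hw) B η) β sg l2 :=
    ⟨_, _, _, nbx_of_lat (X := (C.X hw).mf) (W₀.ln.mono (subset_univ _)) k⟩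
  refine (((tendsto_intCast_atTop_atTop (R := ℝ)).comp h1).atTop_mul_const hd).eventually_ge_atTop
    (c - (l2 - sg) / 2 + 3 * β) |>.mono fun i hi => ?_
  rw [show μ i = ((μ i).1, mR) from Prod.ext rfl (h2 i)]
  refine fun W => ⟨_, _, _, nbx_twL (a := F.w.l + 5 / 16) (b := F.w.l + 7 / 16) W₀ W (by linarith)
    (Icc_subset_Ioo (by linarith) (by linarith)) ((preimage_mono fun t ht => ht.2.trans_lt (by linarith)).trans
      (fst_sub (fun a k => (T.ok a k).1) hF)) h0, ?_⟩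
  simp only [cp, Int.cast_zero, sub_zero, Function.comp_apply] at hi ⊢
  linarith

end Crest.Agent.X212.Cap57
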