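import Crest.Agent.X212.Num57.Es
import Crest.Agent.X212.Cg28.Defs

/-! X212 / NUM (helper57): the leaf `SIG` of `Cg28`. -/

namespace Crest.Agent.X212.Num57

theorem sigStmt : Cg28.SigStmt := fun Z => by
  obtain ⟨n, F, hF⟩ := Met55.exists_fr (I := modelWithCornersSelf ℝ Rod53.E4) (M := Z.Z)
  exact ⟨n, F, (sig_cw (by simp) hF Z.ori).trans (by rw [Cg28.C4.sg]; push_cast; rfl)⟩

end Crest.Agent.X212.Num57
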