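import Crest.Agent.X212.Num57.Dn
import Crest.Agent.X212.Idg99.Asd
import Crest.Agent.X212.Met55.Vol

/-!
X212 / NUM (helper57): the signature theorem and the Gauss-Bonnet theorem on closed four-manifolds.
-/

set_option autoImplicit false
set_option linter.unusedSectionVars false
noncomputable section
open scoped Manifold ContDiff Topology Matrix
open MeasureTheory Finset Filter Module
open Crest.Agent.R208 Crest.Agent.R208.F Crest.Agent.X212.Dr59 Crest.Agent.X212.Int54

namespace Crest.Agent.X212.Num57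
open An Sob92 Wz78

variable {E : Type} [NormedAddCommGroup E] [NormedSpace ℝ E] [FiniteDimensional ℝ E]
  [MeasurableSpace E] [BorelSpace E]
  {HM : Type} [TopologicalSpace HM] {I : ModelWithCorners ℝ E HM}
  {M : Type} [TopologicalSpace M] [ChartedSpace HM M] [IsManifold I ∞ M]
  [MeasurableSpace M] {ι : Type} [Fintype ι]
  {V : Type} [NormedAddCommGroup V] [NormedSpace ℝ V] [FiniteDimensional ℝ V]
  {F : Fr I M ι} {o : ι → ι → ι → ι → M → ℝ}

theorem sgd99 (F : Fr I M ι) (o : ι → ι → ι → ι → M → ℝ) : Idg99.sgd F o = sgd F o := by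
  funext x; rw [Idg99.sgd, sgd]; ring

theorem eud99 (F : Fr I M ι) (o : ι → ι → ι → ι → M → ℝ) : Idg99.eud F o = eud F o := by
  funext x; rw [Idg99.eud, eud]; ring

theorem cwd99 {X : Type} [NormedAddCommGroup X] [InnerProductSpace ℝ X] [FiniteDimensional ℝ X]
    (T : M → X →L[ℝ] X) (A : ι → M → X →L[ℝ] X) : Idg99.cwd F o T A = cwd F o T A := rfl

/-- the trace as a continuous map -/
def trC : (V →L[ℝ] V) →L[ℝ] ℝ := LinearMap.toContinuousLinearMap
  { toFun := tr, map_add' := fun _ _ => by simp [tr], map_smul' := fun _ _ => by simp [tr] }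

theorem sa_cwd {T : M → V →L[ℝ] V} {A : ι → M → V →L[ℝ] V} {x : M}
    (ho : ∀ a b c d, SA I (o a b c d) x) (hT : SA I T x) (hA : ∀ a, SA I (A a) x) :
    SA I (cwd F o T A) x :=
  SA.sum _ fun a _ => SA.sum _ fun b _ => SA.sum _ fun c _ => SA.sum _ fun d _ => (ho a b c d).mul
    (((hT.mul ((frm F).sCurv hA a b)).mul ((frm F).sCurv hA c d)).clm trC)

theorem sm_sgd (ho : ∀ a b c d, An.Sm I (o a b c d)) : An.Sm I (sgd F o) := fun x => by
  classical
  rw [funext (sgd_cwd F o)]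
  exact SA.mul contMDiffAt_const (sa_cwd (fun a b c d => ho a b c d x)
    (sa_mL (Idg99.sm_Pm (frm F) x)) fun a => sa_mL (Idg99.sm_Om (lc_gam F) (frm F) a x))

theorem sm_eud (ho : ∀ a b c d, An.Sm I (o a b c d)) : An.Sm I (eud F o) := fun x => by
  classical
  rw [funext (eud_cwd F o)]
  exact SA.mul contMDiffAt_const (sa_cwd (fun a b c d => ho a b c d x)
    (sa_mL fun s t => (ho s.1 s.2 t.1 t.2 x).div_const _)
    fun a => sa_mL (Idg99.sm_Om2 (lc_gam F) (frm F) a x))

variable [I.Boundaryless] [BorelSpace M] [SecondCountableTopology M] {v : M → Ext E}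

/-- the data of an orientation -/
theorem ok_ov (h4 : finrank ℝ E = 4) (hF : F.IsVol) (hv : Ori I v) :
    OK F (oc F.e (volF v F.e)) :=
  ⟨h4, hF, fun a b c d => oc_sm a b c d F.toPre (hv.vol F.toPre).sm, fun x =>
    ⟨fr_pr F x, by rw [fr_rk, h4]; rfl, fun a b c d => oc_12 a b c d x, fun a b c d => oc_23 a b c d x,
      fun a b c d => oc_34 a b c d x, fun a b c d => oc_P a b c d x,
      (hv.unit_vol F.toPre).oc_nm x h4⟩⟩

theorem same_ov (h4 : finrank ℝ E = 4) (hv : Ori I v) :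
    SameOn (vol F (oc F.e (volF v F.e))) v Set.univ :=
  (sameOn_vol_oc F h4 (hv.unit_vol F.toPre)).trans (hv.sameOn_volF (pre_sp F.toPre) _).symm

theorem pa_one {κ : Type} [Fintype κ] [DecidableEq κ] (U : Set M) (C : Matrix κ κ (M → Ext E)) :
    Pa I U C 1 := by
  refine ⟨ms_one, fz_one (E := E) (M := M) (κ := κ) ▸ fz_ev U _, fun i j x _ => ?_⟩
  rw [mul_one, one_mul, add_sub_cancel_right, md, Matrix.map_apply, Matrix.one_apply]
  split_ifs
  · rw [dM_one]; rfl
  · rw [dM_zero]; rfl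

variable [T2Space M] [CompactSpace M]

theorem cw_mL {α : Type} [Fintype α] [DecidableEq α] (hv : Ori I v) {S : M → Matrix α α ℝ}
    (h : HasC I (fz E S)) : cw I v (f0 E fun x => mL (S x)) = cw I v (fz E S) := by
  obtain ⟨C, hC, h⟩ := h
  let u := (finBasis ℝ (α → ℝ)).toMatrix (Pi.basisFun ℝ α)
  let w := (Pi.basisFun ℝ α).toMatrix (finBasis ℝ (α → ℝ))
  have e : fz E (fun _ : M => w) * fz E (fun _ : M => u) = 1 := by
    rw [← fz_mul, Basis.toMatrix_mul_toMatrix_flip, fz_one]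
  rw [← cw_iso hv hC h (u := fz E fun _ => u) (v := fz E fun _ => w)
    (fz_ms fun _ _ _ _ => contMDiffAt_const) (fz_ms fun _ _ _ _ => contMDiffAt_const) (fz_ev _ _)
    (fz_ev _ _) (e ▸ pa_one _ C) (by rw [e, Matrix.mul_one]) (by rw [e, Matrix.one_mul])
    (by rw [e, Matrix.mul_one]), ← fz_mul, ← fz_mul, f0]
  congr 2
  funext x
  rw [← LinearMap.toMatrix_toLin (Pi.basisFun ℝ α) (Pi.basisFun ℝ α) (S x),
    basis_toMatrix_mul_linearMap_toMatrix_mul_basis_toMatrix, LinearMap.toMatrix_toLin,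
    Matrix.toLin_eq_toLin']
  rfl

theorem OK.int_sgd (h : OK F o) : Integrable (sgd F o) F.μ := int_sm (sm_sgd h.sm)
theorem OK.int_eud (h : OK F o) : Integrable (eud F o) F.μ := int_sm (sm_eud h.sm)

theorem OK.es (h : OK F o) : ∫ x, eud F o x ∂F.μ + ∫ x, sgd F o x ∂F.μ
    = 2 * ((bb I M 0 : ℝ) - bb I M 1 + bp h.ori) := by
  have e := Idg99.ind_hop h
  rw [Idg99.ind, h.finrank_ker, h.finrank_ker_adj, sgd99, eud99, integral_div,
    integral_add h.int_eud h.int_sgd] at e
  push_cast at e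
  linarith

theorem OK.bp_neg (h : OK F o) : bp h.neg.ori = bm h.ori := by
  rw [← Num57.bp_neg]; congr 1; exact vol_neg F o

theorem OK.es' (h : OK F o) : ∫ x, eud F o x ∂F.μ - ∫ x, sgd F o x ∂F.μ
    = 2 * ((bb I M 0 : ℝ) - bb I M 1 + bm h.ori) := by
  have e := h.neg.es
  simp only [sgd_neg, eud_neg, integral_neg, h.bp_neg] at e
  exact e

/-- **the signature theorem** -/
theorem OK.sg_eq (h : OK F o) : ∫ x, sgd F o x ∂F.μ = (bp h.ori : ℝ) - bm h.ori := by
  linarith [h.es, h.es']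

/-- **the Gauss-Bonnet theorem** -/
theorem OK.eu_eq (h : OK F o) :
    ∫ x, eud F o x ∂F.μ = 2 * (bb I M 0 : ℝ) - 2 * bb I M 1 + bb I M 2 := by
  rw [← h.bp_add_bm]; push_cast; linarith [h.es, h.es']

/-- the signature theorem for the tangent projector -/
theorem sig_cw [DecidableEq ι] (h4 : finrank ℝ E = 4) (hF : F.IsVol) (hv : Ori I v) :
    cw I v (fz E fun x => Matrix.of fun a b => F.P a b x)
      = -(24 * Real.pi ^ 2) * ((bp hv : ℝ) - bm hv) := by
  have h := ok_ov h4 hF hv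
  have L := lc_gam F
  have e := h.sg_eq
  rw [bp_ori h.ori hv (same_ov h4 hv), bm_ori h.ori hv (same_ov h4 hv), funext (sgd_cwd F _),
    integral_const_mul, integral_cwd F h4 hF h.sm h.vo'
      ⟨fun a x => sa_mL (Idg99.sm_Om L (frm F) a x), fun a x => by
        simp only [← map_smul, ← map_sum, Idg99.Om_proj L (frm F) (sep F)]⟩
      (fun x => sa_mL (Idg99.sm_Pm (frm F) x)) fun a x => by
        have hm : ∀ A B : Matrix ι ι ℝ, mL A * mL B = mL (A * B) := fun A B => (mL_comp A B).symm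
        rw [Pre.D_def, dv_mL (Idg99.sm_Pm (frm F) x), hm, hm, ← map_sub, ← map_add]
        exact (congrArg mL (Idg99.nm_Pm L (frm F) a x)).trans (map_zero _),
    cw_ori h.ori hv (same_ov h4 hv), cw_mL (S := Idg99.Pm F.P) hv (hasC_idem
      (fz_ms fun a b x _ => F.P_sm a b x) (fz_ev _ _) (by
        rw [← fz_mul]; congr 1; funext x; ext a b; exact (fr_pr F x).idem a b))] at e
  rw [← e]
  change cw I v (fz E (Idg99.Pm F.P)) = _
  field_simp
  ring

end Crest.Agent.X212.Num57
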