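import Crest.Agent.X212.Dr59.Frm
import Crest.Agent.X212.Line51.Nek

/-!
# X212 / Num57 (helper57): the energy of a toric form with a constant end

* `energy` : the square of a toric form;  `late` : constant ends;  `pm_pot` : the potential on a product region;
* `ap` : the path through one vertex;  `integral_ap`.
-/

set_option autoImplicit false
set_option linter.unusedSectionVars false

open Set Filter Topology Function Module MeasureTheory
open scoped ContDiff Manifold Real
open Crest.Agent.R208 Crest.Agent.R208.FI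
open Crest.Agent.R208.F hiding wd
open Crest.Agent.X212.Int54 hiding dt pr kap tp_pr pr_eq cAt_pr pm_pr kap_ne sigmaCompact
open Crest.Agent.X212.Line51 hiding tp Uni
open Crest.Agent.X212.Orx52 Crest.Agent.X212.Rod53 Crest.Agent.X212.Pj41

noncomputable section

namespace Crest.Agent.X212.Cap57
open Dr59

section path

variable {c t : ℝ} {m x y : ℝ × ℝ} {v : ℝ → Z2} {a b : Z2}

/-- the path from `m + x + y` through `m + y` to `m` -/
def ap (c : ℝ) (m x y : ℝ × ℝ) (t : ℝ) : ℝ × ℝ := m + vp c x y t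

theorem adm_ap (hx : dr x a = 0) (hy : dr y b = 0) (hJ : Icc (c - 1 / 6) (c + 1 / 6) ⊆ Jv v a b c) :
    Adm v (ap c m x y) :=
  have k := adm_vp hx hy hJ
  ⟨contDiff_const.add k.sm, fun t => (k.ev t).mono fun z e => by
    simp only [ap, dr, Prod.fst_add, Prod.snd_add] at e ⊢
    linarith⟩

theorem integral_ap (c : ℝ) (m x y : ℝ × ℝ) :
    ∫ t, om (ap c m x y) (ap c m x y) t = -det2 (m + y) x - det2 m y := by
  have e : ∀ t, om (ap c m x y) (ap c m x y) t = deriv (sw (1 / 12)) (t - (c - 1 / 4)) * -det2 (m + y) x -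
      deriv (sw (1 / 12)) (t - c) * det2 m y := fun t => by
    have d : ∀ z, HasDerivAt (fun t => sw (1 / 12) (t - z)) (deriv (sw (1 / 12)) (t - z)) t := fun z =>
      ((contDiff_sw _).differentiable (by simp) _).hasDerivAt.comp_sub_const t z
    rw [om, show deriv (ap c m x y) t = _ from
      (((((d _).const_sub 1).smul_const x).add (((d _).const_sub 1).smul_const y)).const_add m).deriv]
    simp only [ap, vp, det2, Prod.fst_add, Prod.snd_add, Prod.smul_fst, Prod.smul_snd, smul_eq_mul]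
    rcases le_total t c with k | k
    · rw [s2_zero (by linarith), deriv_sw h12 (y := t - c) fun l => by linarith [l.1]]
      ring
    · rw [s1_one (by linarith), deriv_sw h12 (y := t - (c - 1 / 4)) fun l => by linarith [l.2]]
      ring
  have i : ∀ z r : ℝ, Integrable fun t => deriv (sw (1 / 12)) (t - z) * r := fun z r =>
    (Integrable.comp_sub_right (((contDiff_sw _).continuous_deriv (by simp)).integrable_of_hasCompactSupport
      (HasCompactSupport.intro isCompact_Icc fun _ => deriv_sw h12)) _).mul_const _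
  rw [funext e, integral_sub (i _ _) (i _ _), integral_mul_const, integral_mul_const,
    integral_sub_right_eq_self (deriv (sw (1 / 12))), integral_sub_right_eq_self (deriv (sw (1 / 12))),
    integral_deriv_sw h12, one_mul, one_mul]

end path

variable {EN HN : Type} [NormedAddCommGroup EN] [NormedSpace ℝ EN] [FiniteDimensional ℝ EN]
  [TopologicalSpace HN] {IN : ModelWithCorners ℝ EN HN} [IN.Boundaryless]
  {N : Type} [TopologicalSpace N] [ChartedSpace HN N] [IsManifold IN ∞ N] [T2Space N]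
  {T : Tb IN N} {v : ℝ → Z2} {p : X T v} {r : ℝ} {A : ℝ → ℝ × ℝ} {G : X T v → Ext E4} {α α' : N → Ext EN}
  {m : ℝ × ℝ} {c : ℝ → ℝ}

/-- constant ends -/
theorem late (h : TG T v r α A c G) (hp : p ∈ off T v) (k : ∀ᶠ t in 𝓝 (T.time v p), A t = m ∧ c t = 0) :
    (pot T v r α A c * G) p = 0 := by
  have e : pot T v r α A c =ᶠ[𝓝 p] (1 - gw T v r) • tq T v fun _ => m :=
    (T.continuous_time.continuousAt.eventually k).mono fun q a => by
      rw [pot_apply, a.2, zero_smul, smul_zero, add_zero, tq_apply, a.1]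
      rfl
  rw [Pi.mul_apply, h.eq p hp, dM_congr e, e.self_of_nhds, Pi.smul_apply']
  by_cases a : p ∈ T.tor v
  · obtain ⟨l, hl⟩ : ∃ l, tq T v (fun _ => m) p = io l :=
      ⟨_, ((map_add _ _ _).trans (congrArg₂ (· + ·) (map_smul _ _ _) (map_smul _ _ _))).symm⟩
    rw [dM_fsmul (g := 1 - gw T v r) ne0 ((contMDiffAt_const.sub (sm_gw h.pos p)).mdifferentiableAt ne0) (smAt_tq contDiff_const a hp),
      dM_tq contDiff_const a hp, hl, deriv_const', tq_apply, df]
    simp [io_three]
  · rw [Pi.sub_apply, (gw_one h.pos fun e => a e.1).self_of_nhds, sub_self, zero_smul, zero_mul]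

section en

variable [MeasurableSpace E4] [BorelSpace E4] [MeasurableSpace (X T v)] [BorelSpace (X T v)]
  [SecondCountableTopology (X T v)] {o : N → Ext EN} {O : X T v → Ext E4} {K : Set (X T v)}

theorem d_cs (h : TG T v r α A c G) (hp : p ∈ off T v) : dM (𝓡 4) (pot T v r α A c * G) p = (G * G) p := by
  rw [dM_mul ne0 (h.sm p hp) (h.cl.sm p trivial), h.cl.cl p trivial, mul_zero, add_zero, ← h.eq p hp, Pi.mul_apply]

theorem sq_zero (h : TG T v r α A c G) (hK : IsClosed K) (k : ∀ p ∈ off T v, p ∉ K → (pot T v r α A c * G) p = 0)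
    (hp : p ∉ K) : (G * G) p = 0 :=
  form_eq_of_dense dense_off (((h.cl.sm p trivial).mul (h.cl.sm p trivial)).of_le (by simp)) cAt_zero
    (eventually_of_mem (hK.isOpen_compl.mem_nhds hp) fun q a b => by
      rw [← d_cs h b, dM_congr (b := 0) (eventually_of_mem ((isOpen_off.inter hK.isOpen_compl).mem_nhds ⟨b, a⟩)
        fun z e => k z e.1 e.2), dM_zero])

/-- **the square of a toric form** -/
theorem energy (hO : OX T v o O) (hτ : Pos Rod53.IT IN T.τ {z | z.2 ≠ 0} oT o) (h : TG T v r α A c G) (hK : IsCompact K)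
    (k : ∀ p ∈ off T v, p ∉ K → (pot T v r α A c * G) p = 0) :
    ip (𝓡 4) O G G = -((2 * π) ^ 2 * ∫ t, om A A t) := by
  have hr : 0 < r / 4 := by linarith [h.pos]
  have e : ∀ p ∈ nb T v r, G p = df (𝓡 4) (T.time v) p * tq T v (deriv A) p := fun p hp =>
    (h.eq p hp.2.1).trans ((dM_congr (pot_near h.pos hp.1 hp.2.2)).trans (dM_tq h.adm.sm hp.1 hp.2.1))
  have cz := cz_gw (T := T) (v := v) (U := univ) hr
  have s : Sm (𝓡 4) (univ ∩ off T v) (pot T v r α A c * G) := fun p hp => (h.sm p hp.2).mul (h.cl.sm p trivial)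
  have s2 : Sm (𝓡 4) univ (G * G) := h.cl.sm.mul h.cl.sm
  have z : ∀ p, p ∉ K → ∀ f : Ext E4, (p ∉ off T v → f = 0) → f * (pot T v r α A c * G) p = 0 := fun p hp f hf => by
    by_cases b : p ∈ off T v
    · rw [k p b hp, mul_zero]
    · rw [hf b, zero_mul]
  have k1 := stokes_sm hO.ori (fun p => cz.sm_smul s p trivial) (.intro hK fun p hp => by
    by_cases b : p ∈ off T v
    · rw [Pi.smul_apply', k p b hp, smul_zero]
    · rw [Pi.smul_apply', (gw_axis hr b).self_of_nhds, Pi.zero_apply, zero_smul])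
  rw [show dM (𝓡 4) _ = _ from funext fun p => cz.d_smul s (fun p _ b => d_cs h b.2) (mem_univ p), cut, integ_add
    (hO.ori.intOn_of_hcs (fun p => (s2.fsmul cz.sm p trivial).of_le (by simp)) (.intro hK fun p hp => by
      rw [Pi.smul_apply', sq_zero h hK.isClosed k hp, smul_zero]) _)
    (hO.ori.intOn_of_hcs (fun p => (cz.cf.sm_mul s p trivial).of_le (by simp)) (.intro hK fun p hp =>
      z p hp _ fun b => df_eq_zero (c := 0) (gw_axis hr b)) _),
    integ_tor (A := A) (B := A) hO hτ hr fun p a b d => ?_] at k1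
  · refine (integ_congr fun p => congrArg _ ?_).trans (eq_neg_of_add_eq_zero_left k1)
    rw [Pi.smul_apply']
    by_cases a : p ∈ T.tor v ∧ T.yy v p ≤ 2 * (r / 4)
    · rw [form_eq_of_dense dense_off ((s2 p trivial).of_le (by simp)) cAt_zero
        ((ev_lt a.1 (a.2.trans_lt (show _ < r by linarith))).mono fun q b d => ?_), Pi.zero_apply, smul_zero]
      rw [Pi.mul_apply, e q ⟨b.1, d, b.2⟩, tq_apply (deriv A)]
      simp only [df, ang, th, mul_add, add_mul, mul_smul_comm, smul_mul_assoc, ← mul_assoc (io _ * io _),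
        mul_assoc (io _) (io _) (io _), io_three, zero_mul, smul_zero, add_zero, Pi.zero_apply]
    · rw [(gw_one hr a).self_of_nhds, Pi.one_apply, one_smul]
  · have l : T.yy v p < r := d.2.trans_lt (by linarith)
    rw [Pi.mul_apply, Pi.mul_apply, Pi.mul_apply, ← e p ⟨a, b, l⟩, (pot_near h.pos a l).self_of_nhds]

end en

variable {EY HY : Type} [NormedAddCommGroup EY] [NormedSpace ℝ EY] [FiniteDimensional ℝ EY]
  [TopologicalSpace HY] {IY : ModelWithCorners ℝ EY HY} [IY.Boundaryless] {Y : Type} [TopologicalSpace Y]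
  [ChartedSpace HY Y] [IsManifold IY ∞ Y] {a b : Z2} (F : Fl T a b IY Y) (hu : Uni a b)

/-- the potential of a constant end on a filling -/
def gY (r : ℝ) (m : ℝ × ℝ) : Y → Ext EY :=
  pm IY (𝓡 4) (f0 F hu) (pot T _ r 0 (fun _ => m) 0)

theorem pm_pot (hr : 0 < r) {q : Y × ℝ} (h1 : q.1 ∈ range F.ie) (h2 : q.2 ∈ Jr v a) (hA : A q.2 = m) (hc : c q.2 = 0) :
    pm (IY.prod 𝓘(ℝ, ℝ)) (𝓡 4) (F.cyf v hu) (pot T v r α A c) q =
      pm (IY.prod 𝓘(ℝ, ℝ)) IY Prod.fst (gY F hu r m) q := by
  have d := (F.ld_cyf hu q.1 h2).mdifferentiableAt ne0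
  have d' := (cm_f0 F hu q.1).mdifferentiableAt ne0
  have o := (cyf_mem_off F hu h2).2 h1
  have o' : f0 F hu q.1 ∈ off T _ := (pre_f0 F hu).ge h1
  have ev : ∀ᶠ z : Y × ℝ in 𝓝 q, z.1 ∈ range F.ie :=
    (F.oeE.isOpen_range.preimage continuous_fst).mem_nhds h1
  have ⟨e1, e2⟩ : gw T v r (F.cyf v hu q) = gw T _ r (f0 F hu q.1) ∧
      (F.cyf v hu q ∈ T.tor v ↔ f0 F hu q.1 ∈ T.tor _) := by
    obtain ⟨y, t⟩ := q
    obtain ⟨z, rfl⟩ := h1
    have := (F.hW _).1 z.2
    rw [f0, F.cyf_ie, F.cyf_ie, gw, gw, T.hf_ext _ _ this, T.hf_ext _ _ this, T.ext_mem_tor this, T.ext_mem_tor this]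
    exact ⟨rfl, Iff.rfl⟩
  rw [gY, pm_comp d' mdifferentiableAt_fst, pm_apply, pm_apply, pot_apply, comp_apply, pot_apply, F.time_cyf hu _ h2, hc,
    Pi.zero_apply, zero_smul, zero_smul, smul_zero, smul_zero, add_zero, add_zero, map_smul, map_smul, e1]
  by_cases k : F.cyf v hu q ∈ T.tor v
  · have k2 : ∀ η, pm (IY.prod 𝓘(ℝ, ℝ)) (𝓡 4) (F.cyf v hu) (ang (𝓡 4) (chi T v η)) q =
        pm (IY.prod 𝓘(ℝ, ℝ)) (𝓡 4) (f0 F hu ∘ Prod.fst) (ang (𝓡 4) (chi T _ η)) q := fun η =>
      (pm_ang (csm_off k o) d).trans ((ang_congr (ev.mono fun z e => (chi_cyf F hu e).symm)).trans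
        (pm_ang (φ := f0 F hu ∘ Prod.fst) (csm_off (e2.1 k) o') (d'.comp q mdifferentiableAt_fst)).symm)
    rw [tq_apply, tq_apply, F.time_cyf hu _ h2, hA, map_add, map_add, map_smul, map_smul, map_smul, map_smul]
    exact congrArg _ (congrArg₂ (fun x y => m.1 • x + m.2 • y) (k2 _) (k2 _))
  · rw [(gw_one hr fun e => k (e2.2 e.1)).self_of_nhds, Pi.one_apply, sub_self, zero_smul, zero_smul]

end Crest.Agent.X212.Cap57
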