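import Crest.Agent.X212.Num57.Tw
import Crest.Agent.X212.Num57.En
import Crest.Agent.X212.Dr59.Rod
import Crest.Agent.X212.Cab39.B2
import Crest.Agent.X212.Rob53.Hz

/-!
# X212 / Num57 (helper57): the terminal slab

* `ex_aY`, `ex_cap` : the fixed connections on the filling of the caps and on the right cap;  `key` : the neck;
* `ex_rep` : the compactly supported representative;  `bd_cap`;  `CapR`, `capR`.
-/

set_option autoImplicit false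
set_option linter.unusedSectionVars false
set_option linter.style.haveILetI false

open Set Filter Topology Function Module Matrix
open scoped ContDiff Manifold Real
open Crest.Agent.R208.F (Ext)

noncomputable section

namespace Crest.Agent.X212.Cap57
open Dr59 Int54 Pj41 Wd38
open M hiding pm
open Num57 (Fp)
open Line51 hiding tp
open Cyl58 (TP TIso)
open Orx52 (TPos)
open Rod53 (Z2 E3 E4 uni_s sa sb)

theorem Nk.ext {E E' H H' M Y : Type*} [NormedAddCommGroup E] [NormedSpace ℝ E] [FiniteDimensional ℝ E]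
    [NormedAddCommGroup E'] [NormedSpace ℝ E'] [FiniteDimensional ℝ E'] [TopologicalSpace H] [TopologicalSpace H']
    {I : ModelWithCorners ℝ E H} {J : ModelWithCorners ℝ E' H'} [I.Boundaryless] [J.Boundaryless] [TopologicalSpace M]
    [ChartedSpace H M] [IsManifold I ∞ M] [TopologicalSpace Y] [ChartedSpace H' Y] [IsManifold J ∞ Y]
    {φ : PartialDiffeomorph (J.prod 𝓘(ℝ, ℝ)) I (Y × ℝ) M ∞} {τ : M → ℝ} {a b c : ℝ} (h : Nk φ τ (Ioo a c))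
    (h1 : a < b) (h2 : b < c) {β : Y × ℝ → Ext (E' × ℝ)} (hβ : Sm (J.prod 𝓘(ℝ, ℝ)) (Prod.snd ⁻¹' Ioo a c) β)
    (hβ' : Dg 1 (Prod.snd ⁻¹' Ioo a c) β) : ∃ e, Sm I (τ ⁻¹' Ioi a) e ∧ Dg 1 (τ ⁻¹' Ioi a) e ∧
      ∀ q, q.2 ∈ Ioo a b → pm (J.prod 𝓘(ℝ, ℝ)) I φ e q = β q := by
  have hab : b < (b + c) / 2 := by linarith
  have cz : Cz I (τ ⁻¹' Ioi a) (τ ⁻¹' Ioo a c) fun z => 1 - st b ((b + c) / 2) (τ z) :=
    ⟨fun z _ => contMDiffAt_const.sub ((h.cf hab (Icc_subset_Ioo h1 (by linarith))).sm z trivial),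
      fun z k k' => (h.cont.continuousAt.eventually (st_one hab (lt_of_lt_of_le (by linarith)
        (not_lt.1 fun d => k' ⟨k, d⟩)))).mono fun _ d => sub_eq_zero.2 d.symm⟩
  have m : Mp I (J.prod 𝓘(ℝ, ℝ)) (τ ⁻¹' Ioo a c) (Prod.snd ⁻¹' Ioo a c) φ.symm := ⟨fun _ => h.sm_symm, fun _ => h.mem⟩
  have e : EqOn (psh φ β) (pm I _ φ.symm β) (τ ⁻¹' Ioo a c) := fun _ k => indicator_of_mem (h.tgt ▸ k) _
  refine ⟨_, cz.sm_smul ((hβ.pm m).congr h.op e), fun z k => ?_, fun q k => ?_⟩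
  · by_cases k' : τ z ∈ Ioo a c
    · exact ((hβ'.pm m.maps).congr e z k').smul _
    · rw [(cz.smul_zero k k' _).self_of_nhds]
      exact Dg.zero z k
  · have k' : q.2 ∈ Ioo a c := ⟨k.1, k.2.trans h2⟩
    rw [pm_fsmul, Pi.smul_apply', Function.comp_apply, h.tm _ k', (st_zero hab k.2).self_of_nhds, Pi.zero_apply,
      sub_zero, one_smul, pm_psh φ (h.src ▸ k')]

section gen

variable {V V' V'' : Type} [NormedAddCommGroup V] [NormedSpace ℝ V] [FiniteDimensional ℝ V]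
  [NormedAddCommGroup V'] [NormedSpace ℝ V'] [FiniteDimensional ℝ V']
  [NormedAddCommGroup V''] [NormedSpace ℝ V''] [FiniteDimensional ℝ V''] {Z : TP V} {X : TP V'} {Y : TP V''}
  {J A : Set ℝ} (k : TIso Z X J) {e : Z.P.M → Ext Z.P.E} {κ : Type} [Fintype κ] {p : X.P.M → Matrix κ κ ℂ}

theorem mp_symm (s : A ⊆ J) : Mp X.P.I Z.P.I (X.τ ⁻¹' A) (Z.τ ⁻¹' A) k.symm :=
  mp_T k.symm fun a h => ⟨s h, show _ ∈ A from (k.symm.tm a (s h)).symm ▸ h⟩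

theorem mp_k (s : A ⊆ J) : Mp Z.P.I X.P.I (Z.τ ⁻¹' A) (X.τ ⁻¹' A) k :=
  mp_T k fun a h => ⟨s h, show _ ∈ A from (k.tm a (s h)).symm ▸ h⟩

theorem sm_psh (hA : IsOpen A) (s : A ⊆ J) (h : Sm Z.P.I (Z.τ ⁻¹' A) e) : Sm X.P.I (X.τ ⁻¹' A) (psh k.φ e) :=
  (h.pm (mp_symm k s)).congr (hA.preimage X.cont) fun _ b => indicator_of_mem (k.mem_tgt (s b)) _

theorem dg_psh {n : ℕ} (s : A ⊆ J) (h : Dg n (Z.τ ⁻¹' A) e) : Dg n (X.τ ⁻¹' A) (psh k.φ e) :=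
  (h.pm (I := Z.P.I) (J := X.P.I) (mp_symm k s).maps).congr fun _ b => indicator_of_mem (k.mem_tgt (s b)) _

theorem pm_tr {P : TIso Y Z A} (s : A ⊆ J) {f : Y.P.M → X.P.M} {q : Y.P.M} (hf : f =ᶠ[𝓝 q] k ∘ P) (hq : Y.τ q ∈ A) :
    pm Y.P.I X.P.I f (psh k.φ e) q = pm Y.P.I Z.P.I P e q :=
  (pm_congr hf rfl).trans ((Orx52.pm_comp_ld (k.ld (s (P.mem hq))) (P.ld hq)).trans
    (pm_congr_right (pm_psh k.φ (k.mem_src (s (P.mem hq))) e)))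

theorem F_T (hA : IsOpen A) (s : A ⊆ J) {a : X.P.M → Ext X.P.E} (h : (⟨p, a⟩ : Ln _ _ κ).On X.P.I (X.τ ⁻¹' A))
    (he : EqOn a (psh k.φ e) (X.τ ⁻¹' A)) {y : Z.P.M} (hy : Z.τ y ∈ A) :
    pm Z.P.I X.P.I k (Ln.F X.P.I ⟨p, a⟩) y = Ln.F Z.P.I ⟨fun y => p (k y), e⟩ y :=
  have o := hA.preimage Z.cont
  (h.F_pull (hA.preimage X.cont) o (mp_k k s) hy).symm.trans ((h.pull (mp_k k s)).F_congr (K := ⟨_, e⟩) o (fun _ _ => rfl)
    (fun _ b => ((pm_congr_right (he ((mp_k k s).maps b))).trans (pm_psh k.φ (k.mem_src (s b)) e)).symm) hy).symm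

end gen

theorem integOn_T {Z X : TP V4} {J A : Set ℝ} (k : TIso Z X J) {o e : Z.P.M → Ext Z.P.E} {O c : X.P.M → Ext X.P.E}
    (hk : TPos k o O) (ho : Ori Z.P.I o) (hO : Ori X.P.I O) (hA : MeasurableSet A) (s : A ⊆ J)
    (h : ∀ y, Z.τ y ∈ A → pm Z.P.I X.P.I k c y = e y) :
    integOn X.P.I (-O) (c * c) (X.τ ⁻¹' A) = integOn Z.P.I (-o) (e * e) (Z.τ ⁻¹' A) := by
  have m := Z.cont.measurable hA
  rw [← k.image_preimage s, integOn_map (X.mf.dim.trans Z.mf.dim.symm) hO.neg ho.neg m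
    (fun y b => (k.ld (s b)).contMDiffAt) (fun _ b _ b' => k.inj (s b) (s b'))
    (Orx52.same_symm (hk.neg.mono (preimage_mono s)))]
  exact integOn_congr m fun y b => by rw [pm_mul, Pi.mul_apply, Pi.mul_apply, h y b]

variable {Γ : Nm} {C : Cx Γ} {Λ : NmL Γ} {L : LCx C Λ} {w : Shp Γ} {hw : w.OK} {X : TP V4} {R : Rz C hw X}
  {κ : Type} [Fintype κ] {j t : ℤ} {n : Wt}

variable (Λ) in
/-- the character at the cap -/
def mI : ℝ × ℝ := (Λ.x * Γ.cap.2.1, 0)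

variable (C Λ) in
/-- the potential on the filling of the caps -/
abbrev γY : (mF C.kd Γ.cap).M → Ext E3 := gY (C.F Γ.cap rfl) (uni_s (fd Γ.cap.2)) 1 (mI Λ)

theorem sq_fst {a : Z2} (h : Pr a) (h0 : a.2 = 0) : (a.1 : ℝ) ^ 2 = 1 := by
  obtain ⟨b, hb⟩ := h
  have := hb.sq
  rw [Rod53.dt, h0, zero_mul, sub_zero] at this
  have : a.1 * (b.2 * (a.1 * b.2)) = 1 := by rw [← this]; ring
  rcases Int.eq_one_or_neg_one_of_mul_eq_one this with e | e <;> simp [e]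

variable (L) in
theorem ex_aY (hp : Pr Γ.cap.2) (hc : Γ.cap.2.2 = 0) : ∃ a, (⟨(L.S Γ.cap Λ.x).L.p, a⟩ : Ln _ _ K3).On (𝓡 3) univ ∧
    (⟨(L.S Γ.cap Λ.x).L.p, a⟩ : Ln _ _ K3).Fr (𝓡 3) (L.S Γ.cap Λ.x).s (γY C Λ) (L.S Γ.cap Λ.x).D := by
  obtain ⟨G, hG⟩ := exists_TG (c := 0) one_pos (adm_const (fun _ => sa (fd Γ.cap.2)) (mI Λ)) contDiff_const
    (xa_zero (C.T Γ.cap.1) 1)
  obtain ⟨a, h1, h2⟩ := (L.sf Γ.cap Λ.x).pl.exists_conn (U := univ) ⟨fun y _ => cm_f0 _ _ y, mapsTo_univ _ _⟩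
    (pre_f0 (C.F Γ.cap rfl) (uni_s _) ▸ dense_ie _ (uni_s _)) (hG.pot' fun _ => by
      rw [sa_fd hp, dr, mI]
      linear_combination (Λ.x : ℝ) * sq_fst hp hc)
  exact ⟨a, h1, h2.mono fun y b => ⟨trivial, (pre_f0 _ _).ge ((L.sf _ _).D.le b)⟩⟩

variable (C) in
/-- the closed manifold of the caps -/
abbrev Z0 : TP V4 := C.S.tp (T := 1 / 4) (by norm_num)

variable (C) in
/-- the neck of the caps -/
def n0 : PartialDiffeomorph I31 C.X0.I ((mF C.kd Γ.cap).M × ℝ) C.X0.M ∞ := (C.S.k (T := 1 / 4) (by norm_num)).φ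

variable (C) in
theorem nk0 : Nk (n0 C) (C.S.τ (1 / 4)) (Ioo (-(1 / 4)) (1 / 4)) := nk_T (C := C) (X := Z0 C) (C.S.k _)

variable (C) in
/-- the shift of the neck -/
def sh (j : ℤ) (z : (mF C.kd Γ.cap).M × ℝ) : (mF C.kd Γ.cap).M × ℝ := (z.1, z.2 + -((j : ℝ) + 1 / 2))

theorem mp_sh (j : ℤ) : Mp I31 I31 (Prod.snd ⁻¹' II j j) (Prod.snd ⁻¹' Ioo (-(1 / 4)) (1 / 4)) (sh C j) :=
  ⟨fun _ _ => contMDiffAt_fst.prodMk (contMDiffAt_snd.add contMDiffAt_const),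
    fun z k => And.intro (by simp only [sh]; linarith [k.1]) (by simp only [sh]; linarith [k.2])⟩

theorem half_sub (j : ℤ) : Ioo ((j : ℝ) + 1 / 4) (j + 1 / 2) ⊆ II j j := Ioo_subset_Ioo_right (by linarith)

variable (L) in
theorem ex_cap {a : (mF C.kd Γ.cap).M → Ext E3} (h : (⟨(L.S Γ.cap Λ.x).L.p, a⟩ : Ln _ _ K3).On (𝓡 3) univ) :
    ∃ a₀, (⟨L.S0.L.p, a₀⟩ : Ln _ _ K3).On C.X0.I (C.S.τ (1 / 4) ⁻¹' Ioi (-(1 / 4))) ∧
      ∀ (j : ℤ) q, q.2 ∈ Ioo ((j : ℝ) + 1 / 4) (j + 1 / 2) →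
        th I31 (fun z => L.m0 (sh C j z)) q + pm I31 (𝓡 3) Prod.fst a q = pm I31 C.X0.I (C.S.n ∘ sh C j) a₀ q := by
  have m2 : Mp I31 (𝓡 3) (Prod.snd ⁻¹' Ioo (-(1 / 4)) (1 / 4)) univ (Prod.fst : (mF C.kd Γ.cap).M × ℝ → _) :=
    ⟨fun _ _ => contMDiffAt_fst, mapsTo_univ _ _⟩
  obtain ⟨a₀, h1, h2, h3⟩ := (nk0 C).ext (b := 0) (by norm_num) (by norm_num) (L.hm0.sm_th.add (h.sa.pm m2))
    ((dg_th _).add (h.dg.pm m2.maps))
  refine ⟨a₀, ⟨fun z _ => L.ok0.ln.sm z trivial, fun z _ => L.ok0.ln.prj z trivial, fun z _ => L.ok0.ln.tr z trivial,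
    h1, h2⟩, fun j q b => ?_⟩
  have s := mp_sh (C := C) j
  have b' := half_sub j b
  have d := (s.sm q b').mdifferentiableAt ne0
  rw [← pm_th (L.hm0.sm _ (s.maps b')) d]
  exact (congrArg _ (pm_comp (g := Prod.fst) mdifferentiableAt_fst d).symm).trans ((congrFun (pm_add _ _ _) q).symm.trans
    ((pm_congr_right (h3 _ ⟨(s.maps b').1, show q.2 + _ < _ by linarith [b.2]⟩)).symm.trans
      (pm_comp ((C.S.oe.loc _).mdifferentiableAt ne0) d)))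

theorem gY_e {k : Γ.ι} (e : Γ.cap.1 = k) : gY (C.F Γ.cap e) (uni_s (fd Γ.cap.2)) 1 (mI Λ) = γY C Λ := by
  subst e
  rfl

variable (C hw) in
/-- the last product region -/
def pl (h : w.Rg t w.r) : (mF C.kd Γ.cap).M × ℝ → C.XR w t w.r := C.pL hw h hw.rl

theorem mp_pl (h : w.Rg t w.r) : Mp I31 (𝓡 4) (Prod.snd ⁻¹' II w.r w.r) (C.tm ⁻¹' II t w.r) (pl C hw h) :=
  mp_T (C.pL hw h hw.rl) fun _ b => ⟨b, II_mono h.lt.le le_rfl ((C.pL hw h hw.rl).mem b)⟩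

/-- **the two connections agree on the neck** -/
theorem key (W : WL L R n κ) (h : w.Rg t w.r) {aY : (mF C.kd Γ.cap).M → Ext E3}
    (y1 : (⟨(L.S Γ.cap Λ.x).L.p, aY⟩ : Ln _ _ K3).On (𝓡 3) univ)
    (y2 : (⟨(L.S Γ.cap Λ.x).L.p, aY⟩ : Ln _ _ K3).Fr (𝓡 3) (L.S Γ.cap Λ.x).s (γY C Λ) (L.S Γ.cap Λ.x).D)
    {a₀ : C.X0.M → Ext C.X0.E} {u : C.X0.M → Matrix κ K3 ℂ}
    (H : Mt C.X0.I L.S0.D L.S0.L.p L.S0.s (fun a => W.p (R.kR a)) (fun a => (L.μ 0 a : ℂ) • W.g (R.kR a)) u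
      ((C.cap w.r).τ ⁻¹' Ioi (w.r + 1 / 4))) {α : _ → Ext E3} {A : ℝ → ℝ × ℝ} {c : ℝ → ℝ}
    (hA : ∀ s, (w.r : ℝ) + 1 / 4 < s → A s = mI Λ ∧ c s = 0) {a : C.XR w t w.r → Ext E4}
    (a1 : (⟨fun y => W.p (R.B h y), a⟩ : Ln E4 (C.XR w t w.r) κ).On (𝓡 4) (C.tm ⁻¹' II t w.r))
    (a2 : (⟨fun y => W.p (R.B h y), a⟩ : Ln E4 (C.XR w t w.r) κ).Fr (𝓡 4) (fun y => sg L R n W.g t (R.B h y))
      (pot _ _ 1 α A c) (C.tm ⁻¹' II t w.r ∩ off _ _)) {q : (mF C.kd Γ.cap).M × ℝ} (hq : q.2 ∈ II w.r w.r)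
    (e : th I31 (fun z => L.m0 (sh C w.r z)) q + pm I31 (𝓡 3) Prod.fst aY q =
      pm I31 C.X0.I (C.S.n ∘ sh C w.r) a₀ q) :
    pm I31 (𝓡 4) (pl C hw h) a q = pm I31 C.X0.I (C.S.n ∘ sh C w.r) (a₀ - th C.X0.I u) q := by
  have o := (isOpen_II w.r w.r).preimage (continuous_snd (X := (mF C.kd Γ.cap).M))
  have sf := L.sf Γ.cap Λ.x
  have oe : IsOpenEmbedding (C.S.n ∘ sh C w.r) := C.S.oe.isOpenEmbedding.comp
    ((Homeomorph.refl _).prodCongr (Homeomorph.addRight _)).isOpenEmbedding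
  have o1 := L.ok0.opn.preimage oe.continuous
  have m1 : Mp I31 C.X0.I (M := C.X0.M) (Prod.snd ⁻¹' II w.r w.r) ((C.cap w.r).τ ⁻¹' Ioi (w.r + 1 / 4))
      (C.S.n ∘ sh C w.r) := (mp_k (C.pC w.r) subset_rfl).mono subset_rfl (preimage_mono (hR w))
  have m2 : Mp I31 (𝓡 3) (Prod.snd ⁻¹' II w.r w.r) univ (Prod.fst : (mF C.kd Γ.cap).M × ℝ → _) :=
    ⟨fun _ _ => contMDiffAt_fst, mapsTo_univ _ _⟩
  have cr : ∀ z : (mF C.kd Γ.cap).M × ℝ, z.2 ∈ II w.r w.r → R.B h (pl C hw h z) = R.kR (C.S.n (sh C w.r z)) :=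
    fun z b => R.cR h z.1 z.2 b
  have k1 := (L.hm0.mt (D := C.S.n ⁻¹' L.S0.D ∩ Prod.fst ⁻¹' (L.S Γ.cap Λ.x).D) (s := fun z => L.S0.s (C.S.n z))
    (s' := fun z => (L.S Γ.cap Λ.x).s z.1) (fun _ _ k => L.ok0.fr.iso _ k.1)
    fun _ _ k => sf.ok.fr.iso _ k.2).comp (mp_sh w.r)
  have k2 := (k1.symm fun _ _ k => L.ok0.fr.iso _ k.1).trans ((H.comp m1).mono subset_rfl fun _ k => k.2.1)
  have k3 := Mt.par (L := Ln.pull I31 (𝓡 3) Prod.fst ⟨(L.S Γ.cap Λ.x).L.p, aY⟩)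
    (K := Ln.pull I31 (𝓡 4) (pl C hw h) ⟨fun y => W.p (R.B h y), a⟩) o
    ((L.ok0.dn.preimage oe.isOpenMap).inter_of_isOpen_left (sf.ok.dn.preimage isOpenMap_fst) o1)
    (o1.inter (sf.ok.opn.preimage continuous_fst))
    ⟨k2.toUni.congr_p (fun _ _ => rfl) fun z b => congrArg W.p (cr z b), fun z b d => ?_⟩ (y1.sa.pm m2)
    (a1.sa.pm (mp_pl h)) (y2.pfr ⟨fun _ _ => contMDiffAt_fst, fun _ k => k.2.2⟩)
    ((a2.pfr ⟨fun z k => (mp_pl h).sm z k.1, fun z k => ⟨(mp_pl h).maps k.1,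
      (pt_off L hw h _ _ _ k.1).2 k.2.2⟩⟩).of_eq (fun _ _ => rfl) (fun z k => ?_) (fun _ _ => rfl) fun _ _ => rfl)
  · have k4 := k3.par q hq
    have d := (m1.sm q hq).mdifferentiableAt ne0
    rw [th_trans (k1.sm q hq).ct ((H.comp m1).sm q hq) (k1.iso q hq).symm ((H.comp m1).iso q hq),
      th_ct (k1.sm q hq)] at k4
    rw [pm_sub, Pi.sub_apply, ← e, pm_th (H.sm _ (m1.maps hq)) d]
    exact eq_sub_of_add_eq' (by rw [← show _ = pm I31 (𝓡 3) Prod.fst aY q from k4]; abel)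
  · have := k2.eq z b d
    rw [LCx.μ, Function.comp_apply, C.S.oe.inj.extend_apply, zpow_zero, one_mul, Matrix.mul_smul] at this
    rw [cr z b, sg_one (LCx.nu_lt h.lt (cr z b ▸ (R.B h).tm _ ((mp_pl h).maps b) ▸ (C.pL hw h hw.rl).mem b))]
    exact smul_right_injective _ (Circle.coe_ne_zero _) this
  · have e1 := (congrArg Prod.fst hw.rl).symm.trans (h.kn_l hw h.lt le_rfl)
    have e2 := (Shp.bw_ge h.lt le_rfl).trans (congrArg Prod.snd hw.rl)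
    rw [← gY_e e1]
    exact (pm_pot _ _ one_pos ((sf.flc e1).D.le k.2.2)
      (by rw [sa_fd (e2 ▸ (h.isWd hw).prim w.r : Pr Γ.cap.2), ← e2]; exact h.jr hw k.1) (hA _ k.1.1).1
      (hA _ k.1.1).2).symm

section path

variable (hw) (h : w.Rg t w.r) (h2 : ∀ j, t < j → j ≤ w.r → (w.s j).l.2.2 = 0)
include hw h h2

theorem bz_zero (k : t < j) : (w.bz t w.r j).2 = 0 := by
  rw [h.bz_eq hw, Shp.bw, if_neg k.not_ge]
  exact h2 _ (lt_min k h.lt) (min_le_right _ _)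

theorem nv_le : nv (w.bz t w.r) t w.r ≤ 1 := Finset.card_le_one.2 fun a ha b hb => by
  have k : ∀ c, t + 1 < c → ¬Rod53.Uni (w.bz t w.r (c - 1)) (w.bz t w.r c) := fun c e u => by
    have := u.sq
    simp [Rod53.dt, bz_zero hw h h2 (j := c - 1) (by omega), bz_zero hw h h2 (j := c) (by omega)] at this
  simp only [Finset.mem_filter, Finset.mem_Ioc] at ha hb
  have := mt (k a) (not_not.2 ha.2)
  have := mt (k b) (not_not.2 hb.2)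
  omega

theorem ex_path (hn : n.OK w Λ) (h1 : (w.s t).r.2.2 ≠ 0) : ∃ (s : ℝ) (x y : ℝ × ℝ),
    Adm (w.v t w.r) (ap (t + 1) (mI Λ) x y) ∧ (∀ u, dr (ap (t + 1) (mI Λ) x y u) (w.v t w.r u) = wz w n t w.r u) ∧
    mI Λ + (x + y) = s • ((0, 1) : ℝ × ℝ) ∧ -det2 (mI Λ + y) x - det2 (mI Λ) y =
      Nm96.lq (w.lf (t + 1)) (w.rt (t + 1)) (n.nr t) (n.nl (t + 1)) := by
  have z := fun j => bz_zero (j := j) hw h h2
  have wd := w.isWd_bz t w.r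
  have q : ∀ j, t < j → ((w.bz t w.r j).1 : ℝ) ^ 2 = 1 := fun j k => sq_fst (wd.prim j) (z j k)
  have lo : ∀ j, j ≤ t → w.bz t w.r j = (w.s t).r.2 := fun j k => by rw [h.bz_eq hw, Shp.bw_le k]
  have f : ∀ j, t + 1 ≤ j → (n.bn t w.r j : ℝ) * (w.bz t w.r j).1 =
      n.bn t w.r (t + 1) * (w.bz t w.r (t + 1)).1 := fun j k => by
    induction j, k using Int.leInduction with
    | base => rfl
    | succ j k ih =>
      obtain ⟨η, e, e'⟩ := vch hw hn h (j + 1)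
      rw [add_sub_cancel_right] at e
      rw [← ih, ← e, ← e', dot, dot, z j (by omega), z (j + 1) (by omega)]
      push_cast
      linear_combination (η.1 : ℝ) * q (j + 1) (by omega) - η.1 * q j (by omega)
  have m : (mI Λ).1 = n.bn t w.r (t + 1) * (w.bz t w.r (t + 1)).1 := by
    rw [← f w.r h.lt, bn_ge h.lt le_rfl, hn.sr, h.bz_eq hw, Shp.bw_ge h.lt le_rfl, hw.rl]
    rfl
  have u : Rod53.Uni (w.bz t w.r (t + 1 - 1)) (w.bz t w.r (t + 1)) := (wd.step _).resolve_left fun e => by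
    rw [lo _ (by omega)] at e
    rcases e with e | e <;> simp [e, z] at h1
  have d : (((w.s t).r.2.2 : ℝ) * (w.bz t w.r (t + 1)).1) ^ 2 = 1 := by
    have := u.sq
    rw [lo _ (by omega), Rod53.dt, z _ (lt_add_one t)] at this
    exact_mod_cast (show _ ^ 2 = (1 : ℤ) by linear_combination this)
  have d2 : ((w.s t).r.2.2 : ℝ) ^ 2 = 1 := by
    linear_combination d - ((w.s t).r.2.2 : ℝ) ^ 2 * q _ (lt_add_one t)
  have m2 : (mI Λ).2 = 0 := rfl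
  refine ⟨(w.s t).r.2.2 * n.nr t, (-(mI Λ).1, (w.s t).r.2.2 * (mI Λ).1 * (w.s t).r.2.1),
    (0, (w.s t).r.2.2 * (n.nr t - (mI Λ).1 * (w.s t).r.2.1)), adm_ap (a := w.bz t w.r (t + 1 - 1))
      (b := w.bz t w.r (t + 1)) ?_ (by simp [dr, z]) fun s k => ?_, fun s => ?_, Prod.ext (by simp) (by
        simp [m2]; ring), ?_⟩
  · rw [lo _ (by omega), dr]
    linear_combination (mI Λ).1 * (w.s t).r.2.1 * d2
  · have := @Rod53.Ioo_subset_Jv _ _ u s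
    push_cast at this
    exact this ⟨by linarith [k.1], by linarith [k.2]⟩
  · rw [wz, wm, Shp.v, Rod53.wd]
    split_ifs
    · simp [dr]
    rcases le_or_gt ⌊s⌋ t with k | k
    · have : s < t + 1 := by exact_mod_cast Int.floor_lt.1 (Int.lt_add_one_iff.2 k)
      simp only [lo _ k, bn_le k, ap, vp, s2_zero (show s ≤ t + 1 + 1 / 12 by linarith), dr, Prod.fst_add,
        Prod.snd_add, Prod.smul_fst, Prod.smul_snd, smul_eq_mul, m2]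
      linear_combination ((1 - s1 (t + 1) s) * (mI Λ).1 * (w.s t).r.2.1 + n.nr t - (mI Λ).1 * (w.s t).r.2.1) * d2
    · have : (t : ℝ) + 1 ≤ s := by exact_mod_cast Int.le_floor.1 k
      simp only [ap, vp, s1_one (show t + 1 - 1 / 12 ≤ s by linarith), dr, Prod.fst_add,
        Prod.snd_add, Prod.smul_fst, Prod.smul_snd, smul_eq_mul, z _ k, m, ← f _ k]
      push_cast
      linear_combination (n.bn t w.r ⌊s⌋ : ℝ) * q _ k
  · have e : w.rt (t + 1) = w.bz t w.r (t + 1) := by rw [h.bz_eq hw, Shp.bw_mid (lt_add_one t) h.lt, Shp.rt]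
    have e1 : ((w.bz t w.r (t + 1)).1 : ℝ) ≠ 0 := fun k => by simpa [k] using q _ (lt_add_one t)
    rw [Nm96.lq, Nm96.lb, Nm96.rho, Nm96.rho, Shp.lf, add_sub_cancel_right, if_neg h1, e, if_pos (z _ (lt_add_one t)),
      ← bn_mid (lt_add_one t) h.lt, Rod53.dt, z _ (lt_add_one t)]
    simp only [det2, Prod.fst_add, Prod.snd_add, m, m2]
    push_cast
    field_simp
    linear_combination ((w.bz t w.r (t + 1)).1 * (w.s t).r.2.2 ^ 2 * (w.s t).r.2.1 * (n.bn t w.r (t + 1) : ℝ) ^ 2) *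
      q _ (lt_add_one t)

end path

theorem cap_Ioi (j : ℤ) : (C.cap j).τ ⁻¹' Ioi (j + 1 / 4) = C.S.τ (1 / 4) ⁻¹' Ioi (-(1 / 4)) := Set.ext fun z =>
  ⟨fun (k : _ < C.S.τ _ z + _) => show _ < C.S.τ _ z by linarith,
    fun (k : _ < C.S.τ _ z) => show _ < C.S.τ _ z + _ by linarith⟩

theorem cap_conn (W : WL L R n κ) (h0 : n.mR = 0) (h : w.Rg t w.r) {aY : (mF C.kd Γ.cap).M → Ext E3}
    (y1 : (⟨(L.S Γ.cap Λ.x).L.p, aY⟩ : Ln _ _ K3).On (𝓡 3) univ)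
    (y2 : (⟨(L.S Γ.cap Λ.x).L.p, aY⟩ : Ln _ _ K3).Fr (𝓡 3) (L.S Γ.cap Λ.x).s (γY C Λ) (L.S Γ.cap Λ.x).D)
    {a₀ : C.X0.M → Ext C.X0.E} (c1 : (⟨L.S0.L.p, a₀⟩ : Ln _ _ K3).On C.X0.I (C.S.τ (1 / 4) ⁻¹' Ioi (-(1 / 4))))
    (c2 : ∀ (j : ℤ) q, q.2 ∈ Ioo ((j : ℝ) + 1 / 4) (j + 1 / 2) →
      th I31 (fun z => L.m0 (sh C j z)) q + pm I31 (𝓡 3) Prod.fst aY q = pm I31 C.X0.I (C.S.n ∘ sh C j) a₀ q)
    {α : _ → Ext E3} {A : ℝ → ℝ × ℝ} {c : ℝ → ℝ}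
    (hA : ∀ s, (w.r : ℝ) + 1 / 4 < s → A s = mI Λ ∧ c s = 0) {a : C.XR w t w.r → Ext E4}
    (a1 : (⟨fun y => W.p (R.B h y), a⟩ : Ln E4 (C.XR w t w.r) κ).On (𝓡 4) (C.tm ⁻¹' II t w.r))
    (a2 : (⟨fun y => W.p (R.B h y), a⟩ : Ln E4 (C.XR w t w.r) κ).Fr (𝓡 4) (fun y => sg L R n W.g t (R.B h y))
      (pot _ _ 1 α A c) (C.tm ⁻¹' II t w.r ∩ off _ _)) : ∃ a' : (C.cap w.r).P.M → Ext (C.cap w.r).P.E,
    (⟨fun z => W.p (R.kR z), a'⟩ : Ln _ _ κ).On (C.cap w.r).P.I ((C.cap w.r).τ ⁻¹' Ioi (w.r + 1 / 4)) ∧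
    (∀ z, (C.cap w.r).τ z ∈ Ioi ((w.r : ℝ) + 1 / 4) → Ln.F (C.cap w.r).P.I ⟨fun z => W.p (R.kR z), a'⟩ z =
      Ln.F (M := C.X0.M) C.X0.I ⟨L.S0.L.p, a₀⟩ z) ∧ ∀ q, (C.cy Γ.cap).τ q ∈ Ioo ((w.r : ℝ) + 1 / 4) (w.r + 1 / 2) →
      pm (C.cy Γ.cap).P.I (C.tp w t w.r).P.I (C.pL hw h hw.rl) a q =
        pm (C.cy Γ.cap).P.I (C.cap w.r).P.I (C.pC w.r) a' q := by
  obtain ⟨u, H⟩ := h0 ▸ W.cR
  have o := isOpen_Ioi.preimage (C.S.continuous_τ (T := 1 / 4) (by norm_num)) (t := Ioi (-(1 / 4)))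
  have iu : Iso C.X0.I (⟨L.S0.L.p, a₀⟩ : Ln _ C.X0.M K3) ⟨fun z => W.p (R.kR z), a₀ - th C.X0.I u⟩ u
      (C.S.τ (1 / 4) ⁻¹' Ioi (-(1 / 4))) := ⟨cap_Ioi (C := C) w.r ▸ H.toUni, fun _ _ => add_sub_cancel _ _⟩
  exact ⟨(a₀ - th C.X0.I u :), cap_Ioi (C := C) w.r ▸ iu.on o c1, fun z k => iu.F_eq o c1 ((cap_Ioi w.r).le k),
    fun q k => key W h y1 y2 H hA a1 a2 (half_sub _ k) (c2 _ _ k)⟩

variable (C) in
/-- the energy of the right cap -/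
def eR (G : (Z0 C).P.M → Ext (Z0 C).P.E) : ℝ :=
  integOn (M := (Z0 C).P.M) (Z0 C).P.I (- -C.o0) (G * G) ((Z0 C).τ ⁻¹' Ici (-(1 / 8)))

theorem ex_rep (W : WL L R n κ) (h0 : n.mR = 0) (h : w.Rg t w.r) (h1 : (w.s t).r.2.2 ≠ 0)
    (h2 : ∀ j, t < j → j ≤ w.r → (w.s j).l.2.2 = 0) {aY : (mF C.kd Γ.cap).M → Ext E3}
    (y1 : (⟨(L.S Γ.cap Λ.x).L.p, aY⟩ : Ln _ _ K3).On (𝓡 3) univ)
    (y2 : (⟨(L.S Γ.cap Λ.x).L.p, aY⟩ : Ln _ _ K3).Fr (𝓡 3) (L.S Γ.cap Λ.x).s (γY C Λ) (L.S Γ.cap Λ.x).D)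
    {a₀ : C.X0.M → Ext C.X0.E} (c1 : (⟨L.S0.L.p, a₀⟩ : Ln _ _ K3).On C.X0.I (C.S.τ (1 / 4) ⁻¹' Ioi (-(1 / 4))))
    (c2 : ∀ (j : ℤ) q, q.2 ∈ Ioo ((j : ℝ) + 1 / 4) (j + 1 / 2) →
      th I31 (fun z => L.m0 (sh C j z)) q + pm I31 (𝓡 3) Prod.fst aY q = pm I31 C.X0.I (C.S.n ∘ sh C j) a₀ q) :
    ∃ Φ, Cs X.P.I 2 (X.τ ⁻¹' Ici (t + 5 / 6)) Φ ∧ Ex X.P.I (X.τ ⁻¹' Ioi (t + 1 / 4)) (Fp X.mf W.p - Φ) ∧
      ip X.P.I (-R.O) Φ Φ = (2 * π) ^ 2 * Nm96.lq (w.lf (t + 1)) (w.rt (t + 1)) (n.nr t) (n.nl (t + 1)) +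
        eR C (Ln.F (M := C.X0.M) C.X0.I ⟨L.S0.L.p, a₀⟩) := by
  obtain ⟨s, x, y, p1, p2, p3, p4⟩ := ex_path hw h h2 W.ok h1
  have lt : (t : ℝ) + 1 ≤ w.r := by exact_mod_cast h.lt
  obtain ⟨α, hα⟩ : ∃ α, XA (C.T (w.kn t)) α (0, 1) 3 := ⟨_, by simpa using xa_ang (ang_KD (C.kd (w.kn t))) 3⟩
  obtain ⟨G, hG⟩ := exists_TG (c := fun u => s * (1 - s1 (t + 1) u)) one_pos p1
    (contDiff_const.mul (contDiff_const.sub (cd_s1 _))) hα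
  have hi : ∀ u, (t : ℝ) + 1 + 1 / 6 ≤ u → ap (t + 1) (mI Λ) x y u = mI Λ ∧ s * (1 - s1 (t + 1) u) = 0 :=
    fun u k => ⟨by rw [ap, vp_hi k, add_zero], by rw [s1_one (by linarith), sub_self, mul_zero]⟩
  have g0 : ∀ z, C.tm z < t + 5 / 6 → G z = 0 := fun z k => hG.eq_zero hα (by norm_num) (s := s)
    (eventually_of_mem (Iio_mem_nhds k) fun u (e : u < _) => ⟨by rw [ap, vp_lo (by linarith), p3], by
      rw [s1_zero (by linarith), sub_zero, mul_one]⟩)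
  obtain ⟨a, a1, a2, a3⟩ := hG.exists_conn p2 (op_tm C w t w.r) (W.tl h)
  obtain ⟨a', b1, b5, b6⟩ := cap_conn W h0 h y1 y2 c1 c2 (fun u k => hi u (by linarith)) a1 a2
  have s1 : Ioo ((t : ℝ) + 1 / 4) (w.r + 1 / 2) ⊆ II t w.r := Ioo_subset_Ioo_right (by linarith)
  have o1 := (isOpen_Ioo (a := (t : ℝ) + 1 / 4) (b := w.r + 1 / 2)).preimage X.cont
  have o2 := (isOpen_Ioi (a := (w.r : ℝ) + 1 / 4)).preimage X.cont
  have o3 := (isOpen_Ioi (a := (t : ℝ) + 1 / 4)).preimage X.cont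
  have e : EqOn (psh (R.B h).φ a) (psh R.kR.φ a')
      (X.τ ⁻¹' Ioo (t + 1 / 4) (w.r + 1 / 2) ∩ X.τ ⁻¹' Ioi (w.r + 1 / 4)) := fun z k => by
    have k' : X.τ z ∈ Ioo ((w.r : ℝ) + 1 / 4) (w.r + 1 / 2) := ⟨k.2, k.1.2⟩
    obtain ⟨q, e, rfl⟩ := (nC R.kR (hR w)).surj (half_sub _ k')
    rw [← e] at k'
    have b := half_sub _ k'
    exact pm_inj ((nC R.kR (hR w)).ld b) ((pm_tr (R.B h) (P := C.pL hw h hw.rl) (II_mono h.lt.le le_rfl)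
      (eventually_of_mem (((isOpen_II _ _).preimage (C.cy _).cont).mem_nhds b) fun z b => (R.cR h z.1 z.2 b).symm)
      b).trans ((b6 q k').trans (pm_tr R.kR (P := C.pC w.r) (hR w) EventuallyEq.rfl b).symm))
  have cv : X.τ ⁻¹' Ioo (t + 1 / 4) (w.r + 1 / 2) ∪ X.τ ⁻¹' Ioi (w.r + 1 / 4) = X.τ ⁻¹' Ioi (t + 1 / 4) := by
    rw [← preimage_union, Ioo_union_Ioi (lt_max_of_lt_right (by linarith)), min_eq_left (by linarith)]
  have d1 := dg_psh (R.B h) s1 (a1.dg.mono (preimage_mono s1))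
  have d2 := dg_psh R.kR subset_rfl b1.dg
  obtain ⟨b, b2, b3, b4⟩ : ∃ b, (⟨W.p, b⟩ : Ln _ _ κ).On X.P.I (X.τ ⁻¹' Ioi (t + 1 / 4)) ∧
      EqOn b (psh (R.B h).φ a) (X.τ ⁻¹' Ioo (t + 1 / 4) (w.r + 1 / 2)) ∧
      EqOn b (psh R.kR.φ a') (X.τ ⁻¹' Ioi (w.r + 1 / 4)) :=
    ⟨glue (X.τ ⁻¹' Ioo (t + 1 / 4) (w.r + 1 / 2)) (psh (R.B h).φ a) (psh R.kR.φ a'),
      ⟨fun z _ => W.ln.sm z trivial, fun z _ => W.ln.prj z trivial, fun z _ => W.ln.tr z trivial, cv ▸ sm_glue o1 o2 (sm_psh (R.B h) isOpen_Ioo s1 (a1.sa.mono (preimage_mono s1)))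
        (sm_psh R.kR isOpen_Ioi subset_rfl b1.sa) e, fun z k => (cv.ge k).elim (d1.congr glue_left z)
          (d2.congr (glue_right e) z)⟩, glue_left, glue_right e⟩
  obtain ⟨Φ, f1, f2⟩ : ∃ Φ, EqOn Φ (Ln.F X.P.I ⟨W.p, b⟩) (X.τ ⁻¹' Ioi (t + 1 / 4)) ∧
      ∀ z, X.τ z ≤ t + 1 / 4 → Φ z = 0 :=
    ⟨(X.τ ⁻¹' Ioi (t + 1 / 4)).indicator (Ln.F X.P.I ⟨W.p, b⟩), fun _ k => indicator_of_mem k _, fun _ k => if_neg (not_lt.2 k)⟩
  have f3 : ∀ z : (C.tp w t w.r).P.M, (C.tp w t w.r).τ z ∈ Ioo ((t : ℝ) + 1 / 4) (w.r + 1 / 2) →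
      pm (C.tp w t w.r).P.I X.P.I (R.B h) Φ z = G z := fun z k =>
    (pm_congr_right (f1 ((mp_k (R.B h) s1).maps k).1)).trans ((F_T (R.B h) isOpen_Ioo s1
      (b2.mono (preimage_mono Ioo_subset_Ioi_self)) b3 k).trans (a3 (s1 k)))
  have f4 : ∀ z, X.τ z < t + 5 / 6 → Φ z = 0 := fun z k => (le_or_gt (X.τ z) (t + 1 / 4)).elim (f2 z) fun k' => by
    have m : X.τ z ∈ Ioo ((t : ℝ) + 1 / 4) (w.r + 1 / 2) := ⟨k', by linarith⟩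
    obtain ⟨q, e, rfl⟩ := (R.B h).surj (s1 m)
    rw [← e] at m k
    exact pm_inj (b := 0) ((R.B h).ld (s1 m)) ((f3 q m).trans ((g0 q k).trans (congrFun (pm_zero _) q).symm))
  have := R.cpt
  have cs : Cs X.P.I 2 (X.τ ⁻¹' Ici (t + 5 / 6)) Φ :=
    ⟨cl_of_loc fun z _ => (lt_or_ge (X.τ z) (t + 5 / 6)).elim
      (fun k => ⟨X.τ ⁻¹' Iio _, k, Cl.zero.congr (isOpen_Iio.preimage X.cont) f4⟩)
      fun k => ⟨_, show _ < X.τ z by linarith, (b2.cl_F o3).congr o3 f1⟩, .of_compactSpace _,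
      closure_minimal (fun z k => not_lt.1 (mt (f4 z) k)) (isClosed_Ici.preimage X.cont)⟩
  refine ⟨Φ, cs, (Uni.ex_F (L' := ⟨W.p, 0⟩) o3 (Iso.refl o3 b2).toUni b2 (W.ln.mono (subset_univ _))).congr fun z k => by
    rw [Pi.sub_apply, Pi.sub_apply, f1 k], ?_⟩
  have io := cs.intOn R.O_spec.ori.neg (cs.on _).sm
  have s2 : Ioo ((t : ℝ) + 1 / 4) (w.r + 3 / 8) ⊆ Ioo (t + 1 / 4) (w.r + 1 / 2) := Ioo_subset_Ioo_right (by linarith)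
  have s3 : Ici ((w.r : ℝ) + 3 / 8) ⊆ Ioi (w.r + 1 / 4) := Ici_subset_Ioi.2 (by linarith)
  letI : MeasurableSpace E4 := borel _
  haveI : BorelSpace E4 := ⟨rfl⟩
  letI : MeasurableSpace (C.XR w t w.r) := borel _
  haveI : BorelSpace (C.XR w t w.r) := ⟨rfl⟩
  haveI : SecondCountableTopology (C.XR w t w.r) := (C.tp w t w.r).sc
  have kK := (C.T (w.kn t)).isCompact_time (isCompact_Icc (a := (t : ℝ) + 5 / 6) (b := t + 1 + 1 / 6))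
    fun u _ => w.loc t w.r u
  have z := fun p (k : p ∈ off _ _) (k' : p ∉ C.tm ⁻¹' Icc ((t : ℝ) + 5 / 6) (t + 1 + 1 / 6)) =>
    (not_and_or.1 k').elim (fun e => (congrArg (_ * ·) (g0 p (not_le.1 e))).trans (mul_zero _))
    fun e => late hG k (eventually_of_mem (Ioi_mem_nhds (not_le.1 e)) fun u (e : _ < u) => hi u e.le)
  have en := energy (C.ok_spec rfl) (Orx52.pos_τ _ _) hG kK z
  rw [ip, integ_eq_integOn (s := X.τ ⁻¹' Ioo (t + 1 / 4) (w.r + 3 / 8) ∪ X.τ ⁻¹' Ici (w.r + 3 / 8)) fun z k => ?_,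
    integOn_union (Disjoint.preimage _ (disjoint_left.2 fun _ a b => a.2.not_ge b))
      (X.cont.measurable measurableSet_Ici) (io.mono (subset_univ _)) (io.mono (subset_univ _)),
    integOn_T (R.B h) (R.O_spec.B h) C.ori_ok R.O_spec.ori measurableSet_Ioo (s2.trans s1) fun z k => f3 z (s2 k),
    integOn_T R.kR R.O_spec.kR C.ori.neg R.O_spec.ori measurableSet_Ici s3
      (e := Ln.F (M := C.X0.M) C.X0.I ⟨L.S0.L.p, a₀⟩) fun z k =>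
      (pm_congr_right (f1 (cv.le (.inr ((mp_k R.kR subset_rfl).maps (s3 k)))))).trans ((F_T R.kR isOpen_Ioi subset_rfl
        (b2.mono (cv ▸ subset_union_right)) b4 (s3 k)).trans (b5 z (s3 k)))]
  · congr 1
    · rw [integral_ap, p4] at en
      refine (integOn_neg_ori _ _ _).trans (neg_eq_iff_eq_neg.2 ((integ_eq_integOn fun p k => ?_).symm.trans en))
      exact (congrArg _ (sq_zero hG kK.isClosed z fun e => k ⟨lt_of_lt_of_le (by linarith) e.1,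
        lt_of_le_of_lt e.2 (by linarith)⟩)).trans (map_zero _)
    · exact congrArg _ (Set.ext fun z => ⟨fun (k : _ ≤ C.S.τ _ z + _) => show _ ≤ C.S.τ _ z by linarith,
        fun (k : _ ≤ C.S.τ _ z) => show _ ≤ C.S.τ _ z + _ by linarith⟩)
  · rw [← preimage_union, Ioo_union_Ici_eq_Ioi (by linarith)] at k
    rw [Pi.mul_apply, f2 z (not_lt.1 k), mul_zero, map_zero]

/-! ### Betti numbers -/

theorem bd_side {Z : Mf 4} {U V : Set Z.M} {k a b : ℕ} (hU : IsOpen U) (hV : IsOpen V) (h1 : Bd Z.I k (U ∪ V) a)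
    (h2 : Bd Z.I k (U ∩ V) b) : Bd Z.I k U (a + b) :=
  have := Int54.sigmaCompact (I := Z.I) Z.M
  let ⟨_, hχ⟩ := exists_cut (I := Z.I) hU hV
  Rk.of_ker (res subset_union_left) (res inter_subset_left)
    (fun _ e => (mv_mid hU hV hχ (z := 0) (e.trans (map_zero _).symm)).imp fun _ => And.left) h1 h2

variable (C) in
theorem bd_Y (τ : Γ.ι × Z2) : ∃ b, Bd (𝓡 3) 1 (univ : Set (mF C.kd τ).M) b := by
  letI : MeasurableSpace ((mF C.kd τ).M × Circle) := borel _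
  haveI : BorelSpace ((mF C.kd τ).M × Circle) := ⟨rfl⟩
  letI : MeasurableSpace (E3 × EuclideanSpace ℝ (Fin 1)) := borel _
  haveI : BorelSpace (E3 × EuclideanSpace ℝ (Fin 1)) := ⟨rfl⟩
  obtain ⟨N, F, hF⟩ := Met55.exists_fr (I := (𝓡 3).prod (𝓡 1)) (M := (mF C.kd τ).M × Circle)
  have := (Num57.ok_ov (by simp) hF (Orx52.ori_pr (Orx52.ori_oF _ _) Orx52.ori_oC)).fin1
  rw [← univ_prod_univ] at this
  exact ⟨_, Bd.of_prod_left (J := 𝓡 1) (S := (univ : Set Circle)) isOpen_univ univ_nonempty (bd_of_finrank le_rfl)⟩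

variable (C) in
theorem bd_V : ∃ m, Bd C.X0.I 2 (C.S.τ (1 / 4) ⁻¹' Ioi (-(1 / 4))) m := by
  borelize C.X0.M C.X0.E
  obtain ⟨n, e, d, k⟩ := Num57.exists_lat C.X0.dim C.ori isOpen_univ isCompact_univ
  have c := (nk0 C).cont
  refine ⟨_, bd_side (V := C.S.τ (1 / 4) ⁻¹' Iio (1 / 4)) (b := 1) (isOpen_Ioi.preimage c) (isOpen_Iio.preimage c)
    (by rw [← preimage_union, union_comm, Iio_union_Ioi_of_lt (by norm_num)]; exact k.bd) ?_⟩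
  rw [← preimage_inter, Ioi_inter_Iio, ← (nk0 C).tgt, ← (n0 C).toPartialEquiv.image_source_eq_target,
    bd_pd _ (n0 C).open_source subset_rfl, (nk0 C).src, ← univ_prod]
  exact (Cab39.bd_fill _ _).prod_convex isOpen_univ isOpen_Ioo (convex_Ioo _ _)

theorem bd_T {V V' : Type} [NormedAddCommGroup V] [NormedSpace ℝ V] [FiniteDimensional ℝ V] [NormedAddCommGroup V']
    [NormedSpace ℝ V'] [FiniteDimensional ℝ V'] {Z : TP V} {X : TP V'} {J A : Set ℝ} (k : TIso Z X J) (hA : IsOpen A)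
    (s : A ⊆ J) {i m : ℕ} (h : Bd Z.P.I i (Z.τ ⁻¹' A) m) : Bd X.P.I i (X.τ ⁻¹' A) m :=
  k.image_preimage s ▸ (bd_pd k.φ (hA.preimage Z.cont) ((preimage_mono s).trans k.src.ge)).2 h

theorem bd_cyl {τ : Γ.ι × Z2} {i m : ℕ} (h : Bd (𝓡 3) i (univ : Set (mF C.kd τ).M) m) (a b : ℝ) :
    Bd (C.cy τ).P.I i ((C.cy τ).τ ⁻¹' Ioo a b) m := by
  have := h.prod_convex isOpen_univ isOpen_Ioo (convex_Ioo a b)
  rwa [univ_prod] at this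

theorem bd_cap (h : w.Rg t w.r) (h1 : (w.s t).r.2.2 ≠ 0) (h2 : ∀ j, t < j → j ≤ w.r → (w.s j).l.2.2 = 0) {b m : ℕ}
    (hb : Bd (𝓡 3) 1 (univ : Set (mF C.kd Γ.cap).M) b) (hm : Bd C.X0.I 2 (C.S.τ (1 / 4) ⁻¹' Ioi (-(1 / 4))) m)
    (R : Rz C hw X) {s : ℝ} (hs : s ∈ II t t) : Bd X.P.I 2 (X.τ ⁻¹' Ioi s) (b + (1 + m)) := by
  have lt : (t : ℝ) + 1 ≤ w.r := by exact_mod_cast h.lt
  have d := Rob53.dr_of (Orx52.ori_oS (C.kd (w.s t).r.1).toTube) (hz_sphere (d := 3) (k := 0) (by norm_num))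
    (hz_sphere (d := 3) (k := 1) (by norm_num)) (ang_KD (C.kd (w.s t).r.1)) one_ne_zero
  have : SigmaCompactSpace (Rod53.X (C.T (w.kn t)) (Rod53.wd (w.bz t w.r))) :=
    Int54.sigmaCompact (I := (C.tp w t w.r).P.I) (C.tp w t w.r).P.M
  have k := (hd_time (T := C.T (w.kn t)) (w.isWd_bz t w.r) hs.2 (show _ ≤ (w.r : ℝ) + 3 / 4 by linarith)).bd2
    (bd_T (C.pR hw h rfl) isOpen_Ioo (Ioo_subset_Ioo_left hs.1.le) (bd_cyl (bd_zero.2 (d.fill2 (C.F _ rfl) (uni_s _)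
      (by rw [sa_fd (hw.pr t h.lo (h.lt.trans_le h.hi).le).2]; simpa [dot] using h1))) _ _))
  have c : ∀ j : ℤ, ⌈(j : ℝ) + 3 / 4⌉ - 1 = j := fun j =>
    sub_eq_of_eq_add (Int.ceil_eq_iff.2 ⟨by push_cast; linarith, by push_cast; linarith⟩)
  rw [c, c] at k
  have := Int54.sigmaCompact (I := X.P.I) X.P.M
  have u := Bd.union (isOpen_Ioo.preimage X.cont) (isOpen_Ioi.preimage X.cont)
    (bd_T (R.B h) isOpen_Ioo (Ioo_subset_Ioo_left hs.1.le) (k.mono (nv_le hw h h2)))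
    (bd_T R.kR isOpen_Ioi subset_rfl (cap_Ioi (C := C) w.r ▸ hm)) (r := b) (by
      rw [← preimage_inter, inter_comm, Ioi_inter_Ioo, max_eq_left (by linarith [hs.2])]
      exact bd_T (nC R.kR (hR w)) isOpen_Ioo subset_rfl (bd_cyl hb _ _))
  rwa [← preimage_union, Ioo_union_Ioi (lt_max_of_lt_right (by linarith)), min_eq_left (by linarith [hs.2])] at u

variable (L) in
/-- the numbers of terminal slabs -/
def CapR (lR : ℝ) (C0 : ℕ) : Prop := ∀ {w : Shp Γ} {hw : w.OK} {X : TP V4} (R : Rz C hw X) {n : Wt} {κ : Type}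
  [Fintype κ] (W : WL L R n κ) {t : ℤ}, w.Rg t w.r → (w.s t).r.2.2 ≠ 0 →
  (∀ j, t < j → j ≤ w.r → (w.s j).l.2.2 = 0) → (∀ s ∈ II t t, Bd X.P.I 2 (X.τ ⁻¹' Ioi s) C0) ∧
    ∃ Φ, Cs X.P.I 2 (X.τ ⁻¹' Ici (t + 5 / 6)) Φ ∧
      Ex X.P.I (X.τ ⁻¹' Ioi (t + 1 / 4)) (Ln.F X.P.I ⟨W.p, 0⟩ - Φ) ∧ ip X.P.I (-R.O) Φ Φ = (2 * π) ^ 2 *
        (lR + Nm96.lq (w.lf (t + 1)) (w.rt (t + 1)) (n.nr t) (n.nl (t + 1)) - 2 * n.mR * dgL L)

variable (L) in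
/-- **the terminal slab** -/
theorem capR (hc : Γ.cap.2.2 = 0) : ∃ lR C0, CapR L lR C0 := by
  by_cases hp : Pr Γ.cap.2
  swap
  · exact ⟨0, 0, fun {w hw} => (hp (hw.rl ▸ (hw.pr w.r hw.lt.le le_rfl).1)).elim⟩
  obtain ⟨aY, y1, y2⟩ := ex_aY L hp hc
  obtain ⟨a₀, c1, c2⟩ := ex_cap L y1
  obtain ⟨b, hb⟩ := bd_Y C Γ.cap
  obtain ⟨m, hm⟩ := bd_V C
  refine ⟨eR C (Ln.F (M := C.X0.M) C.X0.I ⟨L.S0.L.p, a₀⟩) / (2 * π) ^ 2, _, fun {w hw X} R {n κ _} W {t} h h1 h2 =>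
    ⟨fun _ => bd_cap h h1 h2 hb hm R, ?_⟩⟩
  obtain ⟨W₀⟩ := exists_WL L R (n := { n with mR := 0 }) ⟨W.ok.sl, W.ok.sr, W.ok.rod, W.ok.jn, W.ok.eq, W.ok.neg⟩
  obtain ⟨Φ, f1, f2, f3⟩ := ex_rep W₀ rfl h h1 h2 y1 y2 c1 c2
  have lt : (t : ℝ) + 1 ≤ w.r := by exact_mod_cast h.lt
  have hab : (w.r : ℝ) + 5 / 16 < w.r + 7 / 16 := by linarith
  have s : Icc ((w.r : ℝ) + 5 / 16) (w.r + 7 / 16) ⊆ II w.r w.r := Icc_subset_Ioo (by linarith) (by linarith)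
  have p := (cs_Ph (L := L) (k := R.kR) (hR w) hab s).mono (L := X.τ ⁻¹' Ici (t + 5 / 6))
    (preimage_mono fun _ k => le_trans (by linarith) k.1)
  have o := R.O_spec.ori.neg
  have q := ip_Ph (hR w) hab s W₀.cR W₀.ln R.O_spec.ori R.O_spec.kR
  rw [(p.mono (preimage_mono (Ici_subset_Ioi.2 (by linarith)))).ip_coh o
    ((W₀.ln.cl_F isOpen_univ).sm.mono (subset_univ _)) (f1.on _).sm f2] at q
  have g := f1.add (p.smul (-(n.mR : ℝ)))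
  refine ⟨_, g, (((twR W₀ (m := n.mR) W hab s).mono (subset_univ _)).add f2).congr fun z _ => ?_, ?_⟩
  · simp only [Pi.sub_apply, Pi.add_apply, Pi.smul_apply, zero_sub, Int.cast_neg]
    abel
  · rw [g.ip_add o (f1.on _).sm ((p.smul _).on _).sm, ip_add_right f1 (p.smul _) o (f1.on _).sm,
      ip_add_right f1 (p.smul _) o ((p.smul _).on _).sm, ip_smul, ip_smul, ip_smul_right, ip_smul_right, ip_Ph_Ph,
      ip_comm p.cl.dg, q, f3]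
    field_simp
    ring

end Crest.Agent.X212.Cap57
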