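import Crest.Agent.X212.Map77.Cls
import Crest.Agent.X212.Wz78.Int
import Crest.Agent.X212.Cht98.Br

/-!
X212 / NUM (helper57): the operator `α ↦ (div α, (d α)⁺)` on one-forms, in the format `An.Op`.
-/

set_option autoImplicit false
set_option linter.unusedSectionVars false
noncomputable section
open scoped Manifold ContDiff Topology InnerProductSpace
open MeasureTheory Finset

namespace Crest.Agent.X212.Num57
open An Sob92 Ell97 Map77 Wz78

section pt
variable {ι : Type} [Fintype ι] {P : ι → ι → ℝ} {o : ι → ι → ι → ι → ℝ}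

/-- one-forms -/
abbrev V1 (ι : Type) : Type := Fm ι ℝ
/-- two-forms -/
abbrev V2 (ι : Type) : Type := Fm (ι × ι) ℝ
/-- functions and two-forms -/
abbrev W2 (ι : Type) : Type := P2 ℝ (V2 ι)

/-- the projector onto one-forms -/
def p1 (P : ι → ι → ℝ) : V1 ι →L[ℝ] V1 ι := idx P (ContinuousLinearMap.id ℝ ℝ)
/-- the projector onto self-dual forms -/
def sd (P : ι → ι → ℝ) (o : ι → ι → ι → ι → ℝ) : V2 ι →L[ℝ] V2 ι :=
  idx (sdm P o) (ContinuousLinearMap.id ℝ ℝ)
/-- the symbol -/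
def hσ (P : ι → ι → ℝ) (o : ι → ι → ι → ι → ℝ) (a : ι) : V1 ι →L[ℝ] W2 ι :=
  pr2 (∑ b, P a b • pj ℝ b) ((sd P o).comp (wd2 ℝ P a))

theorem p1_apply (v : V1 ι) (a : ι) : p1 P v a = ∑ b, P a b * v b := idx_apply _ _ _ _

theorem f2_hσ (a : ι) (v : V1 ι) : f2 ℝ (V2 ι) (hσ P o a v) = p1 P v a := by
  simp [hσ, p1_apply]

theorem s2_hσ (a : ι) (v : V1 ι) : s2 ℝ (V2 ι) (hσ P o a v) = sd P o (wd2 ℝ P a v) := by
  simp [hσ]

theorem p1_idem (h : Pr P) (v : V1 ι) : p1 P (p1 P v) = p1 P v :=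
  idx_idem h.idem (fun _ => rfl) v

theorem p1_symm (h : Pr P) (v w : V1 ι) : ⟪p1 P v, w⟫_ℝ = ⟪v, p1 P w⟫_ℝ :=
  idx_symm h.symm (fun _ _ => rfl) v w

variable (h : Vol P o)
include h

theorem sd_SD (v : V2 ι) : SD P o (sd P o v) := h.sd_idx _ v

theorem sd_idem (v : V2 ι) : sd P o (sd P o v) = sd P o v :=
  idx_idem h.sdm_idem (fun _ => rfl) v

theorem sd_symm (v w : V2 ι) : ⟪sd P o v, w⟫_ℝ = ⟪v, sd P o w⟫_ℝ :=
  idx_symm h.sdm_symm (fun _ _ => rfl) v w

omit h in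
theorem sd_fix {v : V2 ι} (hv : SD P o v) : sd P o v = v :=
  fm_ext fun s => by rw [sd, idx_apply]; exact hv.fix s

/-- the transpose of the symbol -/
theorem inner_hσ (a : ι) (v : V1 ι) (w : W2 ι) : ⟪hσ P o a v, w⟫_ℝ
    = ∑ c, v c * (P a c * f2 ℝ (V2 ι) w + 2 * sd P o (s2 ℝ (V2 ι) w) (a, c)) := by
  rw [inner2, f2_hσ, s2_hσ, sd_symm h, inner_wd2 h.pr (sd_SD h _), p1_apply]
  simp only [RCLike.inner_apply, conj_trivial, mul_add, sum_add_distrib, mul_sum]
  congr 1 <;> exact sum_congr rfl fun c _ => by ring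

theorem tr_hσ (a : ι) (w : W2 ι) (c : ι) : Op.tr (hσ P o a) w c
    = P a c * f2 ℝ (V2 ι) w + 2 * sd P o (s2 ℝ (V2 ι) w) (a, c) := by
  have : Op.tr (hσ P o a) w = WithLp.toLp 2 fun c =>
      P a c * f2 ℝ (V2 ι) w + 2 * sd P o (s2 ℝ (V2 ι) w) (a, c) :=
    ext_inner_left ℝ fun v => by
      rw [inner_tr, inner_hσ h, inner_fm]
      exact sum_congr rfl fun c _ => by simp [mul_comm]
  rw [this]

theorem hσ_p1 (a : ι) (v : V1 ι) : hσ P o a (p1 P v) = hσ P o a v := by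
  refine ext_inner_right ℝ fun w => ?_
  rw [← inner_tr (hσ P o a), ← inner_tr (hσ P o a), p1_symm h.pr]
  congr 1
  refine fm_ext fun c => ?_
  simp only [p1_apply, tr_hσ h, mul_add, sum_add_distrib]
  have e := (sd_SD h (s2 ℝ (V2 ι) w)).pr' a c
  simp only [smul_eq_mul] at e
  rw [← e, ← h.pr.idem a c, sum_mul, mul_sum]
  congr 1 <;> exact sum_congr rfl fun k _ => by rw [h.pr.symm c]; try ring

theorem P_hσ (a : ι) : ∑ b, P a b • hσ P o b = hσ P o a := by
  ext1 v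
  refine ext_inner_right ℝ fun w => ?_
  simp only [_root_.sum_apply, _root_.smul_apply, sum_inner, real_inner_smul_left, inner_hσ h,
    mul_sum]
  rw [sum_comm]
  refine sum_congr rfl fun c _ => ?_
  have e := (sd_SD h (s2 ℝ (V2 ι) w)).pr a c
  simp only [smul_eq_mul] at e
  rw [← e, ← h.pr.idem a c, sum_mul, mul_sum, ← sum_add_distrib, mul_sum]
  exact sum_congr rfl fun k _ => by ring

theorem cliff_hσ (a b : ι) (v w : V1 ι) : ⟪hσ P o a v, hσ P o b w⟫_ℝ + ⟪hσ P o b v, hσ P o a w⟫_ℝ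
    = 2 * P a b * ⟪p1 P v, w⟫_ℝ := by
  have hβ : ∀ a, ∑ k, P a k • p1 P w k = p1 P w a := fun a => by
    have := congrArg (fun u : V1 ι => u a) (p1_idem h.pr w)
    simpa only [p1_apply, smul_eq_mul] using this
  have k : ∀ a b, ⟪hσ P o a v, hσ P o b w⟫_ℝ = p1 P v a * p1 P w b + P a b * ⟪v, p1 P w⟫_ℝ
      - p1 P v b * p1 P w a + ∑ c, ∑ d, o a c b d * (v c * p1 P w d) := fun a b => by
    rw [← hσ_p1 h b w, inner_hσ h, f2_hσ, s2_hσ, sd_idem h, p1_idem h.pr]
    have e := fun c => h.sd_wd2 (T := ContinuousLinearMap.id ℝ ℝ) (fun _ => rfl) hβ b a c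
    simp only [smul_eq_mul] at e
    simp only [sd, e, p1_apply (v := v), inner_fm, RCLike.inner_apply, conj_trivial, mul_add,
      mul_sub, sum_add_distrib, sum_sub_distrib, mul_sum, sum_mul, h.pr.symm b]
    have e1 : ∑ c, v c * (P a c * p1 P w b) = ∑ c, P a c * v c * p1 P w b :=
      sum_congr rfl fun c _ => by ring
    have e2 : ∑ c, v c * (P a b * p1 P w c) = ∑ c, P a b * (p1 P w c * v c) :=
      sum_congr rfl fun c _ => by ring
    have e3 : ∑ c, v c * (P c b * p1 P w a) = ∑ c, P c b * v c * p1 P w a :=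
      sum_congr rfl fun c _ => by ring
    have e4 : ∑ c, ∑ d, v c * (o a c b d * p1 P w d) = ∑ c, ∑ d, o a c b d * (v c * p1 P w d) :=
      sum_congr rfl fun c _ => sum_congr rfl fun d _ => by ring
    rw [e1, e2, e3, e4]; ring
  have e : ∑ c, ∑ d, o b c a d * (v c * p1 P w d) = -∑ c, ∑ d, o a c b d * (v c * p1 P w d) := by
    simp only [← sum_neg_distrib]
    exact sum_congr rfl fun c _ => sum_congr rfl fun d _ => by
      rw [h.a1 b c, h.a2 c b, h.a1 c a]; ring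
  rw [k, k, e, p1_symm h.pr, h.pr.symm b a]; ring

theorem cliff_tr (a b : ι) (v w : W2 ι) :
    ⟪Op.tr (hσ P o a) v, Op.tr (hσ P o b) w⟫_ℝ + ⟪Op.tr (hσ P o b) v, Op.tr (hσ P o a) w⟫_ℝ
      = 2 * P a b * ⟪sm2 (ContinuousLinearMap.id ℝ ℝ) (sd P o) v, w⟫_ℝ := by
  have hv := sd_SD h (s2 ℝ (V2 ι) v)
  have hw := sd_SD h (s2 ℝ (V2 ι) w)
  have q := h.quat hv hw a b
  rw [← inner_fm, sd_symm h, sd_idem h, ← sd_symm h] at q
  have k : ∀ a b, ⟪Op.tr (hσ P o a) v, Op.tr (hσ P o b) w⟫_ℝ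
      = P a b * (f2 ℝ (V2 ι) v * f2 ℝ (V2 ι) w)
        + 2 * f2 ℝ (V2 ι) v * sd P o (s2 ℝ (V2 ι) w) (b, a)
        + 2 * f2 ℝ (V2 ι) w * sd P o (s2 ℝ (V2 ι) v) (a, b)
        + 4 * ∑ c, ⟪sd P o (s2 ℝ (V2 ι) v) (a, c), sd P o (s2 ℝ (V2 ι) w) (b, c)⟫_ℝ := fun a b => by
    have e1 := hw.pr' b a
    have e2 := hv.pr' a b
    simp only [smul_eq_mul] at e1 e2
    rw [inner_fm, ← e1, ← e2, ← h.pr.idem a b]
    simp only [tr_hσ h, RCLike.inner_apply, conj_trivial, mul_sum, sum_mul, ← sum_add_distrib]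
    exact sum_congr rfl fun c _ => by rw [h.pr.symm c b]; ring
  rw [k, k, inner2, f2_sm2, s2_sm2, hv.anti b a, hw.anti b a, h.pr.symm b a]
  simp only [RCLike.inner_apply, conj_trivial, ContinuousLinearMap.id_apply] at q ⊢
  linear_combination 4 * q

end pt

variable {E : Type} [NormedAddCommGroup E] [NormedSpace ℝ E] [FiniteDimensional ℝ E]
  [MeasurableSpace E] [BorelSpace E]
  {HM : Type} [TopologicalSpace HM] {I : ModelWithCorners ℝ E HM}
  {M : Type} [TopologicalSpace M] [ChartedSpace HM M] [IsManifold I ∞ M]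
  [MeasurableSpace M] {ι : Type} [Fintype ι] (F : Fr I M ι) (o : ι → ι → ι → ι → M → ℝ)

/-- a Riemannian frame on a four-manifold with the components of a unit volume form -/
structure OK : Prop where
  h4 : Module.finrank ℝ E = 4
  isv : F.IsVol
  sm : ∀ a b c d, An.Sm I (o a b c d)
  vo : ∀ x, Vol (fun a b => F.P a b x) fun a b c d => o a b c d x

/-- the projector onto one-forms -/
def hp (x : M) : V1 ι →L[ℝ] V1 ι := p1 fun a b => F.P a b x
/-- the projector onto self-dual forms -/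
def hs (x : M) : V2 ι →L[ℝ] V2 ι := sd (fun a b => F.P a b x) fun a b c d => o a b c d x

/-- **the operator** `α ↦ (div α, (d α)⁺)` -/
def hop : Op M ι (V1 ι) (W2 ι) where
  p := hp F
  q := ps (triv M ℝ) (hs F o)
  σ a x := hσ (fun a b => F.P a b x) (fun a b c d => o a b c d x) a
  B x := pr2 (∑ a, F.dv a x • pj ℝ a)
    ((hs F o x).comp (tp fun s => -∑ k, F.c s.1 s.2 k x • pj ℝ k))

variable {F o}

theorem OK.neg (h : OK F o) : OK F fun a b c d x => -o a b c d x :=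
  ⟨h.h4, h.isv, fun a b c d => (h.sm a b c d).neg, fun x =>
    ⟨(h.vo x).pr, (h.vo x).tr, fun a b c d => by rw [(h.vo x).a1], fun a b c d => by
      rw [(h.vo x).a2], fun a b c d => by rw [(h.vo x).a3], fun a b c d => by
      simp only [mul_neg, sum_neg_distrib, (h.vo x).po], by simpa using (h.vo x).nm⟩⟩

theorem OK.of_base {lam : Type} [Fintype lam] {B : Base M ι lam} {G : Geo I M ι lam}
    (h4 : Module.finrank ℝ E = 4) (hB : B.OK I) (hG : G.OK B) : OK G.F B.o :=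
  ⟨h4, hG.vol, hB.so, fun x => by
    rw [hG.P]
    exact ⟨hB.pr x, hB.rk x, fun a b c d => hB.o12 a b c d x, fun a b c d => hB.o23 a b c d x,
      fun a b c d => hB.o34 a b c d x, fun a b c d => hB.oP a b c d x, hB.onm x⟩⟩

theorem OK.alg (h : OK F o) : Alg F.P (hop F o) where
  p := ⟨fun x => p1_idem (h.vo x).pr, fun x => p1_symm (h.vo x).pr⟩
  q := Prj.ps ⟨fun _ _ => rfl, fun _ _ _ => rfl⟩ ⟨fun x => sd_idem (h.vo x), fun x => sd_symm (h.vo x)⟩
  σp a x := hσ_p1 (h.vo x) a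
  qσ a x v := ext2 (by simp [hop]) (by simp [hop, hs, s2_hσ, sd_idem (h.vo x)])
  qB x v := ext2 (by simp [hop]) (by simp [hop, hs, sd_idem (h.vo x)])
  Pσ a x := P_hσ (h.vo x) a

theorem OK.cliff (h : OK F o) : (hop F o).Cliff F :=
  ⟨fun a b x => cliff_hσ (h.vo x) a b, fun a b x v w => by
    simp only [Op.adj, _root_.neg_apply, inner_neg_neg]
    exact cliff_tr (h.vo x) a b v w⟩

theorem OK.good [I.Boundaryless] [T2Space M] [BorelSpace M] [CompactSpace M] (h : OK F o) :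
    ∃ C, F.Tame C ∧ (hop F o).Good F C := by
  obtain ⟨C, hC⟩ := Cht98.exists_tame F h.h4.le
  let K := cb (fun _ : Unit => F.toPre) Set.univ
  have e : ∀ {f : M → ℝ}, An.Sm I f → K.mem fun _ => f := fun hf _ _ => Cb_of_compact hf
  have hP := fun a b => e (F.P_sm a b)
  have hs' : K.mem fun _ => hs F o := Cls.idx (fun s t => by
    simp only [sdm, div_eq_mul_inv]
    exact Cls.mul (K.add (Cls.mul (Cls.sub (Cls.mul (hP _ _) (hP _ _)) (Cls.mul (hP _ _) (hP _ _)))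
      (K.const _)) (Cls.mul (e (h.sm _ _ _ _)) (K.const _))) (K.const _)) (K.const _)
  refine good_of hC ((Cls.idx (K := K) hP (K.const _)) () trivial)
    ((Cls.ps (K.const _) hs') () trivial) (fun a => (Cls.pr2 (K := K)
      (Cls.sum fun b => Cls.smul (hP a b) (K.const _)) (Cls.comp hs' (Cls.tp fun s =>
        Cls.sub (Cls.smul (hP _ _) (K.const _)) (Cls.smul (hP _ _) (K.const _))))) () trivial)
    ((Cls.pr2 (K := K) (Cls.sum fun a => Cls.smul (e (F.dv_sm a)) (K.const _)) (Cls.comp hs'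
      (Cls.tp fun s => Cls.neg (Cls.sum fun k => Cls.smul (e (F.c_sm _ _ k)) (K.const _)))))
      () trivial) h.alg

theorem P_D {N : Type} [NormedAddCommGroup N] [NormedSpace ℝ N] (F : Fr I M ι) (u : M → N) (a : ι)
    (x : M) : ∑ b, F.P a b x • F.D b u x = F.D a u x := by
  simp only [Pre.D_def, Sob92.dv]
  rw [← F.P_e a x, map_sum]
  simp only [map_smul]
  rfl

theorem D_comp {u : M → V1 ι} (hu : An.Sm I u) (a b : ι) (x : M) :
    F.D a u x b = F.D a (fun y => u y b) x := (dv_clm (pj ℝ b) (md hu x)).symm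

theorem f2_app {u : M → V1 ι} (hu : An.Sm I u) (x : M) :
    f2 ℝ (V2 ι) ((hop F o).app F u x) = dvg I F.e F.dv (fun a y => u y a) x := by
  simp only [Op.app, Pre.op, map_add, map_sum, hop, f2_hσ, f2_pr2, p1_apply, dvg, sum_add_distrib,
    _root_.sum_apply, _root_.smul_apply, pj_apply, smul_eq_mul, D_comp hu]
  congr 1
  rw [sum_comm]
  refine sum_congr rfl fun b _ => ?_
  simp only [fun a => F.P_symm a b]
  exact P_D F (fun y => u y b) b x

theorem s2_app {u : M → V1 ι} (hu : An.Sm I u) (x : M) :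
    s2 ℝ (V2 ι) ((hop F o).app F u x) = hs F o x (WithLp.toLp 2 fun s =>
      F.D s.1 (fun y => u y s.2) x - F.D s.2 (fun y => u y s.1) x
        - ∑ k, F.c s.1 s.2 k x * u x k) := by
  simp only [Op.app, Pre.op, map_add, map_sum, hop, s2_hσ, s2_pr2, ContinuousLinearMap.comp_apply]
  rw [hs, ← map_sum, ← map_add]
  congr 1
  refine fm_ext fun s => ?_
  simp only [PiLp.add_apply, WithLp.ofLp_sum, Finset.sum_apply, wd2_apply, tp_apply,
    _root_.neg_apply, _root_.sum_apply, _root_.smul_apply, pj_apply, D_comp hu, sum_sub_distrib, P_D,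
    smul_eq_mul (F.c _ _ _ _)]
  rfl

end Crest.Agent.X212.Num57
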