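import Crest.Agent.X212.Num57.L2
import Crest.Agent.X212.Tmp64.Ode

/-!
# X212 / Num57, part LCyl (helper57): `L²` bounds on a cylinder

* `l2_iso` : transport;  `l2_time` : integrals in time;  `ex_tmp` : the weighted temporal gauge.
-/

set_option autoImplicit false
set_option linter.unusedSectionVars false

open Set MeasureTheory Filter Function
open scoped ContDiff ENNReal NNReal Manifold Topology

noncomputable section

namespace Crest.Agent.X212.Rad57
open An Sw Sob92 Wz78 Cyf70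
open Loc74 (L2)
open M (Mf)

variable {α : Type} {l : Filter α}

theorem l2_cut {M : Type} [MeasurableSpace M] {μ : Measure M} {K S : Set M} {f : α → M → ℝ} {ρ : M → ℝ}
    (h : L2 μ l K f) (hK : MeasurableSet K) (hS : MeasurableSet S) {C : ℝ} (hC : ∀ x ∈ S, ‖ρ x‖ ≤ C)
    (s : ∀ x ∈ S, ρ x ≠ 0 → x ∈ K) : L2 μ l S fun i x => ρ x * f i x := by
  refine l2_mono (l2_union (l2_le (l2_mono h inter_subset_right) (hS.inter hK) C (.of_forall fun i x hx => ?_))
    (l2_null (hS.diff hK) (.of_forall fun i x hx => ?_))) (inter_union_sdiff S K).ge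
  · rw [norm_mul]; exact mul_le_mul_of_nonneg_right (hC x hx.1) (norm_nonneg _)
  · rw [of_not_not fun k => hx.2 (s x hx.1 k), zero_mul]

section iso
variable {X X' : Mf 4} {ι N : Type} [Fintype ι] [NormedAddCommGroup N] {F : Pre X'.I X'.M ι} {F' : Pre X.I X.M ι}
  {φ : OpenPartialHomeomorph X'.M X.M} (h : Iso F F' φ) {S : Set X'.M} (hS : IsOpen S) (hs : S ⊆ φ.source)
  {f : α → X.M → N}
include h hS hs

theorem l2_iso (k : L2 F.μ l S fun i x => f i (φ x)) : L2 F'.μ l (φ '' S) f := by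
  have aem : AEMeasurable φ (F.μ.restrict φ.source) :=
    φ.continuousOn.aemeasurable φ.open_source.measurableSet
  have hO := (φ.isOpen_image_of_subset_source hS hs).measurableSet
  have e : F'.μ.restrict (φ '' S) = (F.μ.restrict S).map φ := by
    rw [← inter_eq_left.2 (image_subset_iff.2 fun x hx => φ.map_source (hs hx) : φ '' S ⊆ φ.target),
      ← Measure.restrict_restrict hO, ← h.μ, Measure.restrict_map_of_aemeasurable aem hO,
      Measure.restrict_restrict' φ.open_source.measurableSet, φ.injOn.preimage_image_inter hs]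
  exact k.imp fun B hB => hB.mono fun i hi => e ▸ (lintegral_map_le _ _).trans hi

theorem l2_iso' (k : L2 F'.μ l (φ '' S) f) : L2 F.μ l S fun i x => f i (φ x) := by
  have o := φ.isOpen_image_of_subset_source hS hs
  have t : φ '' S ⊆ φ.target := image_subset_iff.2 fun x hx => φ.map_source (hs hx)
  exact l2_mono (l2_iso (iso_symm h) o t (l2_congr k o.measurableSet (.of_forall fun i x hx => by
    rw [φ.right_inv (t hx)]))) fun x hx => ⟨_, ⟨x, hx, rfl⟩, φ.left_inv (hs hx)⟩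

end iso

theorem cs_lint {β : Type} [MeasurableSpace β] (ν : Measure β) {f : β → ℝ≥0∞} (hf : Measurable f) :
    (∫⁻ t, f t ∂ν) ^ 2 ≤ (∫⁻ t, f t ^ 2 ∂ν) * ν univ := by
  have h := ENNReal.lintegral_mul_le_Lp_mul_Lq ν Real.HolderConjugate.two_two hf.aemeasurable
    (aemeasurable_const (b := (1 : ℝ≥0∞)))
  simp only [Pi.mul_apply, mul_one, lintegral_const, ENNReal.rpow_ofNat, one_pow, one_mul] at h
  refine (pow_le_pow_left' h 2).trans_eq ?_
  rw [mul_pow, ← ENNReal.rpow_natCast, ← ENNReal.rpow_natCast, ← ENNReal.rpow_mul, ← ENNReal.rpow_mul]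
  norm_num

theorem l2_time {Y : Type} [MeasurableSpace Y] {μ : Measure Y} [SFinite μ] {W : Set ℝ} (hW : MeasurableSet W)
    (h1 : volume W ≠ ⊤) (oc : W.OrdConnected) {t₀ : ℝ} (h0 : t₀ ∈ W) {g : α → Y × ℝ → ℝ}
    (m : ∀ i, Measurable (g i)) (h : L2 (μ.prod volume) l (univ ×ˢ W) g) :
    L2 (μ.prod volume) l (univ ×ˢ W) fun i z => ∫ τ in t₀..z.2, g i (z.1, τ) := by
  obtain ⟨B, hB⟩ := h
  lift volume W to ℝ≥0 using h1 with w hw
  refine ⟨B * w * w, hB.mono fun i hi => ?_⟩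
  have m1 : Measurable fun z => ‖g i z‖ₑ ^ 2 := (m i).enorm.pow_const 2
  have m2 : Measurable fun y => (∫⁻ τ in W, ‖g i (y, τ)‖ₑ ^ 2) * w := m1.lintegral_prod_right'.mul_const _
  refine (setLIntegral_mono' (MeasurableSet.univ.prod hW)
    (g := fun z => (∫⁻ τ in W, ‖g i (z.1, τ)‖ₑ ^ 2) * w) fun z hz => ?_).trans ?_
  · refine le_trans (pow_le_pow_left' ?_ 2) ((cs_lint (volume.restrict W)
      ((m i).enorm.comp measurable_prodMk_left)).trans_eq (by rw [Measure.restrict_apply_univ, hw]; rfl))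
    rw [← ofReal_norm, intervalIntegral.norm_intervalIntegral_eq, ofReal_norm]
    exact (enorm_integral_le_lintegral_enorm _).trans
      (lintegral_mono_set (uIoc_subset_uIcc.trans (oc.uIcc_subset h0 hz.2)))
  rw [← Measure.prod_restrict, lintegral_prod _ m1.aemeasurable] at hi
  rw [← Measure.prod_restrict, lintegral_prod _ (m2.fun_comp measurable_fst).aemeasurable]
  simp only [lintegral_const, Measure.restrict_apply_univ, ← hw]
  rw [lintegral_mul_const' _ _ ENNReal.coe_ne_top, lintegral_mul_const' _ _ ENNReal.coe_ne_top]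
  push_cast
  gcongr

variable {Y : Mf 3} [CompactSpace Y.M] {ι : Type} [Fintype ι] (F : Pre Y.I Y.M ι)

theorem ex_prim {f : Y.M × ℝ → ℝ} (hf : Sm (IC Y.I) f) (t₀ : ℝ) : ∃ χ : Y.M × ℝ → ℝ, Sm (IC Y.I) χ ∧
    (∀ y, χ (y, t₀) = 0) ∧ (cylP F).D none χ = f := by
  let L := (ContinuousLinearMap.inl ℝ ℝ ℝ).comp (ContinuousLinearMap.snd ℝ ℝ ℝ)
  obtain ⟨g, g1, g2, g3⟩ := Tmp64.exists_sol (I := Y.I) (A := fun x => f x • L) (hf.smul contMDiff_const) t₀
    (x0 := fun _ => (0, 1)) contMDiff_const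
  have s : Sm (IC Y.I) fun x => (g x).1 := (ContinuousLinearMap.fst ℝ ℝ ℝ).contMDiff.comp g1
  refine ⟨_, s, fun y => by rw [g2], funext fun x => (hasDerivAt_slice F s x.1 x.2).unique ?_⟩
  have := Tmp64.const_of_deriv (f := fun s => (g (x.1, s)).2) (fun t =>
    ((ContinuousLinearMap.snd ℝ ℝ ℝ).hasFDerivAt.comp_hasDerivAt t (g3 x.1 t)).congr_deriv (by simp [L])) x.2 t₀
  rw [g2] at this
  exact ((ContinuousLinearMap.fst ℝ ℝ ℝ).hasFDerivAt.comp_hasDerivAt x.2 (g3 x.1 x.2)).congr_deriv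
    (by simp [L, this])

/-- the temporal gauge with a weight -/
theorem ex_tmp {η : ℝ → ℝ} (hη : ContDiff ℝ ∞ η) {t₀ : ℝ} (h0 : η t₀ = 0) {b : Option ι → Y.M × ℝ → ℝ}
    (hb : ∀ k, Sm (IC Y.I) (b k)) : ∃ χ : Y.M × ℝ → ℝ, Sm (IC Y.I) χ ∧
      (∀ z, (∀ τ ∈ uIcc t₀ z.2, η τ = 0) → χ z = 0) ∧ ∀ k z, b k z - (cylP F).D k χ z = (1 - η z.2) * b k z +
        k.elim 0 fun k => ∫ τ in t₀..z.2, (η τ * ((cylP F).D none (b (some k)) (z.1, τ) -
          (cylP F).D (some k) (b none) (z.1, τ)) + deriv η τ * b (some k) (z.1, τ)) := by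
  have s := fun k => (sm_snd (I := Y.I) hη).mul (hb k)
  obtain ⟨χ, c1, c2, c3⟩ := ex_prim F (s none) t₀
  have ft : ∀ {q : Y.M × ℝ → ℝ}, Sm (IC Y.I) q → ∀ z : Y.M × ℝ,
      ∫ τ in t₀..z.2, (cylP F).D none q (z.1, τ) = q z - q (z.1, t₀) := fun hq z =>
    intervalIntegral.integral_eq_sub_of_hasDerivAt (fun τ _ => hasDerivAt_slice F hq z.1 τ)
      ((sm_slice_snd ((cylP F).sm_D hq none) z.1).continuous.intervalIntegrable _ _)
  refine ⟨χ, c1, fun z hz => ?_, fun k z => ?_⟩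
  · have := ft c1 z
    rw [c2, c3, intervalIntegral.integral_congr (g := fun _ => 0) fun τ hτ => by simp [hz τ hτ]] at this
    simpa using this.symm
  obtain _ | k := k
  · simp only [c3, Option.elim, Pi.mul_apply]; ring
  have q := ft ((s (some k)).sub ((cylP F).sm_D c1 (some k))) z
  have z0 : (cylP F).D (some k) χ (z.1, t₀) = 0 := by
    rw [D_some F c1, funext c2, Pre.D_def, dv_const]; rfl
  simp only [Pi.mul_apply, h0, z0] at q
  rw [Option.elim, intervalIntegral.integral_congr (g := _) fun τ _ => ?_, q]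
  · ring
  have e : ∀ j k, (cylP F).D j ((fun x => η x.2) * b k) (z.1, τ) = (cylP F).D j (fun x => η x.2) (z.1, τ) *
      b k (z.1, τ) + η τ * (cylP F).D j (b k) (z.1, τ) := fun j k => dv_mul (sm_snd hη _) (hb k _)
  refine .symm ((dv_sub' (s _ _) ((cylP F).sm_D c1 _ _)).trans ?_)
  rw [← Pre.D_def, ← Pre.D_def, D_comm F c1, c3, e, e, D_none_snd F hη, D_some_snd F hη]
  simp only [Pi.zero_apply]
  ring

end Crest.Agent.X212.Rad57
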