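import Crest.Agent.X212.Num57.Cech
import Crest.Agent.X212.Num57.LCyl

/-!
# X212 / Num57, part LEnd (helper57): LOC-END

* `Gd` : open sets with a good gauge;  `Gd.ext` : extension over an end;  `gau : GauStmt`.
-/

set_option autoImplicit false
set_option linter.unusedSectionVars false

open Set MeasureTheory Filter Function
open scoped ContDiff ENNReal NNReal Manifold Topology

noncomputable section

namespace Crest.Agent.X212.Rad57
open An Sw Sob92 Wz78 Cyf70
open Loc74 (L2 Frm)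
open Lw78 (da)
open Cyl58 (om gau_exp gau_mul sm_om d1_om)
open M (Mf pm pm_mul_pm abs_pm)
open Real (smoothTransition)

variable {κ lam ν : Type} [Fintype κ] [Fintype lam] [Fintype ν] [DecidableEq ν] {X : Mf 4} {nc : ℕ}
  {α : Type} {l : Filter α}

theorem om_congr {ι : Type} [Fintype ι] (F : Fr X.I X.M ι) {u v : X.M → ℂ} {x : X.M} (h : u =ᶠ[𝓝 x] v) (k : ι) :
    om F u k x = om F v k x := by rw [om, om, h.self_of_nhds, Pre.D_def, dv_congr h, Pre.D_def]

/-- a good gauge over `U` -/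
def Gd {ι : Type} [Fintype ι] (F : Fr X.I X.M ι) (l : Filter α) (a : α → ι → X.M → ℝ) (U : Set X.M) : Prop :=
  IsOpen U ∧ ∃ u : α → X.M → ℂ, (∀ i, GauOn X.I (u i) U) ∧
    ∀ C, IsCompact C → C ⊆ U → ∀ k, L2 F.μ l C fun i x => a i k x - om F (u i) k x

theorem ex_σ (m : ℝ) : ∃ σ : ℝ → ℝ, ContDiff ℝ ∞ σ ∧ (∀ t, |σ t - m| ≤ 3) ∧ ∀ t, |t - m| ≤ 2 → σ t = t := by
  let β : ContDiffBump m := ⟨2, 3, two_pos, by norm_num⟩
  refine ⟨fun t => m + β t * (t - m), contDiff_const.add (β.contDiff.mul (by fun_prop)), fun t => ?_,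
    fun t h => by simp only [β.one_of_mem_closedBall h]; ring⟩
  rw [add_sub_cancel_left, abs_mul, abs_of_nonneg β.nonneg]
  rcases le_total 3 |t - m| with h | h
  · rw [β.zero_of_le_dist h]; norm_num
  · exact (mul_le_of_le_one_left (abs_nonneg _) β.le_one).trans h

theorem cpt_t (s : Bool) (p q : ℝ) : IsCompact {t | pm s * t ∈ Icc p q} := by
  refine (isCompact_Icc (a := -(|p| + |q|)) (b := |p| + |q|)).of_isClosed_subset
    (isClosed_Icc.preimage (by fun_prop)) fun t ht => abs_le.1 ?_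
  rw [← one_mul |t|, ← abs_pm s, ← abs_mul]
  exact (abs_le_max_abs_abs ht.1 ht.2).trans (max_le_add_of_nonneg (abs_nonneg _) (abs_nonneg _))

variable {e : En3 κ lam ν} {b : Bg X.I X.M κ lam ν nc} (K : Nk e b) (s : Bool) {T : ℝ}
  (hT : ∀ t, T ≤ pm s * t → t ∈ K.J)
include hT

theorem tgt_of {x : X.M} (h : T ≤ pm s * K.tm x) : x ∈ K.ψ.target := K.tgt ▸ hT _ h

theorem cpt_slab {p q : ℝ} (h : T ≤ p) : IsCompact (K.ψ '' univ ×ˢ {t | pm s * t ∈ Icc p q}) :=
  (isCompact_univ.prod (cpt_t s p q)).image_of_continuousOn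
    (K.ψ.continuousOn.mono fun _ hz => K.mem_src.2 (hT _ (h.trans hz.2.1)))

/-- extension over an end -/
theorem Gd.ext {a : α → Option κ → X.M → ℝ} (ha : ∀ i, Frm b.F (a i))
    (hd : ∀ C, IsCompact C → L2 b.F.μ l C fun i => da b.F (a i)) {U : Set X.M} (h : Gd b.F l a U)
    (hs : ∀ x, pm s * K.tm x ∈ Icc T (T + 6) → x ∈ U) : Gd b.F l a (U ∪ {x | T < pm s * K.tm x}) := by
  obtain ⟨hU, u, hu, h2⟩ := h
  have cd : Continuous fun x => pm s * K.tm x := continuous_const.mul K.cont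
  have ct : Continuous fun z : e.Y.M × ℝ => pm s * z.2 := by fun_prop
  have src : ∀ z : e.Y.M × ℝ, T ≤ pm s * z.2 → z ∈ K.ψ.source := fun z h => K.mem_src.2 (hT _ h)
  have ab : ∀ t r, |t - pm s * r| = |pm s * t - r| := fun t r => by
    rw [← one_mul |t - _|, ← abs_pm s, ← abs_mul, mul_sub, ← mul_assoc, pm_mul_pm, one_mul]
  obtain ⟨σ, σ1, σ2, σ3⟩ := ex_σ (pm s * (T + 3))
  simp only [ab, abs_le] at σ2 σ3
  have σ4 := fun z : e.Y.M × ℝ => src (z.1, σ z.2) (by linarith [(σ2 z.2).1])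
  have hv : ∀ i, Gau (IC e.Y.I) fun z : e.Y.M × ℝ => u i (K.ψ (z.1, σ z.2)) := fun i =>
    have m : ∀ z : e.Y.M × ℝ, K.ψ (z.1, σ z.2) ∈ U := fun z => hs _ (by
      rw [K.tm_ψ _ (σ4 z)]; constructor <;> linarith [σ2 z.2])
    ⟨fun z => ((hu i).1.contMDiffAt (hU.mem_nhds (m z))).comp z ((iso_smAt K.iso (σ4 z)).comp z
      (f := fun z : e.Y.M × ℝ => (z.1, σ z.2)) (contMDiff_fst.prodMk (sm_snd σ1) z)), fun z => (hu i).2 _ (m z)⟩
  have st : ∀ r, ContDiff ℝ ∞ fun t => smoothTransition (pm s * t - r) := fun r =>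
    smoothTransition.contDiff.comp (by fun_prop)
  let c : α → Option κ → e.Y.M × ℝ → ℝ := fun i k z => smoothTransition (pm s * z.2 - T) * a i k (K.ψ z) -
    om e.D.Z (fun z => u i (K.ψ (z.1, σ z.2))) k z
  have hc : ∀ i k, Sm (IC e.Y.I) (c i k) := fun i k => ContMDiff.sub (fun z => by
    by_cases h : T ≤ pm s * z.2
    · exact SA.mul (sm_snd (st T) z) (Pb50.sa_ψ K (src z h) ((ha i).sm k _))
    · exact contMDiffAt_const.congr_of_eventuallyEq ((ct.continuousAt.eventually_lt continuousAt_const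
        (not_le.1 h)).mono fun y hy => mul_eq_zero_of_left (smoothTransition.zero_of_nonpos (sub_nonpos.2 hy.le)) _))
    (sm_om _ (hv i) k)
  choose χ x1 x2 x3 using fun i => ex_tmp e.D.F.toPre (st (T + 2)) (t₀ := pm s * (T + 2))
    (by rw [← mul_assoc, pm_mul_pm, one_mul, sub_self, smoothTransition.zero]) (hc i)
  have hw := fun i => gau_mul e.D.Z (hv i) (gau_exp e.D.Z (x1 i)).1
  let w : α → X.M → ℂ := fun i x => if T + 1 < pm s * K.tm x then
    (fun z => u i (K.ψ (z.1, σ z.2)) * Complex.exp (χ i z • Complex.I)) (K.ψ.symm x) else u i x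
  have oc : ∀ {S : Set ℝ}, S.OrdConnected → OrdConnected {t | pm s * t ∈ S} := fun h => by
    cases s
    exacts [h.preimage_anti (f := fun t => pm false * t) fun _ _ _ => by simpa [pm],
      h.preimage_mono (f := fun t => pm true * t) fun _ _ _ => by simpa [pm]]
  have t0 : pm s * (pm s * (T + 2)) = T + 2 := by rw [← mul_assoc, pm_mul_pm, one_mul]
  have A : ∀ i x, pm s * K.tm x < T + 2 → w i =ᶠ[𝓝 x] u i := fun i x hx =>
    (cd.continuousAt.eventually_lt continuousAt_const hx).mono fun y hy => ite_eq_right_iff.2 fun h => by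
      have k := tgt_of K s hT (x := y) (by linarith)
      have k2 := K.snd_symm k
      simp only
      rw [σ3 _ (by rw [k2]; constructor <;> linarith), K.ψ.right_inv k, x2 i _ fun τ hτ =>
        smoothTransition.zero_of_nonpos (sub_nonpos.2 ((oc ordConnected_Iic).uIcc_subset t0.le
          (k2.symm ▸ hy.le) hτ))]
      simp
  have B : ∀ i x, T + 1 < pm s * K.tm x → w i =ᶠ[𝓝 x] fun x =>
      (fun z => u i (K.ψ (z.1, σ z.2)) * Complex.exp (χ i z • Complex.I)) (K.ψ.symm x) := fun i x hx =>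
    (continuousAt_const.eventually_lt cd.continuousAt hx).mono fun y hy => if_pos hy
  have mU : ∀ x ∈ U ∪ {x | T < pm s * K.tm x}, pm s * K.tm x < T + 2 → x ∈ U := fun x hx h =>
    hx.elim id fun k => hs x ⟨le_of_lt k, by linarith⟩
  refine ⟨hU.union (isOpen_lt continuous_const cd), w, fun i => ⟨fun x hx => ContMDiffAt.contMDiffWithinAt ?_,
    fun x hx => ?_⟩, fun C hC hCU k => ?_⟩
  · rcases lt_or_ge (pm s * K.tm x) (T + 2) with h | h
    · exact ((hu i).1.contMDiffAt (hU.mem_nhds (mU x hx h))).congr_of_eventuallyEq (A i x h)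
    · exact (K.rel'.sm (tgt_of K s hT (by linarith)) ((hw i).1.1 _)).congr_of_eventuallyEq (B i x (by linarith))
  · rcases lt_or_ge (pm s * K.tm x) (T + 2) with h | h
    · rw [(A i x h).self_of_nhds]; exact (hu i).2 x (mU x hx h)
    · rw [(B i x (by linarith)).self_of_nhds]; exact (hw i).1.2 _
  have c1 := hC.inter_right (isClosed_le cd (continuous_const (y := T + 3 / 2)))
  obtain ⟨R, hR⟩ := hC.exists_bound_of_continuousOn cd.continuousOn
  have op : ∀ p q, IsOpen ((univ : Set e.Y.M) ×ˢ {t | pm s * t ∈ Ioo p q}) := fun p q =>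
    isOpen_univ.prod (isOpen_Ioo.preimage (by fun_prop))
  have sb : ∀ q, (univ : Set e.Y.M) ×ˢ {t | pm s * t ∈ Ioo (T + 1) q} ⊆ K.ψ.source := fun q z hz =>
    src z (by linarith [hz.2.1])
  have sc : ∀ q, K.ψ '' (univ : Set e.Y.M) ×ˢ {t | pm s * t ∈ Ioo (T + 1) q} ⊆
      K.ψ '' univ ×ˢ {t | pm s * t ∈ Icc (T + 1) q} := fun q =>
    image_mono (prod_mono_right fun t ht => Ioo_subset_Icc_self ht)
  have cs := fun q => cpt_slab K s hT (q := q) (le_add_of_nonneg_right zero_le_one)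
  obtain ⟨q, hq, hRq⟩ : ∃ q, T + 2 < q ∧ R < q := ⟨max (T + 2) R + 1, by linarith [le_max_left (T + 2) R],
    by linarith [le_max_right (T + 2) R]⟩
  refine l2_mono (l2_union (l2_congr (h2 _ c1 (fun x hx => mU x (hCU hx.1) (by linarith [hx.2.out])) k)
    c1.measurableSet (.of_forall fun i x hx => by rw [om_congr _ (A i x (by linarith [hx.2.out]))]))
    (l2_iso (X' := e.Z) K.iso (op (T + 1) q) (sb q) ?_)) fun x hx =>
    (le_or_gt (pm s * K.tm x) (T + 3 / 2)).imp (fun h => ⟨hx, h⟩) fun h => ?_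
  swap
  · have k := tgt_of K s hT (x := x) (by linarith)
    exact ⟨_, ⟨trivial, by
      rw [mem_ofPred, K.snd_symm k]; exact ⟨by linarith, ((le_abs_self _).trans (hR x hx)).trans_lt hRq⟩⟩,
      K.ψ.right_inv k⟩
  have mW := (op (T + 1) q).measurableSet
  have one : ∀ z : e.Y.M × ℝ, T + 1 < pm s * z.2 → ∀ᶠ y : e.Y.M × ℝ in 𝓝 z,
      smoothTransition (pm s * y.2 - T) = 1 := fun z hz =>
    (continuousAt_const.eventually_lt ct.continuousAt hz).mono fun y hy =>
      smoothTransition.one_of_one_le (by linarith)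
  have oψ : ∀ (v : X.M → ℂ) k, ∀ z ∈ K.ψ.source, om b.F v k (K.ψ z) = om e.D.Z (fun y => v (K.ψ y)) k z :=
    fun v k z hz => by rw [om, Pb50.D_ψ K hz]; rfl
  have l1 : ∀ k, L2 e.D.Z.μ l (univ ×ˢ {t | pm s * t ∈ Ioo (T + 1) (T + 4)}) fun i => c i k := fun k =>
    l2_congr (l2_iso' (X' := e.Z) K.iso (op _ _) (sb _) (l2_mono (h2 _ (cs _) (by
      rintro _ ⟨z, hz, rfl⟩
      exact hs _ (by
        rw [K.tm_ψ _ (src z (by linarith [hz.2.1]))]; constructor <;> linarith [hz.2.1, hz.2.2])) k) (sc _)))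
      (op _ _).measurableSet (.of_forall fun i z hz => by
        simp only [c]
        rw [(one z hz.2.1).self_of_nhds, one_mul, oψ _ _ _ (sb _ hz), om_congr (X := e.Z) _
          (eventually_of_mem ((op _ _).mem_nhds hz) fun y hy => by
            rw [σ3 _ ⟨by linarith [hy.2.1], by linarith [hy.2.2]⟩])])
  have far : ∀ t, T + 4 ≤ pm s * t → ∀ᶠ y in 𝓝 t, smoothTransition (pm s * y - (T + 2)) = 1 := fun t h =>
    (continuousAt_const.eventually_lt (g := fun y => pm s * y) (by fun_prop)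
      (show T + 3 < pm s * t by linarith)).mono fun y hy => smoothTransition.one_of_one_le (by linarith)
  have l2 : ∀ k, L2 e.D.Z.μ l (univ ×ˢ {t | pm s * t ∈ Ioo (T + 1) q})
      fun i z => (1 - smoothTransition (pm s * z.2 - (T + 2))) * c i k z := fun k =>
    l2_cut (l1 k) (op _ _).measurableSet mW (C := 1) (fun z _ => abs_le.2
      ⟨by linarith [smoothTransition.le_one (pm s * z.2 - (T + 2))],
        by linarith [smoothTransition.nonneg (pm s * z.2 - (T + 2))]⟩)
      fun z hz h => ⟨trivial, hz.2.1, not_le.1 fun k => h (by rw [(far _ k).self_of_nhds, sub_self])⟩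
  refine l2_congr (f := fun i z => c i k z - e.D.Z.D k (χ i) z) (l2_congr (l2_add (l2 k) ?_
    fun i => (continuous_const.sub ((st _).continuous.comp continuous_snd)).mul (hc i k).continuous) mW
    (.of_forall fun i z _ => x3 i k z)) mW (.of_forall fun i z hz => ?_)
  swap
  · have k := sb q hz
    rw [oψ _ _ _ k, om_congr (X := e.Z) _ (v := fun z => u i (K.ψ (z.1, σ z.2)) * Complex.exp (χ i z • Complex.I))
      (eventually_of_mem ((op _ _).mem_nhds hz) fun y hy => by
        simp only [w]; rw [K.tm_ψ _ (sb q hy), if_pos hy.2.1, K.ψ.left_inv (sb q hy)]),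
      (hw i).2, (gau_exp e.D.Z (x1 i)).2]
    simp only [c]
    rw [(one z hz.2.1).self_of_nhds]
    ring
  obtain _ | k := k
  · exact l2_null mW (.of_forall fun _ _ _ => rfl)
  obtain ⟨D, hD⟩ := ((st (T + 2)).continuous_deriv (by simp)).bounded_above_of_compact_support
    (.intro (cpt_t s (T + 1) (T + 4)) fun t ht => by
      rcases not_and_or.1 ht with h | h
      · rw [EventuallyEq.deriv_eq (f := fun _ => 0) ((ContinuousAt.eventually_lt (f := fun y => pm s * y)
          (by fun_prop) continuousAt_const (not_le.1 h)).mono fun y hy =>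
            smoothTransition.zero_of_nonpos (by linarith)), deriv_const]
      · rw [EventuallyEq.deriv_eq (far _ (not_le.1 h).le), deriv_const])
  have sD := fun i j k => (e.D.Z.sm_D (hc i k) j).continuous
  have cη := (st (T + 2)).continuous.comp (continuous_snd (X := e.Y.M))
  refine l2_time (μ := e.D.F.μ) (W := {t | pm s * t ∈ Ioo (T + 1) q}) (g := fun i z => smoothTransition (pm s * z.2 - (T + 2)) * (e.D.Z.D none (c i (some k)) z -
    e.D.Z.D (some k) (c i none) z) + deriv (fun t => smoothTransition (pm s * t - (T + 2))) z.2 * c i (some k) z)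
    (isOpen_Ioo.preimage (by fun_prop)).measurableSet ((cpt_t s (T + 1) q).measure_lt_top.trans_le'
      (measure_mono fun _ h => ⟨h.1.le, h.2.le⟩)).ne (oc ordConnected_Ioo) ⟨by linarith, by linarith⟩
    (fun i => ((cη.mul ((sD i _ _).sub (sD i _ _))).add ((((st _).continuous_deriv (by simp)).comp
      continuous_snd).mul (hc i _).continuous)).measurable) (l2_add (l2_le (l2_iso' (X' := e.Z) K.iso (op _ _) (sb q)
        (l2_mono (hd _ (cs q)) (sc q))) mW 1 (.of_forall fun i z hz => ?_)) (l2_cut (l1 _) (op _ _).measurableSet mW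
          (fun z _ => hD _) fun z hz h => ⟨trivial, hz.2.1, not_le.1 fun k => h (by
            rw [EventuallyEq.deriv_eq (far _ k), deriv_const])⟩) fun i => cη.mul ((sD i _ _).sub (sD i _ _)))
  have k1 := sb q hz
  have k2 : ∀ j k, e.D.Z.D j (c i k) z = b.F.D j (a i k) (K.ψ z) -
      e.D.Z.D j (om e.D.Z (fun z => u i (K.ψ (z.1, σ z.2))) k) z := fun j k => by
    rw [Pb50.D_ψ K k1, Pre.D_def, Pre.D_def, Pre.D_def,
      ← dv_sub' (Pb50.sa_ψ K k1 ((ha i).sm k _)) (sm_om _ (hv i) k z)]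
    exact dv_congr ((one z hz.2.1).mono fun y hy => by simp only [c, hy, one_mul])
  have k3 := d1_om e.D.Z (hv i) none (some k) z
  have k4 : e.D.Z.D none (c i (some k)) z - e.D.Z.D (some k) (c i none) z = da b.F (a i) (K.ψ z) (none, some k) := by
    have c0 : ∀ j, e.D.Z.c none (some k) j z = 0 := fun _ => rfl
    simp only [d1, c0, zero_smul, Finset.sum_const_zero, ← Pre.D_def] at k3
    simp only [k2, da, ← K.rel.c k1, c0, zero_mul, Finset.sum_const_zero]
    linarith
  rw [k4, norm_mul]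
  exact mul_le_mul (abs_le.2 ⟨by linarith [smoothTransition.nonneg (pm s * z.2 - (T + 2))],
    smoothTransition.le_one _⟩) (PiLp.norm_apply_le _ _) (norm_nonneg _) zero_le_one

omit hT in
/-- **LOC-END** -/
theorem gau : Loc74.GauStmt κ lam ν := by
  intro X nc N _ e P hP α 𝒰 a ha hd
  classical
  have : ∀ p : N × Bool, ∃ T : ℝ, ∀ K ∈ P.nk p.1, K.Inf p.2 → ∀ t, T ≤ pm p.2 * t → t ∈ K.J := fun ⟨i, s⟩ => by
    cases P.nk i with
    | none => simp
    | some K =>
      refine ⟨|K.p.getD 0| + |K.q.getD 0| + 1, fun K' hK h t ht => ?_⟩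
      obtain rfl := Option.some.inj hK
      have h1 := abs_nonneg (K.p.getD 0)
      have h2 := abs_nonneg (K.q.getD 0)
      cases s <;> simp only [Nk.Inf, pm, if_true, Bool.false_eq_true, if_false] at h ht <;>
        refine ⟨fun a ha => ?_, fun a ha => ?_⟩ <;> rw [Option.mem_def] at ha
      · simp [ha] at h
      · rw [ha, Option.getD_some] at ht; linarith [neg_abs_le a]
      · rw [ha, Option.getD_some] at ht; linarith [le_abs_self a]
      · simp [ha] at h
  choose T₀ h₀ using this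
  obtain ⟨T, T0, hT⟩ : ∃ T, 0 ≤ T ∧ ∀ p, T₀ p ≤ T := ⟨∑ p, |T₀ p|, by positivity, fun p => (le_abs_self _).trans
    (Finset.single_le_sum (f := fun p => |T₀ p|) (fun _ _ => abs_nonneg _) (Finset.mem_univ p))⟩
  replace h₀ := fun p K hK h t ht => h₀ p K hK h t ((hT p).trans ht)
  obtain ⟨O, o1, o2, u, u1, u2⟩ := cech X _ P.bg.F _ (hP.cpt (T + 6)) α 𝒰 a ha hd
  have : ∀ S : Finset (N × Bool), ∃ U, Gd P.bg.F 𝒰 a U ∧ O ⊆ U ∧
      ∀ p ∈ S, ∀ K ∈ P.nk p.1, K.Inf p.2 → ∀ x, T < pm p.2 * K.tm x → x ∈ U := fun S => by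
    induction S using Finset.induction_on with
    | empty => exact ⟨O, ⟨o1, fun i => if GauOn X.I (u i) O then u i else fun _ => 1, fun i => by
        beta_reduce
        split_ifs with h
        exacts [h, ⟨contMDiffOn_const, fun _ _ => norm_one⟩], fun C hC k j => l2_congr (l2_mono (u2 j) k)
          hC.measurableSet (u1.mono fun i hi x _ => by simp only [if_pos hi])⟩, subset_rfl, by simp⟩
    | insert p S _ ih =>
      obtain ⟨U, h1, h2, h3⟩ := ih
      by_cases h : ∃ K ∈ P.nk p.1, K.Inf p.2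
      swap
      · exact ⟨U, h1, h2, Finset.forall_mem_insert .. |>.2 ⟨fun K hK k => (h ⟨K, hK, k⟩).elim, h3⟩⟩
      obtain ⟨K, hK, k⟩ := h
      refine ⟨_, h1.ext K p.2 (h₀ p K hK k) ha hd fun x hx => h2 (o2 ?_), h2.trans subset_union_left,
        Finset.forall_mem_insert .. |>.2 ⟨fun K' hK' _ x hx => .inr (Option.mem_unique hK hK' ▸ hx),
          fun q hq K' hK' k' x hx => .inl (h3 q hq K' hK' k' x hx)⟩⟩
      rintro j s K' hK' - ⟨z, hz, rfl⟩
      have m := K'.mem_src.2 hz.2.1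
      by_cases e : j = p.1
      · subst e
        obtain rfl := Option.mem_unique hK hK'
        rw [K.tm_ψ _ m] at hx
        have := hz.2.2.out
        cases s <;> cases hp : p.2 <;> simp only [hp, pm, if_true, Bool.false_eq_true, if_false] at hx this <;>
          linarith [hx.1, hx.2]
      · exact disjoint_left.1 (hP.dj e K' hK' K hK) (K'.ψ.map_source m) (tgt_of K p.2 (h₀ p K hK k) hx.1)
  obtain ⟨U, ⟨-, v, v1, v2⟩, h2, h3⟩ := this Finset.univ
  obtain rfl : U = univ := eq_univ_of_forall fun x => by_contra fun hx => hx (h2 (o2 (by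
    rintro j s K hK k ⟨z, hz, rfl⟩
    exact hx (h3 (j, s) (Finset.mem_univ _) K hK k _ (by
      rw [K.tm_ψ _ (K.mem_src.2 hz.2.1)]; linarith [hz.2.2.out])))))
  exact ⟨v, fun i => ⟨contMDiffOn_univ.1 (v1 i).1, fun x => (v1 i).2 x trivial⟩,
    fun C hC => v2 C hC (subset_univ _)⟩

end Crest.Agent.X212.Rad57
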