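import Crest.Agent.X212.Nk89.Frd
import Crest.Agent.X212.Map77.Fin

/-! X212/Num57/IxF (helper57): the index is constant on a chart with cylindrical ends. -/

set_option autoImplicit false
set_option linter.unusedSectionVars false
noncomputable section
open scoped Manifold ContDiff Topology InnerProductSpace
open MeasureTheory Set Function Filter

namespace Crest.Agent.X212.Rz57
open An An.Pre Sob92 Prm93 Fred93 Mod61 Map77 Nd18 Nk89

variable {E : Type} [NormedAddCommGroup E] [NormedSpace ℝ E] [FiniteDimensional ℝ E]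
  [MeasurableSpace E] [BorelSpace E]
  {HM : Type} [TopologicalSpace HM] {I : ModelWithCorners ℝ E HM} [I.Boundaryless]
  {M : Type} [TopologicalSpace M] [ChartedSpace HM M] [IsManifold I ∞ M]
  [MeasurableSpace M] [T2Space M] [BorelSpace M] [SecondCountableTopology M]
  {ι κ : Type} [Fintype ι] [Fintype κ] {lam : Type} [Fintype lam]
  {T : Type} [NormedAddCommGroup T] [NormedSpace ℝ T] {r n m k : ℕ} {d : ℤ}

section gen
variable {𝔉 : Fam I M ι lam T} {o : Ref 𝔉} (h : 𝔉.OK) (hk : 4 ≤ k)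
include h hk

theorem idx_conn {P : Type} [TopologicalSpace P] [PreconnectedSpace P]
    {e : P → T → PtX M ι lam r n m} {f : P → o.C r k → o.Y n m k} (hf : ∀ p, RepF (e p) (f p))
    {y : P → Pnt o r} (h1 : Continuous fun p => fderiv ℝ (f p) ((y p).pt k))
    (h2 : Continuous fun p => Nk89.row k (y p)) (hF : ∀ p, ∃ d, Idx k (e p) (y p) d) {a : P} (b : P)
    (H : Idx k (e a) (y a) d) : Idx k (e b) (y b) d :=
  ⟨_, hf b, Fr.of_preconnected (L := fun p => lop k (f p) (y p)) isPreconnected_univ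
    ((ContinuousLinearMap.prodₗᵢ ℝ).continuous.comp ((continuous_const.clm_comp
      (h1.clm_comp continuous_const)).prodMk h2)).continuousOn
    (fun p _ => ((hF p).choose_spec.all h hk (hf p)).1) trivial trivial (H.all h hk (hf a))⟩

/-- the index does not depend on the parameter -/
theorem idx_par (hQ : IsPreconnected 𝔉.Q) {e : T → PtX M ι lam r n m} {f : o.C r k → o.Y n m k}
    (hf : RepF e f) (hF : ∀ t (ht : t ∈ 𝔉.Q), ∃ d, Idx k e (pt0 o r ht) d) {s t : T} (hs : s ∈ 𝔉.Q)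
    (ht : t ∈ 𝔉.Q) (H : Idx k e (pt0 o r hs) d) : Idx k e (pt0 o r ht) d := by
  have := Subtype.preconnectedSpace hQ
  refine idx_conn h hk (P := 𝔉.Q) (fun _ => hf) (y := fun p => pt0 o r p.2) ?_ ?_
    (fun p => hF p p.2) (a := ⟨s, hs⟩) ⟨t, ht⟩ H
  · exact (hf.1.continuousOn_fderiv_of_isOpen (Map77.isOpen_U h) (by simp)).comp_continuous
      (f := fun p : 𝔉.Q => (ofV _ _ _ 0, ofV _ _ _ 0, 0, p.1)) (by fun_prop) fun p => p.2
  · refine ((((adj_rem h).sm_RR o (k := k) (sb_u0 o h)).clm_comp ((sm_SH o h).clm_comp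
      (contDiffOn_const (c := ((sumH 𝔉.F0.toPre (k + 1) o.P1 o.Pp).symm :
        CF o k →L[ℝ] _))))).continuousOn.domRestrict).congr fun p => ?_
    exact congrArg (fun u => (bd o).RR _ _ k u ∘L _) (uy_bs (pt0 o r p.2)).symm

/-- the index does not depend on the perturbation -/
theorem idx_lin {e τ : T → PtX M ι lam r n m} {f g : o.C r k → o.Y n m k} (hf : RepF e f)
    (hg : RepF τ g) {y : Pnt o r} (hF : ∀ s : ℝ, ∃ d, Idx k (e + s • τ) y d) {a : ℝ} (b : ℝ)
    (H : Idx k (e + a • τ) y d) : Idx k (e + b • τ) y d := by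
  have D : ∀ {σ : T → PtX M ι lam r n m} {g : o.C r k → o.Y n m k}, RepF σ g →
      DifferentiableAt ℝ g (y.pt k) := fun hg =>
    (hg.1.contDiffAt ((Map77.isOpen_U h).mem_nhds y.mem_U)).differentiableAt (by simp)
  refine idx_conn h hk (f := fun s : ℝ => f + s • g) (fun s => ⟨hf.1.add (hg.1.const_smul s),
    fun y => (hf.2 y).add ((hg.2 y).smul s)⟩) (y := fun _ => y) ?_ continuous_const hF b H
  simp only [fderiv_add (D hf) ((D hg).const_smul _), fderiv_const_smul (D hg)]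
  fun_prop

end gen

variable {𝔉 : Fam I M (Option κ) lam T} {δ R : ℝ} (X : Ends 𝔉 δ) {o : Ref 𝔉}

/-- **the index of a chart is constant** -/
theorem idx_const (hk : 7 ≤ k) (l : X.Lit o R) (hQ : IsPreconnected 𝔉.Q)
    {e : T → PtX M (Option κ) lam r n m} (he : Aff o (Fs 𝔉) r n m e) {W : Type}
    {τ : W → T → PtX M (Option κ) lam r n m} (hτ : ∀ w, o.Sm (τ w))
    (hF : ∀ q : W →₀ ℝ, ∀ t ∈ 𝔉.Q, X.Fred o R k (e + q.sum fun w c => c • τ w) t) :
    ∃ d, ∀ (q : W →₀ ℝ) (x : Pnt o r), Idx k (e + q.sum fun w c => c • τ w) x d := by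
  have h := X.ok
  have F := fun q (y : Pnt o r) => X.fred o R r n m k _ hk l (he.tot h hτ q) y (hF q _ y.ht)
  rcases 𝔉.Q.eq_empty_or_nonempty with e0 | ⟨t, ht⟩
  · exact ⟨0, fun _ x => absurd x.ht (by simp [e0])⟩
  obtain ⟨d, hd⟩ := (F 0 (pt0 o r ht)).1
  refine ⟨d, fun q x => (F q (pt0 o r x.ht)).2 x d rfl ?_⟩
  obtain ⟨f, hf⟩ := (adj_rem h).rp he k hk
  obtain ⟨g, hg⟩ := mem_SmS.1 (Submodule.sum_mem (SmS o r n m) (t := q.support) fun w _ =>
    Submodule.smul_mem _ (q w) (mem_SmS.2 (hτ w))) k hk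
  have hg := hg.iY h (by omega) k.le_succ
  have e1 : ∀ s : ℝ, ((s • q).sum fun w c => c • τ w) = s • q.sum fun w c => c • τ w := fun s =>
    map_smul (Finsupp.linearCombination ℝ τ) s q
  refine idx_par h (by omega) hQ (hf.add hg) (fun _ ht => (F q (pt0 o r ht)).1) ht x.ht ?_
  have := idx_lin h (by omega) hf hg (fun s => e1 s ▸ (F (s • q) _).1) (a := 0) 1
    (e1 0 ▸ (zero_smul ℝ q).symm ▸ hd)
  rwa [one_smul] at this

end Crest.Agent.X212.Rz57
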