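import Mathlib

/-!
X212 / NUM (helper57), part 1: Chern-Weil algebra in a traced super differential algebra.

* `SD A`     : an algebra with an involution `inv` and a super-derivation `d`, `d d = 0`;
* `TD A B`   : a trace `τ : A → B` commuting with `d`, super-cyclic;
* `cur A`    : the curvature `dA + A A`;  `cov A x` : the covariant derivative `dx + A x - inv x A`;
* `Par A T`  : `T` even and `cov A T = 0`;
* `c1_closed`, `c1_sub`, `c2_closed`, `c2_sub` : closedness and transgression;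
-/

set_option autoImplicit false

namespace Crest.Agent.X212.Num57

/-- super differential algebra (not necessarily commutative) -/
structure SD (A : Type*) [Ring A] [Algebra ℝ A] where
  inv : A →ₐ[ℝ] A
  d : A →ₗ[ℝ] A
  inv_inv : ∀ x, inv (inv x) = x
  inv_d : ∀ x, inv (d x) = - d (inv x)
  d_mul : ∀ x y, d (x * y) = d x * y + inv x * d y
  d_d : ∀ x, d (d x) = 0

namespace SD

variable {A : Type*} [Ring A] [Algebra ℝ A] (S : SD A)

/-- even -/
def Ev (x : A) : Prop := S.inv x = x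
/-- odd -/
def Od (x : A) : Prop := S.inv x = -x

variable {S}

theorem d_one : S.d 1 = 0 := by
  have h := S.d_mul 1 1
  rw [mul_one, mul_one, map_one S.inv, one_mul] at h
  exact left_eq_add.1 h

theorem Ev.one : S.Ev 1 := map_one _
theorem Ev.zero : S.Ev 0 := map_zero _
theorem Od.zero : S.Od 0 := by simp [Od]
theorem Ev.add {x y : A} (hx : S.Ev x) (hy : S.Ev y) : S.Ev (x + y) := by
  unfold Ev at *; rw [map_add, hx, hy]
theorem Ev.sub {x y : A} (hx : S.Ev x) (hy : S.Ev y) : S.Ev (x - y) := by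
  unfold Ev at *; rw [map_sub, hx, hy]
theorem Ev.neg {x : A} (hx : S.Ev x) : S.Ev (-x) := by
  unfold Ev at *; rw [map_neg, hx]
theorem Ev.smul {x : A} (r : ℝ) (hx : S.Ev x) : S.Ev (r • x) := by
  unfold Ev at *; rw [map_smul, hx]
theorem Od.add {x y : A} (hx : S.Od x) (hy : S.Od y) : S.Od (x + y) := by
  unfold Od at *; rw [map_add, hx, hy, neg_add]
theorem Od.sub {x y : A} (hx : S.Od x) (hy : S.Od y) : S.Od (x - y) := by
  unfold Od at *; rw [map_sub, hx, hy]; abel
theorem Od.neg {x : A} (hx : S.Od x) : S.Od (-x) := by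
  unfold Od at *; rw [map_neg, hx]
theorem Od.smul {x : A} (r : ℝ) (hx : S.Od x) : S.Od (r • x) := by
  unfold Od at *; rw [map_smul, hx, smul_neg]
theorem Ev.mul {x y : A} (hx : S.Ev x) (hy : S.Ev y) : S.Ev (x * y) := by
  unfold Ev at *; rw [map_mul, hx, hy]
theorem Ev.mul_od {x y : A} (hx : S.Ev x) (hy : S.Od y) : S.Od (x * y) := by
  unfold Ev Od at *; rw [map_mul, hx, hy, mul_neg]
theorem Od.mul_ev {x y : A} (hx : S.Od x) (hy : S.Ev y) : S.Od (x * y) := by
  unfold Ev Od at *; rw [map_mul, hx, hy, neg_mul]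
theorem Od.mul {x y : A} (hx : S.Od x) (hy : S.Od y) : S.Ev (x * y) := by
  unfold Ev Od at *; rw [map_mul, hx, hy, neg_mul_neg]
theorem Ev.d {x : A} (hx : S.Ev x) : S.Od (S.d x) := by
  unfold Ev Od at *; rw [S.inv_d, hx]
theorem Od.d {x : A} (hx : S.Od x) : S.Ev (S.d x) := by
  unfold Ev Od at *; rw [S.inv_d, hx, map_neg, neg_neg]
theorem Ev.sum {ι : Type*} (s : Finset ι) {x : ι → A} (h : ∀ i ∈ s, S.Ev (x i)) :
    S.Ev (∑ i ∈ s, x i) := by
  unfold Ev at *; rw [map_sum]; exact Finset.sum_congr rfl h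
theorem Od.sum {ι : Type*} (s : Finset ι) {x : ι → A} (h : ∀ i ∈ s, S.Od (x i)) :
    S.Od (∑ i ∈ s, x i) := by
  unfold Od at *; rw [map_sum, ← Finset.sum_neg_distrib]; exact Finset.sum_congr rfl h

theorem Ev.d_mul {x : A} (hx : S.Ev x) (y : A) : S.d (x * y) = S.d x * y + x * S.d y := by
  rw [S.d_mul, hx]
theorem Od.d_mul {x : A} (hx : S.Od x) (y : A) : S.d (x * y) = S.d x * y - x * S.d y := by
  rw [S.d_mul, hx, neg_mul, sub_eq_add_neg]

variable (S)

/-- curvature -/
def cur (C : A) : A := S.d C + C * C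

/-- covariant derivative on endomorphism valued forms -/
def cov (C x : A) : A := S.d x + C * x - S.inv x * C

/-- `T` is even and parallel -/
structure Par (C T : A) : Prop where
  ev : S.Ev T
  par : S.d T + C * T - T * C = 0

variable {S}

theorem Od.cur {C : A} (hC : S.Od C) : S.Ev (S.cur C) := hC.d.add (hC.mul hC)

theorem Ev.cov_eq {x : A} (hx : S.Ev x) (C : A) : S.cov C x = S.d x + C * x - x * C := by
  rw [SD.cov, hx]
theorem Od.cov_eq {x : A} (hx : S.Od x) (C : A) : S.cov C x = S.d x + C * x + x * C := by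
  rw [SD.cov, hx, neg_mul, sub_neg_eq_add]

theorem Par.cov {C T : A} (h : S.Par C T) : S.cov C T = 0 := by rw [h.ev.cov_eq, h.par]

theorem Par.of_cov {C T : A} (he : S.Ev T) (h : S.cov C T = 0) : S.Par C T :=
  ⟨he, by rw [← he.cov_eq, h]⟩

theorem cov_add (C x y : A) : S.cov C (x + y) = S.cov C x + S.cov C y := by
  simp only [cov, map_add, mul_add, add_mul]; abel
theorem cov_sub (C x y : A) : S.cov C (x - y) = S.cov C x - S.cov C y := by
  simp only [cov, map_sub, mul_sub, sub_mul]; abel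
theorem cov_smul (C : A) (r : ℝ) (x : A) : S.cov C (r • x) = r • S.cov C x := by
  simp only [cov, map_smul, mul_smul_comm, smul_mul_assoc, smul_add, smul_sub]
theorem cov_one (C : A) : S.cov C 1 = 0 := by simp [cov, d_one]

theorem cov_mul (C x y : A) : S.cov C (x * y) = S.cov C x * y + S.inv x * S.cov C y := by
  simp only [cov, S.d_mul, map_mul]; noncomm_ring

theorem Ev.cov {C x : A} (hC : S.Od C) (hx : S.Ev x) : S.Od (S.cov C x) := by
  rw [hx.cov_eq]; exact (hx.d.add (hC.mul_ev hx)).sub (hx.mul_od hC)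
theorem Od.cov {C x : A} (hC : S.Od C) (hx : S.Od x) : S.Ev (S.cov C x) := by
  rw [hx.cov_eq]; exact (hx.d.add (hC.mul hx)).add (hx.mul hC)

theorem Ev.cov_mul {x : A} (hx : S.Ev x) (C y : A) :
    S.cov C (x * y) = S.cov C x * y + x * S.cov C y := by rw [SD.cov_mul, hx]
theorem Od.cov_mul {x : A} (hx : S.Od x) (C y : A) :
    S.cov C (x * y) = S.cov C x * y - x * S.cov C y := by
  rw [SD.cov_mul, hx, neg_mul, sub_eq_add_neg]

theorem Par.one (C : A) : S.Par C 1 := ⟨Ev.one, by simp [d_one]⟩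
theorem Par.zero (C : A) : S.Par C 0 := ⟨Ev.zero, by simp⟩
theorem Par.mul {C T U : A} (hT : S.Par C T) (hU : S.Par C U) : S.Par C (T * U) :=
  Par.of_cov (hT.ev.mul hU.ev) (by rw [hT.ev.cov_mul, hT.cov, hU.cov]; simp)
theorem Par.add {C T U : A} (hT : S.Par C T) (hU : S.Par C U) : S.Par C (T + U) :=
  Par.of_cov (hT.ev.add hU.ev) (by rw [cov_add, hT.cov, hU.cov]; simp)
theorem Par.sub {C T U : A} (hT : S.Par C T) (hU : S.Par C U) : S.Par C (T - U) :=
  Par.of_cov (hT.ev.sub hU.ev) (by rw [cov_sub, hT.cov, hU.cov]; simp)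
theorem Par.smul {C T : A} (r : ℝ) (hT : S.Par C T) : S.Par C (r • T) :=
  Par.of_cov (hT.ev.smul r) (by rw [cov_smul, hT.cov]; simp)

/-- Bianchi -/
theorem cov_cur {C : A} (hC : S.Od C) : S.cov C (S.cur C) = 0 := by
  rw [hC.cur.cov_eq, cur, map_add, S.d_d, hC.d_mul]; noncomm_ring

theorem Od.cov_cov {C x : A} (hC : S.Od C) (hx : S.Od x) :
    S.cov C (S.cov C x) = S.cur C * x - x * S.cur C := by
  rw [(hC.cov hx).cov_eq, hx.cov_eq, map_add, map_add, S.d_d, hC.d_mul, hx.d_mul, SD.cur]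
  noncomm_ring

theorem Ev.cov_cov {C x : A} (hC : S.Od C) (hx : S.Ev x) :
    S.cov C (S.cov C x) = S.cur C * x - x * S.cur C := by
  rw [(Ev.cov hC hx).cov_eq, hx.cov_eq, map_sub, map_add, S.d_d, hC.d_mul, hx.d_mul, SD.cur]
  noncomm_ring

theorem Par.comm_cur {C T : A} (hC : S.Od C) (h : S.Par C T) : T * S.cur C = S.cur C * T := by
  have h1 := Ev.cov_cov hC h.ev
  rw [h.cov] at h1
  have h2 : S.cov C 0 = 0 := by simp [SD.cov]
  rw [h2] at h1
  exact (sub_eq_zero.1 h1.symm).symm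

theorem cur_add {C a : A} (ha : S.Od a) : S.cur (C + a) = S.cur C + S.cov C a + a * a := by
  rw [ha.cov_eq, cur, cur, map_add]; noncomm_ring

theorem Par.comm_sub {C C' T : A} (h : S.Par C T) (h' : S.Par C' T) :
    T * (C' - C) = (C' - C) * T := by
  have h1 := h.par
  have h2 := h'.par
  have : T * (C' - C) - (C' - C) * T
      = (S.d T + C * T - T * C) - (S.d T + C' * T - T * C') := by noncomm_ring
  rw [h1, h2, sub_zero] at this
  exact sub_eq_zero.1 this

theorem Par.add_conn {C a T : A} (h : S.Par C T) (ha : T * a = a * T) : S.Par (C + a) T :=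
  ⟨h.ev, by
    have : S.d T + (C + a) * T - T * (C + a) = (S.d T + C * T - T * C) + (a * T - T * a) := by
      noncomm_ring
    rw [this, h.par, ha]; simp⟩

theorem Par.comm_cov {C a T : A} (h : S.Par C T) (hT : T * a = a * T) (ha : S.Od a) :
    T * S.cov C a = S.cov C a * T := by
  have h1 := congrArg (S.cov C) hT
  rw [h.ev.cov_mul, ha.cov_mul, h.cov] at h1
  simpa using h1

/-- the Grassmann connection of an idempotent -/
def gr (S : SD A) (p : A) : A := p * S.d p - S.d p * p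

theorem d_idem {p : A} (he : S.Ev p) (hp : p * p = p) : S.d p * p + p * S.d p = S.d p := by
  rw [← he.d_mul, hp]

theorem gr_od {p : A} (he : S.Ev p) : S.Od (S.gr p) := (he.mul_od he.d).sub (he.d.mul_ev he)

theorem gr_par {p : A} (he : S.Ev p) (hp : p * p = p) : S.Par (S.gr p) p := by
  refine ⟨he, ?_⟩
  have h := d_idem he hp
  have : S.d p + S.gr p * p - p * S.gr p
      = S.d p + p * S.d p * p - S.d p * (p * p) - (p * p) * S.d p + p * S.d p * p := by
    rw [gr]; noncomm_ring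
  rw [this, hp]
  have h2 : p * S.d p * p = 0 := by
    have h3 : p * (S.d p * p + p * S.d p) = p * S.d p := by rw [h]
    have h4 : p * (S.d p * p + p * S.d p) = p * S.d p * p + (p * p) * S.d p := by noncomm_ring
    rw [h4, hp] at h3
    exact add_eq_right.1 h3
  rw [h2]
  nth_rewrite 1 [← h]
  abel

end SD

/-- a super-cyclic trace commuting with `d` -/
structure TD (A B : Type*) [Ring A] [Algebra ℝ A] [AddCommGroup B] [Module ℝ B] extends SD A where
  τ : A →ₗ[ℝ] B
  δ : B →ₗ[ℝ] B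
  τ_d : ∀ x, τ (d x) = δ (τ x)
  τ_ev : ∀ x y, inv x = x → τ (x * y) = τ (y * x)
  τ_od : ∀ x y, inv x = -x → inv y = -y → τ (x * y) = - τ (y * x)

namespace TD

variable {A B : Type*} [Ring A] [Algebra ℝ A] [AddCommGroup B] [Module ℝ B] (S : TD A B)

theorem eq_zero_of_neg {b : B} (h : b = -b) : b = 0 := by
  have h1 : (2 : ℝ) • b = 0 := by rw [two_smul]; nth_rewrite 2 [h]; simp
  simpa using h1

theorem τ_cov_ev {C x : A} (hx : S.Ev x) : S.τ (S.cov C x) = S.δ (S.τ x) := by
  rw [hx.cov_eq, map_sub, map_add, S.τ_d, S.τ_ev x C hx]; abel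

theorem τ_cov_od {C x : A} (hC : S.Od C) (hx : S.Od x) : S.τ (S.cov C x) = S.δ (S.τ x) := by
  rw [hx.cov_eq, map_add, map_add, S.τ_d, S.τ_od x C hx hC]; abel

/-- `τ (T F)` is closed -/
theorem c1_closed {C T : A} (hC : S.Od C) (h : S.Par C T) : S.δ (S.τ (T * S.cur C)) = 0 := by
  rw [← S.τ_cov_ev (C := C) (h.ev.mul hC.cur), h.ev.cov_mul, h.cov, SD.cov_cur hC]; simp

/-- `τ (T F F)` is closed -/
theorem c2_closed {C T : A} (hC : S.Od C) (h : S.Par C T) :
    S.δ (S.τ (T * (S.cur C * S.cur C))) = 0 := by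
  rw [← S.τ_cov_ev (C := C) (h.ev.mul (hC.cur.mul hC.cur)), h.ev.cov_mul, h.cov, hC.cur.cov_mul,
    SD.cov_cur hC]; simp

theorem τ_sq {T a : A} (hT : S.Ev T) (ha : S.Od a) (hc : T * a = a * T) :
    S.τ (T * (a * a)) = 0 := by
  apply eq_zero_of_neg
  have := S.τ_od (T * a) a (hT.mul_od ha) ha
  rw [mul_assoc, ← mul_assoc a T a, ← hc, mul_assoc] at this
  exact this

/-- transgression of the first form -/
theorem c1_add {C a T : A} (hC : S.Od C) (ha : S.Od a) (h : S.Par C T) (hc : T * a = a * T) :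
    S.τ (T * S.cur (C + a)) = S.τ (T * S.cur C) + S.δ (S.τ (T * a)) := by
  rw [SD.cur_add ha, mul_add, mul_add, map_add, map_add, S.τ_sq h.ev ha hc, add_zero,
    ← S.τ_cov_od hC (h.ev.mul_od ha), h.ev.cov_mul, h.cov]
  simp

/-- the Chern-Simons transgression form -/
noncomputable def cs (S : SD A) (C a : A) : A :=
  (2 : ℝ) • (a * S.cur C) + a * S.cov C a + (2 / 3 : ℝ) • (a * a * a)

theorem cs_od {C a : A} (hC : S.Od C) (ha : S.Od a) : S.Od (cs S.toSD C a) :=
  (((ha.mul_ev hC.cur).smul _).add (ha.mul_ev (hC.cov ha))).add (((ha.mul ha).mul_od ha).smul _)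

/-- transgression of the second form -/
theorem c2_add {C a T : A} (hC : S.Od C) (ha : S.Od a) (h : S.Par C T) (hc : T * a = a * T) :
    S.τ (T * (S.cur (C + a) * S.cur (C + a)))
      = S.τ (T * (S.cur C * S.cur C)) + S.δ (S.τ (T * cs S.toSD C a)) := by
  have hF := hC.cur
  have hD := hC.cov ha
  have hT := h.ev
  have cF := h.comm_cur hC
  have cD := h.comm_cov hc ha
  rw [← S.τ_cov_od hC (hT.mul_od (S.cs_od hC ha)), hT.cov_mul, h.cov, zero_mul, zero_add, cs,
    SD.cov_add, SD.cov_add, SD.cov_smul, SD.cov_smul, ha.cov_mul, ha.cov_mul, (ha.mul ha).cov_mul,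
    ha.cov_mul, SD.cov_cur hC, hC.cov_cov ha, SD.cur_add ha]
  generalize S.cur C = F at *
  generalize S.cov C a = D at *
  have e1 : S.τ (T * (F * D)) = S.τ (T * (D * F)) := by
    rw [← mul_assoc, ← S.τ_ev D (T * F) hD, ← mul_assoc, ← cD, mul_assoc]
  have e2 : S.τ (T * (F * (a * a))) = S.τ (T * (a * a * F)) := by
    rw [← mul_assoc, ← S.τ_ev (a * a) (T * F) (ha.mul ha), ← mul_assoc, mul_assoc a a T, ← hc,
      ← mul_assoc a T a, ← hc]
    simp only [mul_assoc]
  have e3 : S.τ (T * (D * (a * a))) = S.τ (T * (a * a * D)) := by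
    rw [← mul_assoc, ← S.τ_ev (a * a) (T * D) (ha.mul ha), ← mul_assoc, mul_assoc a a T, ← hc,
      ← mul_assoc a T a, ← hc]
    simp only [mul_assoc]
  have e4 : S.τ (T * (a * F * a)) = - S.τ (T * (a * a * F)) := by
    rw [← mul_assoc, S.τ_od (T * (a * F)) a (hT.mul_od (ha.mul_ev hF)) ha, ← mul_assoc a T, ← hc]
    simp only [mul_assoc]
  have e5 : S.τ (T * (a * D * a)) = - S.τ (T * (a * a * D)) := by
    rw [← mul_assoc, S.τ_od (T * (a * D)) a (hT.mul_od (ha.mul_ev hD)) ha, ← mul_assoc a T, ← hc]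
    simp only [mul_assoc]
  have e6 : S.τ (T * (a * a * (a * a))) = 0 := by
    apply eq_zero_of_neg
    have := S.τ_od (T * (a * a * a)) a (hT.mul_od ((ha.mul ha).mul_od ha)) ha
    rw [← mul_assoc a T, ← hc] at this
    simpa only [mul_assoc] using this
  have l1 : T * ((F + D + a * a) * (F + D + a * a))
      = T * (F * F) + T * (F * D) + T * (F * (a * a)) + T * (D * F) + T * (D * D)
        + T * (D * (a * a)) + T * (a * a * F) + T * (a * a * D) + T * (a * a * (a * a)) := by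
    noncomm_ring
  have l2 : T * ((2 : ℝ) • (D * F - a * 0) + (D * D - a * (F * a - a * F))
        + (2 / 3 : ℝ) • ((D * a - a * D) * a + a * a * D))
      = (2 : ℝ) • (T * (D * F)) + (T * (D * D) - T * (a * F * a) + T * (a * a * F))
        + (2 / 3 : ℝ) • (T * (D * (a * a)) - T * (a * D * a) + T * (a * a * D)) := by
    simp only [mul_add, mul_smul_comm, mul_zero, sub_zero]
    congr 1
    · congr 1
      noncomm_ring
    · congr 1
      noncomm_ring
  rw [l1, l2]
  simp only [map_add, map_sub, map_smul, e1, e2, e3, e4, e5, e6]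
  module

theorem c1_sub {C C' T : A} (hC : S.Od C) (hC' : S.Od C') (h : S.Par C T) (h' : S.Par C' T) :
    S.τ (T * S.cur C') = S.τ (T * S.cur C) + S.δ (S.τ (T * (C' - C))) := by
  rw [← S.c1_add hC (hC'.sub hC) h (h.comm_sub h'), add_sub_cancel]

theorem c2_sub {C C' T : A} (hC : S.Od C) (hC' : S.Od C') (h : S.Par C T) (h' : S.Par C' T) :
    S.τ (T * (S.cur C' * S.cur C'))
      = S.τ (T * (S.cur C * S.cur C)) + S.δ (S.τ (T * cs S.toSD C (C' - C))) := by
  rw [← S.c2_add hC (hC'.sub hC) h (h.comm_sub h'), add_sub_cancel]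

end TD

end Crest.Agent.X212.Num57
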