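import Crest.Agent.X212.Loc74.SwD

/-!
# X212 / Num57, part L2 (helper57): calculus of `Loc74.L2`
-/

set_option autoImplicit false
set_option linter.unusedSectionVars false

open Set MeasureTheory Filter Function
open scoped ENNReal NNReal Topology

noncomputable section

namespace Crest.Agent.X212.Rad57
open Loc74 (L2)

variable {M α N N' : Type} [MeasurableSpace M] [NormedAddCommGroup N] [NormedAddCommGroup N']
  {μ : Measure M} {l : Filter α} {K S : Set M} {f g : α → M → N}

theorem l2_mono (h : L2 μ l K f) (hS : S ⊆ K) : L2 μ l S f :=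
  let ⟨B, hB⟩ := h; ⟨B, hB.mono fun _ hi => (lintegral_mono_set hS).trans hi⟩

theorem l2_le {g : α → M → N'} (h : L2 μ l K f) (hK : MeasurableSet K) (C : ℝ)
    (e : ∀ᶠ i in l, ∀ x ∈ K, ‖g i x‖ ≤ C * ‖f i x‖) : L2 μ l K g := by
  obtain ⟨B, hB⟩ := h
  refine ⟨C.toNNReal ^ 2 * B, (hB.and e).mono fun i hi => ?_⟩
  rw [ENNReal.coe_mul]
  refine le_trans ?_ (mul_le_mul_right hi.1 _)
  rw [← lintegral_const_mul' _ _ ENNReal.coe_ne_top]
  refine setLIntegral_mono' hK fun x hx => ?_
  rw [enorm_eq_nnnorm, enorm_eq_nnnorm]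
  norm_cast
  rw [← mul_pow]
  refine pow_le_pow_left' (NNReal.coe_le_coe.1 ?_) 2
  exact (hi.2 x hx).trans (mul_le_mul_of_nonneg_right (Real.le_coe_toNNReal C) (norm_nonneg _))

theorem l2_congr (h : L2 μ l K f) (hK : MeasurableSet K) (e : ∀ᶠ i in l, ∀ x ∈ K, g i x = f i x) :
    L2 μ l K g := l2_le h hK 1 (e.mono fun i hi x hx => by rw [hi x hx, one_mul])

theorem l2_bdd (hK : MeasurableSet K) (h : μ K ≠ ⊤) (R : ℝ) (e : ∀ᶠ i in l, ∀ x ∈ K, ‖f i x‖ ≤ R) :
    L2 μ l K f :=
  l2_le (f := fun _ _ => (1 : ℝ)) ⟨(μ K).toNNReal, .of_forall fun _ => by simp [ENNReal.coe_toNNReal h]⟩ hK R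
    (by simpa using e)

theorem l2_null (hK : MeasurableSet K) (e : ∀ᶠ i in l, ∀ x ∈ K, f i x = 0) : L2 μ l K f :=
  l2_congr (f := fun _ _ => 0) ⟨0, .of_forall fun _ => by simp⟩ hK e

theorem l2_union (h : L2 μ l K f) (k : L2 μ l S f) : L2 μ l (K ∪ S) f :=
  let ⟨B, hB⟩ := h; let ⟨C, hC⟩ := k
  ⟨B + C, (hB.and hC).mono fun _ hi => (lintegral_union_le _ _ _).trans (add_le_add hi.1 hi.2)⟩

theorem l2_iUnion {A : Type} [Fintype A] {S : A → Set M} (h : ∀ a, L2 μ l (S a) f) : L2 μ l (⋃ a, S a) f := by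
  choose B hB using h
  refine ⟨∑ a, B a, (eventually_all.2 hB).mono fun i hi => (lintegral_iUnion_le _ _).trans ?_⟩
  rw [tsum_fintype, ENNReal.ofNNReal_finsetSum]
  exact Finset.sum_le_sum fun a _ => hi a

/-- a family of constants bounded in `L²` is bounded -/
theorem l2_const {r : α → N} (h : L2 μ l K fun i _ => r i) (h0 : μ K ≠ 0) : ∃ R, ∀ᶠ i in l, ‖r i‖ ≤ R := by
  obtain ⟨B, hB⟩ := h
  obtain ⟨m, m0, hm⟩ := ENNReal.lt_iff_exists_nnreal_btwn.1 (pos_iff_ne_zero.2 h0)
  have m1 : (0 : ℝ) < m := by exact_mod_cast m0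
  refine ⟨√(B / m), hB.mono fun i hi => Real.le_sqrt_of_sq_le ((le_div_iff₀ m1).2 ?_)⟩
  rw [setLIntegral_const] at hi
  have := (mul_le_mul_right hm.le _).trans hi
  rw [enorm_eq_nnnorm] at this
  exact_mod_cast this

variable [TopologicalSpace M] [OpensMeasurableSpace M]

theorem l2_add (h : L2 μ l K f) (k : L2 μ l K g) (c : ∀ i, Continuous (f i)) :
    L2 μ l K fun i x => f i x + g i x := by
  obtain ⟨B, hB⟩ := h
  obtain ⟨C, hC⟩ := k
  refine ⟨2 * (B + C), (hB.and hC).mono fun i hi => ?_⟩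
  push_cast
  refine le_trans ?_ (mul_le_mul_right (add_le_add hi.1 hi.2) _)
  rw [← lintegral_add_left ((c i).enorm.measurable.pow_const 2), ← lintegral_const_mul' _ _ (by simp)]
  refine lintegral_mono fun x => ?_
  have := ENNReal.coe_le_coe.2 ((pow_le_pow_left' (nnnorm_add_le (f i x) (g i x)) 2).trans add_sq_le)
  push_cast at this
  exact this

theorem l2_neg (h : L2 μ l K f) : L2 μ l K fun i x => -f i x := by simpa only [L2, enorm_neg] using h

theorem l2_sub (h : L2 μ l K f) (k : L2 μ l K g) (c : ∀ i, Continuous (f i)) :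
    L2 μ l K fun i x => f i x - g i x := by simpa only [sub_eq_add_neg] using l2_add h (l2_neg k) c

theorem l2_sum {A : Type} (s : Finset A) {f : A → α → M → N} (h : ∀ a, L2 μ l K (f a))
    (c : ∀ a i, Continuous (f a i)) : L2 μ l K fun i x => ∑ a ∈ s, f a i x := by
  classical
  induction s using Finset.induction_on with
  | empty => exact ⟨0, .of_forall fun _ => by simp⟩
  | insert a s ha ih => simpa only [Finset.sum_insert ha] using l2_add (h a) ih (c a)

/-- multiplication with a function supported in `K` -/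
theorem l2_mul {f : α → M → ℝ} {ρ : M → ℝ} (h : L2 μ l K f) (hK : MeasurableSet K)
    (c : Continuous ρ) (hc : HasCompactSupport ρ) (s : support ρ ⊆ K) : L2 μ l S fun i x => ρ x * f i x := by
  obtain ⟨C, hC⟩ := c.bounded_above_of_compact_support hc
  refine l2_mono (l2_union (l2_le h hK C (.of_forall fun i x _ => ?_)) (l2_null hK.compl
    (.of_forall fun i x hx => ?_))) (by simp)
  · rw [norm_mul]; exact mul_le_mul_of_nonneg_right (hC x) (norm_nonneg _)
  · rw [notMem_support.1 fun k => hx (s k), zero_mul]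

end Crest.Agent.X212.Rad57
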