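import Crest.Agent.X212.Num57.Rad
import Crest.Agent.X212.Num57.L2

/-!
# X212 / Num57, part Cech (helper57): LOC-CECH

* `star` : star refinement;  `Rd` : the sets of `rad`;  `cech : CechStmt`.
-/

set_option autoImplicit false
set_option linter.unusedSectionVars false

open Set MeasureTheory Filter Function Metric
open scoped ContDiff ENNReal NNReal Manifold Topology Real

noncomputable section

namespace Crest.Agent.X212.Rad57
open An Sw Sob92 Wz78
open Loc74 (L2 Frm)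
open Lw78 (da)
open Cyl58 (om gau_exp)
open M (Mf)

theorem star {M : Type} [PseudoMetricSpace M] {K : Set M} (hK : IsCompact K) {P : Set M → Prop}
    (h : ∀ z, ∀ O ∈ 𝓝 z, ∃ V, IsOpen V ∧ z ∈ V ∧ V ⊆ O ∧ P V) :
    ∃ (A : Type) (_ : Fintype A) (V W : A → Set M), (∀ a, IsOpen (W a) ∧ P (V a) ∧ P (W a) ∧ W a ⊆ V a) ∧
      K ⊆ ⋃ a, W a ∧ ∀ a b, (W a ∩ W b).Nonempty → W b ⊆ V a := by
  choose V v1 v2 _ v4 using fun z => h z univ univ_mem
  obtain ⟨δ, h0, hδ⟩ := lebesgue_number_lemma_of_metric hK v1 fun x _ => mem_iUnion.2 ⟨x, v2 x⟩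
  choose s hs using fun x : K => hδ x x.2
  choose W w1 w2 w3 w4 using fun z : K => h z _ (ball_mem_nhds (z : M) (show 0 < δ / 3 by positivity))
  obtain ⟨t, ht⟩ := hK.elim_finite_subcover W w1 fun x hx => mem_iUnion.2 ⟨⟨x, hx⟩, w2 _⟩
  have k : ∀ a b, (W a ∩ W b).Nonempty → W b ⊆ V (s a) := fun a b ⟨x, hx⟩ y hy => hs a (mem_ball.2 (by
    linarith [dist_triangle4 y b x a, mem_ball.1 (w3 a hx.1), mem_ball'.1 (w3 b hx.2), mem_ball.1 (w3 b hy)]))
  exact ⟨t, inferInstance, fun a => V (s a), fun a => W a, fun a => ⟨w1 a, v4 _, w4 a, k a a ⟨_, w2 _, w2 _⟩⟩,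
    by simpa only [iUnion_coe_set, iUnion_subtype] using ht, fun a b => k a b⟩

theorem ev_int {α : Type} {𝒰 : Ultrafilter α} {n : α → ℤ} {R : ℝ}
    (h : ∀ᶠ i in (𝒰 : Filter α), ‖2 * π * n i‖ ≤ R) : ∃ z, ∀ᶠ i in (𝒰 : Filter α), n i = z := by
  refine ((Ultrafilter.eventually_exists_mem_iff (f := 𝒰) (P := fun z i => n i = z) (finite_Icc (-⌈R⌉) ⌈R⌉)).1
    (h.mono fun i hi => ⟨_, abs_le.1 (Int.cast_le (R := ℝ).1 ?_), rfl⟩)).imp fun _ k => k.2
  rw [Real.norm_eq_abs, abs_mul, abs_of_pos Real.two_pi_pos] at hi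
  rw [Int.cast_abs]
  nlinarith [Int.le_ceil R, Real.pi_gt_three, abs_nonneg (n i : ℝ)]

variable {X : Mf 4} {ι : Type} [Fintype ι] (F : Fr X.I X.M ι)

/-- the sets of `rad` -/
def Rd (V : Set X.M) : Prop := IsOpen V ∧ (∃ L, IsCompact L ∧ V ⊆ L) ∧ ∃ C : ℝ≥0,
  (∀ a, Frm F a → ∃ φ : X.M → ℝ, Sm X.I φ ∧ ∀ k,
    ∫⁻ x in V, ‖a k x - F.D k φ x‖ₑ ^ 2 ∂F.μ ≤ C * ∫⁻ x in V, ‖da F a x‖ₑ ^ 2 ∂F.μ) ∧
  ∀ f : X.M → ℝ, Sm X.I f → ∃ m : ℝ,
    ∫⁻ x in V, ‖f x - m‖ₑ ^ 2 ∂F.μ ≤ C * ∑ k, ∫⁻ x in V, ‖F.D k f x‖ₑ ^ 2 ∂F.μ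

theorem ex_rd (z : X.M) (O : Set X.M) (hO : O ∈ 𝓝 z) : ∃ V, IsOpen V ∧ z ∈ V ∧ V ⊆ O ∧ Rd F V := by
  have := lcs (I := X.I) (M := X.M)
  obtain ⟨L, hL, hz⟩ := exists_compact_mem_nhds z
  obtain ⟨V, h1, h2, h3, h4⟩ := rad X ι F z _ (inter_mem hO hz)
  exact ⟨V, h1, h2, h3.trans inter_subset_left, h1, ⟨L, hL, h3.trans inter_subset_right⟩, h4⟩

variable {F} {V : Set X.M} {α : Type} {l : Filter α}

theorem Rd.fin (h : Rd F V) : F.μ V ≠ ⊤ :=
  let ⟨_, h1, h2⟩ := h.2.1; ((measure_mono h2).trans_lt h1.measure_lt_top).ne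

theorem Rd.pot (h : Rd F V) {a : α → ι → X.M → ℝ} (ha : ∀ i, Frm F (a i))
    (hd : ∀ K, IsCompact K → L2 F.μ l K fun i => da F (a i)) : ∃ φ : α → X.M → ℝ, (∀ i, Sm X.I (φ i)) ∧
      ∀ k, L2 F.μ l V fun i x => a i k x - F.D k (φ i) x := by
  obtain ⟨-, ⟨L, h1, h2⟩, C, h3, -⟩ := h
  obtain ⟨B, hB⟩ := l2_mono (hd L h1) h2
  choose φ f1 f2 using fun i => h3 _ (ha i)
  exact ⟨φ, f1, fun k => ⟨C * B, hB.mono fun i hi => (f2 i k).trans (mul_le_mul_right hi _)⟩⟩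

theorem Rd.poi (h : Rd F V) {f : α → X.M → ℝ} (hf : ∀ i, Sm X.I (f i))
    (hd : ∀ k, L2 F.μ l V fun i => F.D k (f i)) : ∃ n : α → ℤ, L2 F.μ l V fun i x => f i x - 2 * π * n i := by
  obtain ⟨C, -, h3⟩ := h.2.2
  choose B hB using hd
  choose m hm using fun i => h3 _ (hf i)
  have h1 : L2 F.μ l V fun i x => f i x - m i := ⟨C * ∑ k, B k, (eventually_all.2 hB).mono fun i hi =>
    (hm i).trans (by push_cast; exact mul_le_mul_right (Finset.sum_le_sum fun k _ => hi k) _)⟩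
  refine ⟨fun i => round (m i / (2 * π)), ?_⟩
  simpa only [sub_add_sub_cancel] using l2_add h1 (l2_bdd (f := fun i _ => m i - 2 * π * round (m i / (2 * π)))
    h.1.measurableSet h.fin (2 * π * (1 / 2)) (.of_forall fun i _ _ => by
      rw [← mul_div_cancel₀ (m i) Real.two_pi_pos.ne', mul_div_cancel_left₀ _ Real.two_pi_pos.ne', ← mul_sub,
        Real.norm_eq_abs, abs_mul, abs_of_pos Real.two_pi_pos]
      exact mul_le_mul_of_nonneg_left (abs_sub_round _) Real.two_pi_pos.le))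
    fun i => (hf i).continuous.sub continuous_const

/-- **LOC-CECH** -/
theorem cech : Loc74.CechStmt := by
  intro X ι _ F K hK α 𝒰 a ha hd
  classical
  have := lcs (I := X.I) (M := X.M)
  have := scs (I := X.I) (M := X.M)
  have := openPos F.toPre
  obtain ⟨A, _, V, W, hW, cov, st⟩ : ∃ (A : Type) (_ : Fintype A) (V W : A → Set X.M),
      (∀ a, IsOpen (W a) ∧ Rd F (V a) ∧ Rd F (W a) ∧ W a ⊆ V a) ∧
      K ⊆ ⋃ a, W a ∧ ∀ a b, (W a ∩ W b).Nonempty → W b ⊆ V a := by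
    have := Manifold.metrizableSpace X.I X.M
    let _ := TopologicalSpace.pseudoMetrizableSpacePseudoMetric X.M
    exact star hK (ex_rd F)
  have mW := fun b => (hW b).1.measurableSet
  choose φ f1 f2 using fun b => (hW b).2.1.pot ha hd
  have cφ := fun b i => (f1 b i).continuous
  have c1 : ∀ b k i, Continuous fun x => a i k x - F.D k (φ b i) x := fun b k i =>
    ((ha i).sm k).continuous.sub (F.sm_D (f1 b i) k).continuous
  have : ∀ b c, ∃ n : α → ℤ, (W b ∩ W c).Nonempty →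
      L2 F.μ 𝒰 (W c) fun i x => φ b i x - φ c i x - 2 * π * n i := fun b c => by
    by_cases h : (W b ∩ W c).Nonempty
    · obtain ⟨n, hn⟩ := (hW c).2.2.1.poi (f := fun i x => φ b i x - φ c i x) (fun i => (f1 b i).sub (f1 c i))
        fun k => l2_congr (l2_sub (l2_mono (f2 c k) (hW c).2.2.2) (l2_mono (f2 b k) (st b c h)) (c1 c k)) (mW c)
          (.of_forall fun i x _ => (dv_sub' (f1 b i x) (f1 c i x)).trans (by simp [Pre.D_def]))
      exact ⟨n, fun _ => hn⟩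
    · exact ⟨0, fun k => (h k).elim⟩
  choose n hn using this
  have c2 : ∀ b c i (r : ℝ), Continuous fun x => φ b i x - φ c i x - r := fun b c i r =>
    ((cφ b i).sub (cφ c i)).sub continuous_const
  have : ∀ b c d, ∃ z, ∀ᶠ i in (𝒰 : Filter α), (W b ∩ W c ∩ W d).Nonempty → n b c i + n c d i - n b d i = z :=
    fun b c d => by
    by_cases h : (W b ∩ W c ∩ W d).Nonempty
    · have o := ((hW b).1.inter (hW c).1).inter (hW d).1
      obtain ⟨x, hx⟩ := id h
      obtain ⟨R, hR⟩ := l2_const (r := fun i => 2 * π * (n b c i + n c d i - n b d i : ℤ)) (l2_congr (l2_sub (l2_sub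
        (l2_mono (hn b d ⟨x, hx.1.1, hx.2⟩) inter_subset_right) (l2_mono (hn b c ⟨x, hx.1⟩) fun _ k => k.1.2)
        fun _ => c2 _ _ _ _) (l2_mono (hn c d ⟨x, hx.1.2, hx.2⟩) inter_subset_right)
        fun _ => (c2 _ _ _ _).sub (c2 _ _ _ _)) o.measurableSet (.of_forall fun i x _ => by push_cast; ring))
        (o.measure_ne_zero _ h)
      obtain ⟨z, hz⟩ := ev_int hR
      exact ⟨z, hz.mono fun _ k _ => k⟩
    · exact ⟨0, .of_forall fun _ k => (h k).elim⟩
  choose z hz using this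
  replace hz := eventually_all.2 fun b => eventually_all.2 fun c => eventually_all.2 (hz b c)
  obtain ⟨j, hj⟩ := hz.exists
  obtain ⟨N, hN⟩ : ∃ N : A → A → α → ℤ, ∀ b c i, N b c i = n b c i - n b c j := ⟨_, fun _ _ _ => rfl⟩
  replace hz : ∀ᶠ i in (𝒰 : Filter α), ∀ b c d, (W b ∩ W c ∩ W d).Nonempty → N b d i = N b c i + N c d i :=
    hz.mono fun i hi b c d h => by
      have := hi b c d h; have := hj b c d h; simp only [hN]; omega
  replace hn : ∀ b c, (W b ∩ W c).Nonempty → L2 F.μ 𝒰 (W c) fun i x => φ b i x - φ c i x - 2 * π * N b c i :=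
    fun b c h => l2_congr (l2_add (hn b c h) (l2_bdd (f := fun _ _ => 2 * π * n b c j) (mW c) (hW c).2.2.1.fin _
      (.of_forall fun _ _ _ => le_rfl)) fun _ => c2 _ _ _ _) (mW c)
      (.of_forall fun i x _ => by rw [hN]; push_cast; ring)
  obtain ⟨L, hL, l1, l2⟩ := exists_compact_between hK (isOpen_iUnion fun b => (hW b).1) cov
  obtain ⟨ρ, hρ⟩ := SmoothPartitionOfUnity.exists_isSubordinate X.I hL.isClosed W (fun b => (hW b).1) l2
  have r1 : ∀ x ∈ interior L, ∑ b, ρ b x = 1 := fun x hx =>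
    (finsum_eq_sum_of_fintype _).symm.trans (ρ.sum_eq_one (interior_subset hx))
  have r2 : ∀ b, Sm X.I (ρ b) := fun b => (ρ b).contMDiff
  have r3 : ∀ b, HasCompactSupport (ρ b) := fun b => let ⟨_, h1, h2⟩ := (hW b).2.2.1.2.1
    h1.of_isClosed_subset (isClosed_tsupport _) ((hρ b).trans h2)
  have r4 : ∀ k, ∀ x ∈ interior L, ∑ b, F.D k (ρ b) x = 0 := fun k x hx => by
    simp only [Pre.D_def]
    rw [← dv_sum' _ fun b => r2 b x, dv_congr (eventuallyEq_of_mem (isOpen_interior.mem_nhds hx) r1), dv_const]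
    rfl
  let θ : A → α → X.M → ℝ := fun b i x => ∑ c, ρ c x * (φ c i x + 2 * π * N b c i)
  have t1 : ∀ b c i x, SA X.I (fun x => φ c i x + 2 * π * N b c i) x := fun b c i x =>
    (f1 c i x).add contMDiffAt_const
  have t2 : ∀ b i, Sm X.I (θ b i) := fun b i x => SA.sum _ fun c _ => SA.mul (r2 c x) (t1 b c i x)
  choose s hs using fun x (hx : x ∈ interior L) => mem_iUnion.1 (l2 (interior_subset hx))
  let u : α → X.M → ℂ := fun i x => if h : x ∈ interior L then Complex.exp (θ (s x h) i x • Complex.I) else 1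
  have e : ∀ᶠ i in (𝒰 : Filter α), ∀ b, ∀ x ∈ W b ∩ interior L,
      u i =ᶠ[𝓝 x] fun x => Complex.exp (θ b i x • Complex.I) := hz.mono fun i hi b x hx =>
    eventuallyEq_of_mem (((hW b).1.inter isOpen_interior).mem_nhds hx) fun y hy => by
      have : θ (s y hy.2) i y = θ b i y + 2 * π * N (s y hy.2) b i := by
        rw [← one_mul (2 * π * _), ← r1 y hy.2, Finset.sum_mul, ← Finset.sum_add_distrib]
        refine Finset.sum_congr rfl fun c _ => ?_
        by_cases h : ρ c y = 0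
        · simp [h]
        · rw [hi _ b c ⟨y, ⟨hs y hy.2, hy.1⟩, hρ c (subset_tsupport _ h)⟩]; push_cast; ring
      simp only [u, dif_pos hy.2, this]
      exact Complex.exp_eq_exp_iff_exists_int.2 ⟨N (s y hy.2) b i, by simp; ring⟩
  refine ⟨_, isOpen_interior, l1, u, e.mono fun i hi => ⟨fun x hx => ?_, fun x hx => ?_⟩, fun k =>
    l2_mono (l2_iUnion (S := fun b => W b ∩ interior L) fun b => ?_)
      fun x hx => mem_iUnion.2 ⟨_, hs x hx, hx⟩⟩
  · exact (((gau_exp F (t2 _ i)).1.1 x).congr_of_eventuallyEq (hi _ x ⟨hs x hx, hx⟩)).contMDiffWithinAt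
  · rw [(hi _ x ⟨hs x hx, hx⟩).self_of_nhds]; exact (gau_exp F (t2 _ i)).1.2 x
  have mb := (mW b).inter (isOpen_interior (s := L)).measurableSet
  refine l2_congr (l2_sum Finset.univ (f := fun c i x => ρ c x * (a i k x - F.D k (φ c i) x) +
    F.D k (ρ c) x * (φ b i x - φ c i x - 2 * π * N b c i)) (fun c => l2_add (l2_mul (l2_mono (f2 c k) (hW c).2.2.2)
      (mW c) (r2 c).continuous (r3 c) ((subset_tsupport _).trans (hρ c))) ?_
      fun i => (r2 c).continuous.mul (c1 c k i)) fun c i => ((r2 c).continuous.mul (c1 c k i)).add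
      ((F.sm_D (r2 c) k).continuous.mul (c2 _ _ _ _))) mb (e.mono fun i hi x hx => ?_)
  · have s := (support_dv (e := F.e k) (ρ c)).trans (hρ c)
    by_cases h : (W b ∩ W c).Nonempty
    · exact l2_mul (hn b c h) (mW c) (F.sm_D (r2 c) k).continuous (F.hcs_D (r3 c) k) s
    · exact l2_null mb (.of_forall fun i x hx =>
        mul_eq_zero_of_left (notMem_support.1 fun k => h ⟨x, hx.1, s k⟩) _)
  have h1 : om F (u i) k x = F.D k (θ b i) x := by
    rw [← (gau_exp F (t2 b i)).2, om, om, (hi b x hx).self_of_nhds, Pre.D_def, dv_congr (hi b x hx), Pre.D_def]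
  have h2 : F.D k (θ b i) x = ∑ c, (F.D k (ρ c) x * (φ c i x + 2 * π * N b c i) + ρ c x * F.D k (φ c i) x) :=
    (dv_sum' _ fun c => SA.mul (r2 c x) (t1 b c i x)).trans (Finset.sum_congr rfl fun c _ => by
      rw [dv_mul (r2 c x) (t1 b c i x), dv_add' (f1 c i x) contMDiffAt_const, dv_const, Pi.zero_apply, add_zero]; rfl)
  have h3 : a i k x = ∑ c, (ρ c x * a i k x + F.D k (ρ c) x * φ b i x) := by
    rw [Finset.sum_add_distrib, ← Finset.sum_mul, ← Finset.sum_mul, r1 x hx.2, r4 k x hx.2]; ring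
  refine (congrArg₂ (· - ·) h3 (h1.trans h2)).trans ?_
  rw [← Finset.sum_sub_distrib]
  exact Finset.sum_congr rfl fun c _ => by ring

end Crest.Agent.X212.Rad57
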