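import Crest.Agent.X212.Num57.Sec
import Crest.Agent.X212.Dfl49.Dix
import Crest.Agent.X212.Spl54.Ex

/-!
# Row 212 (helper57): a positive Weitzenboeck term on `V⁻` makes the Dirac index nonnegative
-/

set_option autoImplicit false
set_option linter.unusedSectionVars false
noncomputable section
open scoped Manifold ContDiff Topology InnerProductSpace
open MeasureTheory Set Function Filter

namespace Crest.Agent.X212.Sec57
open An An.Pre Sob92 Mod61 Map77 Nk89 Wz78 Eqv71 Spl54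

section tr
variable {E : Type} [NormedAddCommGroup E] [NormedSpace ℝ E] [FiniteDimensional ℝ E]
  [MeasurableSpace E] [BorelSpace E]
  {HM : Type} [TopologicalSpace HM] {I : ModelWithCorners ℝ E HM} [I.Boundaryless]
  {M : Type} [TopologicalSpace M] [ChartedSpace HM M] [IsManifold I ∞ M]
  [MeasurableSpace M] [T2Space M] [BorelSpace M] [SecondCountableTopology M]
  {ι lam : Type} [Fintype ι] [Fintype lam] {B : Base M ι lam} {G : Geo I M ι lam}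
  {m m' : Md M ι lam} {W : m.Cn} {W' : m'.Cn} {O O' : Set M} {d : ℝ}

variable (B G W d) in
/-- the Weitzenboeck term is `≥ d` on `V⁻` -/
def Ng (x : M) : Prop :=
  ∀ a, m.pm B x a = a → d * ‖a‖ ^ 2 ≤ ⟪wK I G.F.e G.F.c m.ρ W x a, a⟫_ℝ

theorem co_tr {U v} {u : M → CL m'.V m.V} (g : LM B G B G O id U v W' W u) (hO' : IsClopen O')
    (s : O' ⊆ O) (h : ∀ x ∈ O', Ng B G W d x) (φ : Sec I (O'.indicator (m'.pm B))) :
    d * ∫ x, ‖φ.1 x‖ ^ 2 ∂G.F.μ ≤ ∫ x, ‖dir I G.F.e m'.ρ W' φ.1 x‖ ^ 2 ∂G.F.μ := by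
  have z : ∀ x ∉ O', φ.1 x = 0 := fun x hx => by rw [← φ.2.2.2 x, indicator_of_notMem hx]; rfl
  have p : ∀ x ∈ O', m'.pm B x (φ.1 x) = φ.1 x := fun x hx => by
    rw [← indicator_of_mem hx (m'.pm B), φ.2.2.2]
  have ev : ∀ x ∉ O', ∀ᶠ y in 𝓝 x, φ.1 y = 0 := fun x hx =>
    mem_of_superset (hO'.1.isOpen_compl.mem_nhds hx) z
  have e0 : ∀ x ∉ O', (fun y => u y (φ.1 y)) =ᶠ[𝓝 x] fun _ => 0 := fun x hx =>
    (ev x hx).mono fun y k => by simp only [k, map_zero]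
  have sm : Sm I fun x => u x (φ.1 x) := fun x => by
    by_cases hx : x ∈ O'
    exacts [SA.app (g.su x (s hx)) (φ.2.1 x), contMDiffAt_const.congr_of_eventuallyEq (e0 x hx)]
  have k := Lns95.low g.hB' g.hG' g.ok' g.cn'.cc g.cn'.sk (d := d) sm
    (φ.2.2.1.mono fun x hx k => hx (by simp [k])) (fun x => ?_) fun x => ?_
  · refine le_trans (le_of_eq ?_) (((le_add_of_nonneg_left (integral_nonneg fun x =>
      Finset.sum_nonneg fun _ _ => sq_nonneg _)).trans k).trans_eq ?_)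
    · congr 2
      funext x
      by_cases hx : x ∈ O'
      · rw [(g.me x (s hx)).norm (by rw [← p x hx, Eqv71.p_pm g.ok])]
      · simp [z x hx]
    · congr 1
      funext x
      by_cases hx : x ∈ O'
      · rw [show dir I G.F.e m.ρ W _ x = _ from g.dir (s hx) (φ.2.1 x) (sm x) (.of_forall fun _ => rfl),
          (g.me x (s hx)).norm]
        simp only [dir, map_sum, ← mul_apply_eq_comp (m'.p x), (g.ok.cl x).pl]
      · simp [dir, nab, dv_congr (e0 x hx), dv_congr (ev x hx : φ.1 =ᶠ[𝓝 x] fun _ => 0), z x hx,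
          dv_const]
  · by_cases hx : x ∈ O'
    exacts [(g.me x (s hx)).pu_apply g.ok _, by simp [z x hx]]
  · by_cases hx : x ∈ O'
    · exact h x hx _ (((g.me x (s hx)).pm (g.be x (s hx)) g.hB g.hB' g.ok _).trans (by rw [p x hx]))
    · simp [z x hx]

end tr

variable {Z : X212.M.Mf 4} {κ lam T : Type} [Fintype κ] [Fintype lam] [NormedAddCommGroup T]
  [NormedSpace ℝ T] {𝔉 : Mod61.Fam Z.I Z.M (Option κ) lam T} {k : ℕ} {d d₁ : ℤ}

theorem fam_le {O : Set Z.M} {o : Ref 𝔉} {o₁ : Ref (sF 𝔉 𝔉.Om O)} {c : Cfg Z.M (Option κ) lam 0}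
    {y : Pnt o 0} {y₁ : Pnt o₁ 0} (h : 𝔉.OK) (h₁ : (sF 𝔉 𝔉.Om O).OK) (hO : O = ∅) (hk : 6 ≤ k)
    (ht : y₁.t = y.t)
    (ad : Adm0 c 𝔉.B (𝔉.G y.t)) (R : Nk89.Rep c y) (R₁ : Nk89.Rep c y₁) (h0 : c.Φ = 0)
    {ψ : Z.M → ℝ} (w : Wt (𝔉.G y.t).F 𝔉.F0 ψ) (hψ : ∀ x, ∑ a, (𝔉.G y.t).F.D a ψ x ^ 2 ≤ 1 / 4)
    (ng : ∀ x ∈ 𝔉.Om', Ng 𝔉.B (𝔉.G y.t) c.W (1 / 3) x) (H : Idx k (𝔉.eq0 0 0 0) y d)
    (H₁ : Idx k ((sF 𝔉 𝔉.Om O).eq0 0 0 0) y₁ d₁) : d₁ ≤ d := by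
  subst hO
  have f := Nat27.idx_ff h hk H
  have f₁ := Ulc97.part h h₁ subset_rfl hk ht ad R R₁ H₁
  obtain ⟨u, ζ, e⟩ := R
  have e0 : uy y = base y.cfg.W 0 := congrArg _ (funext fun x => by
    by_cases hx : x ∈ 𝔉.Om'
    · exact (e.Φ x (h.sub hx)).trans (by simp [h0, cs_zero])
    · rw [← Pp_Φ h y x, Ref.Pp, indicator_of_notMem hx]; rfl)
  have hG := h.G _ y.ht
  have C := cp_of h.B hG o.ok (y.ad0 h).conn
  have a := (adj_rem h).hy o y.ht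
  have a₁ := (adj_rem h₁).hy (Ulc97.rR o 𝔉.Om ∅) y.ht
  have cu := cb_uy h y
  rw [e0] at f f₁ cu
  exact sub_nonneg.1 ((ff_dir (Dfl49.cpw C (Dfl49.wt_rem w)) h.Om h.Om' a a₁ cu f f₁).nonneg_of_surj
    (dir_surj h.Om h.Om' a cu C (riem_of_vol hG.vol) (Dfl49.wt_rem w) hψ (co_tr (((lg_refl h.B hG
      h.Om.2).of_ceq (ad0_of ad) (y.ad0 h) e).symm (inv_refl h.Om.2)) h.Om' h.sub ng) k))

section job
open M Nd18 Cht98 Rf65
variable {Wi : Type} {X : Mf 4} {A : Type} [Fintype A] [DecidableEq lam] {M : Mark X A κ}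
  {W : World M} {N : ML M lam} {Λ : Lns W N} {A' h : Type} [Fintype A'] [DecidableEq A'] [Fintype h]
  {r n : ℕ} {J : Job Wi Λ A' h r n} {c : M.Cl} {δ : ℝ} {y : J.Obc c} {P P' : Set (Reg A)}

/-- **COKD** -/
theorem ix_le (hJ : J.OK) (h0 : 0 < δ) (h1 : δ ≤ dl0) (hp : ∀ π ∈ P, M.sys.Piece c.1 π)
    (hs : P' ⊆ P) (g : Go δ y P)
    (ng : ∀ x ∈ W.un c P', Ng (J.B c) (J.G c y.s) y.x.con.W (1 / 3) x) (e : Ix δ y P P' d)
    (e₁ : Ix δ y P ∅ d₁) : d₁ ≤ d := by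
  obtain ⟨⟨s, _, _⟩, o, -, x, e, -, -, -, k, l⟩ := e
  obtain rfl : s = y.s := e
  obtain ⟨⟨s, _, _⟩, o₁, -, x₁, e, -, -, -, k₁, l₁⟩ := e₁
  obtain rfl : s = y.s := e
  let G := (Add46.jGR hJ hp hs g.bp h0 h1).X
  exact fam_le (𝔉 := g.bp.Fm P P' (fun _ : T0 => y.s) δ) (o₁ := o₁) G.ok
    (Add46.jGR hJ hp (empty_subset _) g.bp h0 h1).X.ok (biUnion_empty _) (by norm_num)
    (Subsingleton.elim _ _) g.adm k k₁ rfl G.wt G.sml ng l l₁

end job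

end Crest.Agent.X212.Sec57
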