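import Crest.Agent.X212.Num57.FrxG
import Crest.Agent.X212.Num57.Pc
import Crest.Agent.X212.Kof81.Defs
import Crest.Agent.X212.Gl67.Hyp
import Crest.Agent.X212.Cay24.GlL
import Crest.Agent.X212.Mon62.NkJ
import Crest.Agent.X212.Map77.Num
import Crest.Agent.X212.Loc66.Paste

/-! # Row 212, GL-FRX (helper57): the index on the long neck -/

set_option autoImplicit false
set_option linter.unusedSectionVars false
noncomputable section
open scoped Manifold ContDiff Topology InnerProductSpace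
open MeasureTheory Set Function Filter Module

namespace Crest.Agent.X212.Frx57
open An Prm93 Mod61 Map77 Sob92 Fred93 Gl67
open Num57 (lad sgd eud)

section gen
variable {E : Type} [NormedAddCommGroup E] [NormedSpace ℝ E] [FiniteDimensional ℝ E]
  [MeasurableSpace E] [BorelSpace E]
  {HM : Type} [TopologicalSpace HM] {I : ModelWithCorners ℝ E HM} [I.Boundaryless]
  {M : Type} [TopologicalSpace M] [ChartedSpace HM M] [IsManifold I ∞ M]
  [MeasurableSpace M] [T2Space M] [BorelSpace M] [SecondCountableTopology M]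
  {ι lam h : Type} [Fintype ι] [Fintype lam] [Fintype h]
  {T U Up R : Type} [NormedAddCommGroup T] [NormedSpace ℝ T] [NormedAddCommGroup U]
  [NormedSpace ℝ U] [NormedAddCommGroup Up] [NormedSpace ℝ Up] [NormedAddCommGroup R]
  [NormedSpace ℝ R] {N r n m : ℕ} {Jc : En (Fin N)} {𝔉 : Fam I M ι lam T}

/-- the topological term of the index -/
def tp (B : Base M ι lam) (G : Geo I M ι lam) : ℝ :=
  ∫ x, (lad B G x / 2 - sgd G.F B.o x / 2 - 3 * (eud G.F B.o x + sgd G.F B.o x) / 2) ∂G.F.μ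

/-- the side over fewer parameters -/
@[reducible] def rs (s : Sid 𝔉 N Jc U Up R) (Q : Set T) : Sid (Mon62.res 𝔉 Q) N Jc U Up R :=
  ⟨s.p, s.ρ, s.j, s.A0, s.Φ0, s.b, s.dr, s.bp, s.mo, s.lo, s.ht, s.sh⟩

theorem ok_rs {s : Sid 𝔉 N Jc U Up R} (H : s.OK) {Q : Set T} (hQ : IsOpen Q) (h0 : 0 ∈ Q) :
    (rs s Q).OK := { H with fam := Mon62.ok_res H.fam hQ, q0 := ⟨H.q0, h0⟩ }

variable [CompactSpace M]

theorem n0_kap (h : 𝔉.OK) (h4 : finrank ℝ E = 4) (om : 𝔉.Om = univ ∧ 𝔉.Om' = univ) {o : Ref 𝔉}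
    (y : Pnt o r) : (n0 y : ℝ) = 6 * y.cfg.kap 𝔉.B (𝔉.G y.t) + tp 𝔉.B (𝔉.G y.t) := by
  have g := h.G _ y.ht
  have k := Num57.OK.of_base h4 h.B g
  have i1 : Integrable (o.m.kd 𝔉.B (𝔉.G y.t).F y.cfg.W) (𝔉.G y.t).F.μ :=
    Num57.int_sm (Loc66.sm_kd h.B g o.ok (y.ad0 h).conn)
  have i2 : Integrable (lad 𝔉.B (𝔉.G y.t)) (𝔉.G y.t).F.μ :=
    Num57.lad99 h.B g ▸ Num57.int_sm (Idg99.sm_lad h.B g h4)
  have i3 := ((k.int_eud.add k.int_sgd).const_mul 3).div_const 2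
  have i4 := k.int_sgd.div_const 2
  rw [n0_eq h h4, om.1, om.2, Measure.restrict_univ, Num57.eud99, Num57.sgd99, Num57.lad99 h.B g,
    Cfg.kap, Md.kap, tp, ← integral_const_mul]
  refine (integral_add ((i1.const_mul 8).sub i3) (((i2.div_const 2).sub (i1.const_mul 2)).sub
    i4)).symm.trans (Eq.trans ?_ (integral_add (i1.const_mul 6) (((i2.div_const 2).sub i4).sub i3)))
  exact integral_congr_ae (.of_forall fun x => by
    simp only [Pi.sub_apply, Pi.add_apply, Pnt.cfg]; ring)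

/-- the equations of a job -/
theorem aff_job (h : 𝔉.OK) {o : Ref 𝔉} {τ e : T → PtX M ι lam r n m} (hτ : o.Sm τ)
    (hD : ∀ t ∈ 𝔉.Q, ∀ x, (e t).D x = x.eD (𝔉.G t) (τ t).toPt)
    (hC : ∀ t ∈ 𝔉.Q, ∀ x, (e t).C x = x.eC 𝔉.B (𝔉.G t) (τ t).toPt)
    (hS : ∀ t, (e t).S = (τ t).S) (hR : ∀ t x i, (e t).R x i = ‖x.z‖ ^ 2 - 1) :
    Aff o (fun t => (𝔉.G t).F) r n m e := fun j hj => by
  have a : o.Sm fun t => (⟨⟨(-τ t).D, (-τ t).C, (τ t).S⟩, fun x _ => ‖x.z‖ ^ 2 - 1⟩ :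
      PtX M ι lam r n m) := fun k hk =>
    let ⟨g, g1, g2⟩ := mem_SmS.1 (neg_mem (mem_SmS.2 hτ)) k hk
    ⟨fun v => ((g v).1, (g v).2.1, -(g v).2.2.1, fun _ => ‖v.2.2.1‖ ^ 2 - 1),
      g1.fst.prodMk (g1.snd.fst.prodMk (g1.snd.snd.fst.neg.prodMk (contDiff_pi.2 fun _ =>
        ((contDiff_norm_sq ℂ).comp (by fun_prop)).sub contDiff_const).contDiffOn)),
      fun y => ⟨(g2 y).D, (g2 y).C, (congrArg Neg.neg (g2 y).S).trans (neg_neg _), rfl⟩⟩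
  obtain ⟨g, g1, g2⟩ := (adj_closed h).aff_eq0.add h a j hj
  exact ⟨g, g1, fun y => ⟨(g2 y).D.trans (congrArg _ ((hD _ y.ht _).trans
      (funext fun _ => sub_eq_add_neg _ _)).symm),
    (g2 y).C.trans (congrArg _ ((hC _ y.ht _).trans (funext fun _ => sub_eq_add_neg _ _)).symm),
    (g2 y).S.trans ((zero_add _).trans (congrFun (hS _) _).symm),
    (g2 y).R.trans ((zero_add _).trans (funext fun i => (hR _ _ i).symm))⟩⟩

variable {s : Sid 𝔉 N Jc U Up R} (H : s.OK) {c : Cm N r h R} {ct : h → Cut M lam}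
  {ε : Eqn 𝔉 r n m ct} {δ : ℝ} {k : ℕ} [FiniteDimensional ℝ T] [FiniteDimensional ℝ U]
  [FiniteDimensional ℝ Up] [FiniteDimensional ℝ R]

set_option maxHeartbeats 800000 in
theorem frx' (hδ : 0 ≤ δ) (hk : 7 ≤ k) (h4 : finrank ℝ E = 4) {Q : Set T} (hQ : IsOpen Q)
    (h0 : 0 ∈ Q) {F : s.EE r ct δ k → s.Y1 n m ct δ k × s.Y2 h δ k} (hr : s.Rep c ε δ k F)
    (he : Aff (ow (ok_rs H hQ h0) δ) (fun t => (𝔉.G t).F) r n m ε.e)
    (hc : ∀ i, (ct i).OK 𝔉.B (𝔉.G 0).F) (hσ : ∀ i x, IsCompactOperator (ε.σ 0 i x)) {ν : ℤ}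
    (hν : 6 * (s.cfg c 0 (0, 0, 0, 0)).kap 𝔉.B (𝔉.G 0) + tp 𝔉.B (𝔉.G 0) + 2 * r + finrank ℝ T -
      2 * n - m - 2 * Fintype.card h = ν) :
    Fr (fderiv ℝ F 0) (ν + finrank ℝ U - finrank ℝ Up - finrank ℝ R) := by
  have H' := ok_rs H hQ h0
  have hr' : (rs s Q).Rep c ⟨ε.e, ε.σ⟩ δ k F := ⟨hr.sm.mono fun _ hv => hv.1, fun w q hq =>
    let v := hr.val w q hq.1; ⟨v.g, v.D, v.C, v.pk, v.e⟩⟩
  have e := cfg_eq H' c δ (y0 H' c δ) (w := 0) (funext fun x => by simp [y0]) 0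
  rw [show (y0 H' c δ).z - c.z0 = 0 from sub_self _] at e
  have e1 := n0_kap (ok_wf H' hδ) h4 H.om (y0 H' c δ)
  rw [← e] at e1
  have B := frx (s := rs s Q) (ε := ⟨ε.e, ε.σ⟩) (F := F) H' hδ hk hr' he hc hσ
  refine Fr.cast B ?_
  rw [show n0 (y0 H' c δ) + 2 * r + finrank ℝ T - 2 * n - m - 2 * Fintype.card h = ν from
    Int.cast_injective (α := ℝ) (by push_cast; rw [e1]; exact hν)]

end gen

open M An.Job Gj67

variable {Wi : Type} {X : Mf 4} {A κ lam : Type} [Fintype A] [Fintype κ] [Fintype lam]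
  [DecidableEq lam] {M : Mark X A κ} {W : World M} {L : ML M lam} {Λ : Lns W L}
  {A' h : Type} [Fintype A'] [DecidableEq A'] [Fintype h] {r n : ℕ}
  {J : Job Wi Λ A' h r n} {σ : Cel A'} {a : A'}

theorem dim_Tc (ha : σ a = none) : finrank ℝ (Tc σ a) + 1 = dim σ := by
  rw [finrank_fintype_fun_eq_card, Fintype.card_subtype, dim,
    ← Finset.card_erase_add_one (s := {a | σ a = none}) (a := a) (by simpa using ha)]
  exact congrArg (Finset.card · + 1) (by ext; simp [and_comm])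

theorem cpt_σc (c : M.Cl) (q : Wi →₀ ℝ) (s : A' → ℝ) (i : h)
    (x : Cfg (W.Z c).M (Option κ) (lam ⊕ lam) r) : IsCompactOperator (J.σc c q s i x) :=
  Hol14.cpt_sum (A := fun w => (q w * J.cc i w s) • x.tc (J.B c) (J.G c s).F (J.cut c i)
    ((J.tp c).tc (J.tc i w))) _ fun w _ => (Hol14.cpt_tc _).smul (q w * J.cc i w s)

variable {U Up R : Type} [NormedAddCommGroup U] [NormedSpace ℝ U] [NormedAddCommGroup Up]
  [NormedSpace ℝ Up] [NormedAddCommGroup R] [NormedSpace ℝ R] {d : Dat J σ a U Up R}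
  {q₀ : Wi →₀ ℝ} {δ : ℝ}

variable (d) in
/-- parameters inside the cell -/
def Qi : Set (Tc σ a) := {t | ∀ i, d.y.s i.1 + t i < 1}

theorem isOpen_Qi : IsOpen (Qi d) := by
  rw [Qi, ofPred_forall]
  exact isOpen_iInter_of_finite fun i => isOpen_lt (by fun_prop) continuous_const

theorem cd_s (τ : ℝ) : ContDiff ℝ ∞ (d.s τ) := contDiff_pi.2 fun i => by
  simp only [ee]
  split_ifs <;> fun_prop

variable (H : d.OK q₀ δ)
include H

theorem zero_Qi : 0 ∈ Qi d := fun i => (add_zero _).trans_lt (H.int i.1 i.2.1 i.2.2).2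

theorem ov_s {τ : ℝ} (hτ : τ < 1) {t : Tc σ a} (ht : t ∈ Qi d) : J.Ov σ M.c0 (d.s τ t) := by
  have e : ∀ i b, σ i = some b → d.s τ t i = b01 b := fun i b k => by
    rw [Dat.s, ee, dif_neg fun c => by simp [k] at c, if_neg fun c => by simp [c, H.fr] at k]
    exact H.sol.cell.1 i b k
  have l : ∀ i, (J.hd i).isSome → d.s τ t i < 1 := fun i k => by
    rcases c : σ i with _ | _ | _
    · rw [Dat.s, ee]
      split_ifs with c1 c2
      exacts [ht ⟨i, c1⟩, hτ, (c1 ⟨c, c2⟩).elim]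
    · rw [e i _ c]; exact zero_lt_one
    · simp [H.ok.soft σ H.mem i c] at k
  have m : d.s τ t ∈ J.dom σ := ⟨e, fun i k => (l i k).le⟩
  exact ⟨m, eq_empty_of_forall_notMem fun x hx =>
    let ⟨i, k1, k2⟩ := H.ok.inf σ H.mem _ m x hx; (l i (by simp [k1])).ne k2⟩

variable [FiniteDimensional ℝ U] [FiniteDimensional ℝ Up] [FiniteDimensional ℝ R]

theorem frx_dat (g : d.Geo) (b : d.Base) {k : ℕ} (hk : 7 ≤ k) {ν : ℤ}
    (hI : ∀ s, J.Ov σ M.c0 s → 6 * J.k + tp (J.B M.c0) (J.G M.c0 s) + 2 * r - 2 * n - 1 -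
      (min r 1 : ℕ) - 2 * Fintype.card h + dim σ = ν) : d.Frx δ k ν := by
  obtain ⟨C, b'⟩ := id b
  filter_upwards [g.len, b', Cay24.lev H g b] with τ ⟨hτ, _⟩ ⟨s, _⟩ lv q F hr
  have := cpt0 W
  have o := ov_s H hτ (zero_Qi H)
  have s' := ok_rs s isOpen_Qi (zero_Qi H)
  have w := ok_wf s' H.δ0.le
  have jl : Mon62.JL J σ ((rs (d.Xs τ) (Qi d)).wf δ) (d.s τ) :=
    ⟨H.ok, H.mem, rfl, fun _ _ => rfl, fun t ht => ov_s H hτ ht.2, (cd_s τ).contDiffOn⟩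
  have pin : ∀ x ∈ M.c0.1, M.pin x := fun _ h => h.elim
  have sm : (ow s' δ).Sm fun t => Mon62.px (min r 1) (J.τ M.c0 q (d.s τ t)) := by
    rw [Mon62.px_τ]
    exact mem_SmS.1 (add_mem (mem_SmS.2 (jl.sm0 w pin)) (Submodule.sum_mem _ fun i _ =>
      Submodule.smul_mem _ _ (mem_SmS.2 (jl.smw w pin i))))
  refine frx' s H.δ0.le hk (W.Z M.c0).dim isOpen_Qi (zero_Qi H) hr
    (aff_job w sm (fun _ _ _ => rfl) (fun _ _ _ => rfl) (fun _ => rfl) fun _ _ _ => rfl)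
    (fun i => H.ok.ct σ H.mem _ o.1 _ o.2 i ((unc_c0 (J := J)).ge (mem_univ i)))
    (cpt_σc _ q _) ?_
  have e1 : ((d.Xs τ).cfg d.cm 0 (0, 0, 0, 0)).kap (J.B M.c0) (J.G M.c0 (d.s τ 0)) = J.k :=
    lv 0 (zero_mem _) 0 s.q0
  have e2 : (finrank ℝ (Tc σ a) + 1 : ℝ) = dim σ := by exact_mod_cast dim_Tc H.fr
  refine Eq.trans ?_ (hI _ o)
  rw [← e1, ← e2]
  exact (by intros; ring : ∀ a b c d e f g : ℝ,
    a + b + c + d - e - f - g = a + b + c - e - 1 - f - g + (d + 1)) _ _ _ _ _ _ _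

omit H in
/-- **GL-FRX** -/
theorem frxL (hr : r ≠ 0) {n₀ : ℤ} (hI : ∀ σ ∈ J.𝒦, ∀ s, J.Ov σ M.c0 s →
    6 * J.k + tp (J.B M.c0) (J.G M.c0 s) + 2 * r - 2 * n - 2 - 2 * Fintype.card h = n₀) :
    Kof81.FrxL J n₀ := fun σ _ _ _ _ _ _ _ H G =>
  frx_dat H G.geo G.base (by norm_num) fun s hs => by
    rw [min_eq_right (Nat.one_le_iff_ne_zero.2 hr)]
    push_cast
    linarith [hI σ H.mem s hs]

end Crest.Agent.X212.Frx57
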