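import Crest.Agent.X212.Gl67.Brg
import Crest.Agent.X212.An.Ext
import Crest.Agent.X212.Hol14.Alg

/-! # Row 212, GL-FRX (helper57): the index of the Banach model of a side (closed manifolds) -/

set_option autoImplicit false
set_option linter.unusedSectionVars false
noncomputable section
open scoped Manifold ContDiff Topology InnerProductSpace
open MeasureTheory Set Function Filter Module

namespace Crest.Agent.X212.Frx57
open An An.Pre Prm93 Mod61 Map77 Sob92 Fred93 Gl67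

section abs
variable {X K U EE Y G F₁ F₂ : Type} [NormedAddCommGroup X] [NormedSpace ℝ X]
  [NormedAddCommGroup K] [NormedSpace ℝ K] [NormedAddCommGroup U] [NormedSpace ℝ U]
  [NormedAddCommGroup EE] [NormedSpace ℝ EE] [NormedAddCommGroup Y] [NormedSpace ℝ Y]
  [NormedAddCommGroup G] [NormedSpace ℝ G] [NormedAddCommGroup F₁] [NormedSpace ℝ F₁]
  [NormedAddCommGroup F₂] [NormedSpace ℝ F₂]

theorem der_aff {H : EE → Y} (h : DifferentiableAt ℝ H 0) (j : K →L[ℝ] EE) (p : Y →L[ℝ] G)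
    (B : K →L[ℝ] G) {c : G} (e : ∀ x, p (H (j x)) = c + B x) (x : K) :
    p (fderiv ℝ H 0 (j x)) = B x := by
  have a := p.hasFDerivAt.comp 0 (HasFDerivAt.comp (g := H) (0 : K)
    (by rw [map_zero]; exact h.hasFDerivAt) j.hasFDerivAt)
  exact DFunLike.congr_fun (a.unique ((B.hasFDerivAt.const_add c).congr_of_eventuallyEq
    (.of_forall e))) x

theorem ind_u {M : Type} {O : Set M} (e : O = univ) (f : M → X) : f = O.indicator f :=
  e ▸ (indicator_univ f).symm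

variable [FiniteDimensional ℝ U] [FiniteDimensional ℝ F₁] [FiniteDimensional ℝ F₂]

theorem fr_asm (a : ((X × K) × U) ≃L[ℝ] EE) {L : EE →L[ℝ] (Y × K × F₁) × G × F₂}
    {A : X →L[ℝ] Y × G} {D : K →L[ℝ] K} {d : ℤ} (hA : Fr A d) (hD : Fr D 0)
    (e1 : ∀ x, ((L (a ((x, 0), 0))).1.1, (L (a ((x, 0), 0))).2.1) = A x)
    (e2 : ∀ ψ, (((L (a ((0, ψ), 0))).1.1, (L (a ((0, ψ), 0))).2.1), (L (a ((0, ψ), 0))).1.2.1) =
      (0, D ψ)) : Fr L (d + finrank ℝ U - finrank ℝ (F₁ × F₂)) := by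
  let b : ((Y × K × F₁) × G × F₂) ≃L[ℝ] ((Y × G) × K) × F₁ × F₂ :=
    { toFun := fun z => (((z.1.1, z.2.1), z.1.2.1), z.1.2.2, z.2.2)
      invFun := fun z => ((z.1.1.1, z.1.2, z.2.1), z.1.1.2, z.2.2)
      map_add' := fun _ _ => rfl
      map_smul' := fun _ _ => rfl
      left_inv := fun _ => rfl
      right_inv := fun _ => rfl
      continuous_toFun := by fun_prop
      continuous_invFun := by fun_prop }
  let L' := b.toContinuousLinearMap ∘L L ∘L a.toContinuousLinearMap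
  have h1 : Fr L' _ := fr_blk' ((Fr.tri' (ContinuousLinearMap.snd ℝ _ _ ∘L
    ContinuousLinearMap.fst ℝ _ _ ∘L L' ∘L ContinuousLinearMap.inl ℝ _ U ∘L
      ContinuousLinearMap.inl ℝ X K) hA hD).cast (add_zero d)) fun x => by
    have e : (x, (0 : U)) = ((x.1, 0), 0) + ((0, x.2), 0) := by simp
    rw [e, map_add, Prod.fst_add, show (L' ((0, x.2), 0)).1 = _ from e2 x.2]
    exact Prod.ext ((add_zero _).trans (e1 x.1)) rfl
  exact (h1.conj a.symm b.symm).congr fun x => by simp [L']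

theorem fr_main [CompleteSpace X] [CompleteSpace Y] [CompleteSpace G] {Z : Type}
    [NormedAddCommGroup Z] [NormedSpace ℝ Z] [FiniteDimensional ℝ Z]
    (a : ((X × K) × U) ≃L[ℝ] EE) {H : EE → (Y × K × F₁) × G × F₂} (h : DifferentiableAt ℝ H 0)
    {x x' : X} (e : x' = x) {σ κ : X →L[ℝ] G} {d : ℤ}
    (hA : Fr ((fderiv ℝ (fun v => (H (a ((v - x, 0), 0))).1.1) x').prod σ) d)
    (hκ : IsCompactOperator κ) (q : X →L[ℝ] Z) (j : Z →L[ℝ] X) (hj : ∀ z, q (j z) = z)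
    (e1 : ∀ v, q v = 0 → (H (a ((v, 0), 0))).2.1 = σ v + κ v) {D : K →L[ℝ] K} (hD : Fr D 0)
    (e2 : ∀ ψ, (H (a ((0, ψ), 0))).1.1 = (H (a 0)).1.1 ∧ (H (a ((0, ψ), 0))).2.1 = (H (a 0)).2.1 ∧
      (H (a ((0, ψ), 0))).1.2.1 = (H (a 0)).1.2.1 + D ψ) :
    Fr (fderiv ℝ H 0) (d + finrank ℝ U - finrank ℝ (F₁ × F₂)) := by
  subst e
  have := FiniteDimensional.proper_real Z
  let i := a.toContinuousLinearMap ∘L ContinuousLinearMap.inl ℝ _ U ∘L ContinuousLinearMap.inl ℝ X K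
  let p : (Y × K × F₁) × G × F₂ →L[ℝ] G := .fst ℝ _ _ ∘L .snd ℝ _ _
  have b := (HasFDerivAt.comp (g := H) (f := fun v => i (v - x')) x'
    (by rw [sub_self, map_zero]; exact h.hasFDerivAt)
    (i.hasFDerivAt.comp _ ((hasFDerivAt_id _).sub_const _))).fst.fst.fderiv
  have k := (hκ.add ((isCompactOperator_of_locallyCompactSpace_dom q).clm_comp
    ((p ∘L fderiv ℝ H 0 ∘L i - (σ + κ)) ∘L j))).clm_comp (ContinuousLinearMap.inr ℝ Y G)
  refine fr_asm a (hA.add_compact (T := .inr ℝ Y G ∘L (κ + ((p ∘L fderiv ℝ H 0 ∘L i - (σ + κ)) ∘L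
    j) ∘L q)) k) hD (fun v => Prod.ext ((DFunLike.congr_fun b v).symm.trans (add_zero _).symm) ?_)
    fun ψ => der_aff h (a.toContinuousLinearMap ∘L .inl ℝ _ U ∘L .inr ℝ X K)
      (((ContinuousLinearMap.fst ℝ _ _ ∘L .fst ℝ _ _).prod p).prod
        (.fst ℝ _ _ ∘L .snd ℝ _ _ ∘L .fst ℝ _ _)) (.inr ℝ _ _ ∘L D)
      (c := (((H (a 0)).1.1, (H (a 0)).2.1), (H (a 0)).1.2.1))
      (fun ψ => Prod.ext (Prod.ext ((e2 ψ).1.trans (add_zero _).symm)
        ((e2 ψ).2.1.trans (add_zero _).symm)) (e2 ψ).2.2) ψ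
  have := der_aff h (i ∘L (.id ℝ X - j ∘L q)) p ((σ + κ) ∘L (.id ℝ X - j ∘L q)) (c := 0)
    (fun v => (e1 _ (by simp [hj])).trans (zero_add _).symm) v
  simp only [ContinuousLinearMap.comp_apply, _root_.sub_apply, _root_.add_apply, map_sub,
    ContinuousLinearMap.id_apply] at this
  show p (fderiv ℝ H 0 (i v)) = σ v + (κ v + (p (fderiv ℝ H 0 (i (j (q v)))) -
    (σ (j (q v)) + κ (j (q v)))))
  rw [sub_eq_iff_eq_add.1 this]
  abel

end abs

variable {E : Type} [NormedAddCommGroup E] [NormedSpace ℝ E] [FiniteDimensional ℝ E]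
  [MeasurableSpace E] [BorelSpace E]
  {HM : Type} [TopologicalSpace HM] {I : ModelWithCorners ℝ E HM} [I.Boundaryless]
  {M : Type} [TopologicalSpace M] [ChartedSpace HM M] [IsManifold I ∞ M]
  [MeasurableSpace M] [T2Space M] [BorelSpace M] [SecondCountableTopology M]
  {ι lam h : Type} [Fintype ι] [Fintype lam] [Fintype h]
  {T U Up R : Type} [NormedAddCommGroup T] [NormedSpace ℝ T] [NormedAddCommGroup U]
  [NormedSpace ℝ U] [NormedAddCommGroup Up] [NormedSpace ℝ Up] [NormedAddCommGroup R]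
  [NormedSpace ℝ R] {N r n m : ℕ} {Jc : En (Fin N)} {𝔉 : Fam I M ι lam T}
  {s : Sid 𝔉 N Jc U Up R} (H : s.OK) (c : Cm N r h R) {ct : h → Cut M lam} {ε : Eqn 𝔉 r n m ct}
  (δ : ℝ) {k : ℕ}

theorem ok_wf (H : s.OK) {δ : ℝ} (hδ : 0 ≤ δ) : (s.wf δ).OK :=
  let ⟨_, hC⟩ := Cb_unif H.ch
  Nk89.ok_wtF H.fam (s.sm_pr δ 0 0 0) (fun _ => pr_nonneg hδ le_rfl)
    fun a => ⟨_, CBs_pr s.sh hC a⟩

/-- the reference object over the weighted family -/
@[reducible] def ow : Ref (s.wf δ) where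
  m := s.md
  A0 := s.A0
  Φ0 := s.Φ0
  ok := H.ok
  conn := H.conn
  cp := Sid.wtP.Cb.2 H.cp
  cρ a := Sid.wtP.Cb.2 (H.cρ a)
  cj := Sid.wtP.Cb.2 H.cj
  cA a := Sid.wtP.Cb.2 (H.cA a)
  cΦ := Sid.wtP.Cb.2 H.cΦ
  pos := (s.o H).pos

instance : (ow H δ).B0 := ⟨rfl⟩

/-- the base point -/
def y0 : Pnt (ow H δ) r := ⟨0, 0, c.z0, 0, zero_mem _, zero_mem _, H.q0⟩

variable (r ct k) in
/-- the coordinates -/
def co : (((ow H δ).C r k × ∀ i, (ct i).H 𝔉.B s.md) × U) ≃L[ℝ] s.EE r ct δ k :=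
  let e := sumH (s.Fw δ).toPre (k + 1) s.P1 s.Pp
  { toFun := fun z => (e.symm (z.1.1.1, z.1.1.2.1), z.1.1.2.2.2, z.2, z.1.1.2.2.1, z.1.2)
    invFun := fun v => ((((e v.1).1, (e v.1).2, v.2.2.2.1, v.2.1), v.2.2.2.2), v.2.2.1)
    map_add' := fun _ _ => Prod.ext (e.symm.map_add (_, _) (_, _)) rfl
    map_smul' := fun a _ => Prod.ext (e.symm.map_smul a (_, _)) rfl
    left_inv := fun z => by simp only [e.apply_symm_apply]
    right_inv := fun v => Prod.ext (e.symm_apply_apply v.1) rfl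
    continuous_toFun := by fun_prop
    continuous_invFun := by fun_prop }

theorem co_apply (v : (ow H δ).C r k) (ψ : ∀ i, (ct i).H 𝔉.B s.md) (u : U) :
    co r H ct δ k ((v, ψ), u) = (jC (ow H δ) r k v, v.2.2.2, u, v.2.2.1, ψ) := rfl

theorem cfg_eq (y : Pnt (ow H δ) r) {w : M → Cf ι (Fin N)}
    (e : w = fun x => i1 _ _ (y.α x) + i2 _ _ (y.φ x)) (ψ : h → L2c (Fin N)) :
    s.cfg c w (y.t, 0, y.z - c.z0, ψ) = y.cfg := by
  subst e
  simp only [Sid.cfg, Pnt.cfg, Ref.W, Ref.A_eq, map_add, f2_i1, f2_i2, s2_i1, s2_i2, map_zero,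
    add_zero, zero_add, add_sub_cancel]
  rfl

theorem crow_add (k : Cut M lam) (B : Base M ι lam) (F : Fr I M ι) (σ : Pc r B k) (x : Cfg M ι lam r)
    (a : L2c (Fin x.m.N)) (ψ : k.H B x.m) :
    crow k B F σ x (a + ψ) = crow k B F σ x a + (k.T B F x.m x.W - σ x) ψ := by
  simp only [crow, map_add, Submodule.orthogonalProjectionOnto_mem_subspace_eq_self,
    Submodule.coe_add]
  abel

/-- the rows of the cuts at the base point -/
def cD (s : Sid 𝔉 N Jc U Up R) (ε : Eqn 𝔉 r n m ct) (i : h) :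
    CL ((ct i).H 𝔉.B s.md) ((ct i).H 𝔉.B s.md) :=
  (ct i).T 𝔉.B (𝔉.G 0).F (s.cfg c 0 (0, 0, 0, 0)).m (s.cfg c 0 (0, 0, 0, 0)).W - ε.σ 0 i (s.cfg c 0 (0, 0, 0, 0))

/-- the drift -/
def drf (s : Sid 𝔉 N Jc U Up R) (x : M) : CL (Cf ι (Fin N)) (HS (Fin N)) :=
  ∑ a, s.dr a x • (s.Pg x ∘L pj _ a ∘L fa)

variable (s k) in
/-- the drift on Sobolev spaces -/
def drH : (s.Fw δ).H (k + 1) s.bd.pC →L[ℝ] (s.Fw δ).H k s.Pg :=
  (s.Fw δ).mulH k s.bd.pC s.Pg (drf s) ∘L (s.Fw δ).incl (k + 1) k s.bd.pC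

variable (k) in
/-- the gauge row on Sobolev spaces -/
def rw0 : (s.Fw δ).H (k + 1) s.bd.pC →L[ℝ] (s.Fw δ).H k s.Pg :=
  (bd (ow H δ)).RR (s.wf δ).F0.toPre (𝔉.G (y0 H c δ).t).F k (uy (y0 H c δ)) ∘L
    SH (k + 1) (ow H δ) ((s.wf δ).S (y0 H c δ).t)

theorem rw0_jC (v : (ow H δ).C r k) :
    rw0 H c δ k (jC (ow H δ) r k v) = sig (fun t => (𝔉.G t).F) k (y0 H c δ) v := by
  rw [sig_apply, sC, rw0, ContinuousLinearMap.comp_apply]
  exact ContinuousLinearMap.comp_apply _ _ _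

variable {c δ} [CompactSpace M] (hδ : 0 ≤ δ) (hk : 7 ≤ k)
  {F : s.EE r ct δ k → s.Y1 n m ct δ k × s.Y2 h δ k} (hr : s.Rep c ε δ k F)
include hδ hk

theorem pt_y0 : (y0 H c δ).pt k = (0, 0, c.z0, 0) :=
  have S := sup0 (ok_wf H hδ)
  Prod.ext (val_injective S (by omega) ((val_ofV (zero_mem _) (by omega)).trans val_zero.symm))
    (Prod.ext (val_injective S (by omega) ((val_ofV (zero_mem _) (by omega)).trans val_zero.symm))
      rfl)

include hr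

theorem repF : RepF (o := ow H δ) (k := k) (j := k) ε.e
    fun v => (F (co r H ct δ k ((v - (0, 0, c.z0, 0), 0), 0))).1.1 := by
  have w := ok_wf H hδ
  have a : ContDiff ℝ ∞ fun v => co r H ct δ k ((v - (0, 0, c.z0, 0), 0), 0) := by fun_prop
  refine ⟨(hr.sm.comp a.contDiffOn fun v hv =>
      show v.2.2.2 - 0 ∈ 𝔉.Q by rwa [sub_zero]).fst.fst, fun y => ?_⟩
  obtain ⟨u, e1, e2⟩ := H.eq_toH hδ (by omega : 4 ≤ k + 1) (y := jC (ow H δ) r k (y.pt k))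
    (f := fun x => i1 _ _ (y.α x) + i2 _ _ (y.φ x)) (funext fun x => by
      refine (val_jC w (by omega) _ x).trans ?_
      simp only [Pnt.pt, val_ofV y.hα (by omega : 4 ≤ k + 1), val_ofV y.hφ (by omega : 4 ≤ k + 1)])
    (Cb.sm (Cb_add (Cb_clm _ (cb_hs (sup0 w) y.hα)) (Cb_clm _ (cb_hs (sup0 w) y.hφ))))
  have e3 : co r H ct δ k ((y.pt k - (0, 0, c.z0, 0), 0), 0) = s.sp δ k u (y.t, 0, y.z - c.z0, 0) :=
    Prod.ext (((map_sub (jC (ow H δ) r k) _ _).trans (by rw [jC_apply (0, _), map_zero, map_zero,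
      add_zero, sub_zero])).trans e2) (Prod.ext (sub_zero _) rfl)
  have v := hr.val u (y.t, 0, y.z - c.z0, 0) y.ht
  have e4 := cfg_eq H c δ y e1
  simp only [e3]
  refine ⟨v.D.trans ?_, v.C.trans ?_, (congrArg (·.1.1) v.e).trans ?_,
    (congrArg (·.1.2) v.e).trans ?_⟩
  · exact (@eq_of_heq (M → Eu (Fin N)) _ _ (congr_arg_heq (ε.e y.t).D (e4 _))).trans
      (ind_u H.om.2 _)
  · exact (@eq_of_heq (M → Fm (ι × ι) (HS (Fin N))) _ _
      (congr_arg_heq (ε.e y.t).C (e4 _))).trans (ind_u H.om.1 _)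
  · rw [← e4]; rfl
  · rw [← e4]; rfl

/-- the gauge row -/
theorem row_eq (v : (s.Fw δ).H (k + 1) s.bd.pC) : 
    (F (v, 0)).2.1 = (rw0 H c δ k + drH s δ k) v := by
  have w := ok_wf H hδ
  have S := sup0 w
  have y := (adj_closed w).hy (ow H δ) H.q0
  refine congrFun (((s.Fw δ).dense_toH (k + 1) _).equalizer (g := fun v => (F (v, 0)).2.1)
    (hr.sm.continuousOn.comp_continuous (by fun_prop) fun _ => H.q0).snd.fst
    (ContinuousLinearMap.continuous _) (funext fun u => val_injective S (by omega) ?_)) v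
  have e : (s.Fw δ).val (k + 1) _ ((s.Fw δ).toH _ _ u) = u.1 := val_toH S (by omega) u
  refine (hr.val u 0 H.q0).g.trans (funext fun x => ?_)
  refine Eq.trans ?_ (congrFun (val_add _ _) x).symm
  refine congrArg₂ (· + ·) ?_ ?_
  · refine Eq.trans ?_ (congrFun (y.toTw.val (y.nc_row (cb_uy w (y0 H c δ))) (by omega : 4 ≤ k)
      _) x).symm
    have e1 : ((s.wf δ).F0.val (k + 1) (bd (ow H δ)).pC
        (SH (k + 1) (ow H δ) (𝔉.S 0) ((s.Fw δ).toH _ _ u))) = fun z => SC (ow H δ) (𝔉.S 0) z (u.1 z) :=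
      funext fun z => (val_SH w (by omega : 4 ≤ k + 1) H.q0 _ z).trans
        (congrArg (SC (ow H δ) (𝔉.S 0) z) (congrFun e z))
    refine Eq.trans ?_ (congrArg (fun f => Op.app _ _ f x) e1.symm)
    rw [show uy (y0 H c δ) = _ from uy_bs (y0 H c δ), u0, Ref.A_eq]
    rfl
  · refine Eq.trans ?_ (val_mulH (f := drf s) S (by omega) (Cb_of_compact (contMDiff_finsetSum fun a _ =>
      (Cb.sm (H.cd a)).smul ((Cb.sm y.cg).clm_comp contMDiff_const))) (fun x v _ => ?_) _ x).symm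
    · refine Eq.trans ?_ (congrArg _ (congrFun ((val_incl S (by omega) k.le_succ _).trans e) x)).symm
      simp [drf]
    · simp [drf, show ∀ v, s.Pg x (s.Pg x v) = s.Pg x v from y.g.idem x]

include H in
/-- the cuts -/
theorem cut_eq (ψ : ∀ i, (ct i).H 𝔉.B s.md) :
    (F (0, 0, 0, 0, ψ)).1.1 = (F (0, 0, 0, 0, 0)).1.1 ∧
      (F (0, 0, 0, 0, ψ)).2.1 = (F (0, 0, 0, 0, 0)).2.1 ∧
      (F (0, 0, 0, 0, ψ)).1.2.1 = (F (0, 0, 0, 0, 0)).1.2.1 + dgl (cD c s ε) ψ := by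
  obtain ⟨_, S⟩ := H.sup hδ
  have v : ∀ ψ, s.Val c ε δ k 0 (s.emb (0, 0, 0, ψ)) (F (0, 0, 0, 0, ψ)) := fun ψ => by
    have := hr.val 0 (0, 0, 0, ψ) H.q0
    rwa [show s.sp δ k 0 (0, 0, 0, ψ) = (0, 0, 0, 0, ψ) from Prod.ext (map_zero _) rfl] at this
  have k4 : 4 ≤ k := by omega
  have a : ∀ ψ ψ', (F (0, 0, 0, 0, ψ)).1.1 = (F (0, 0, 0, 0, ψ')).1.1 ∧
      (F (0, 0, 0, 0, ψ)).2.1 = (F (0, 0, 0, 0, ψ')).2.1 := fun ψ ψ' =>
    ⟨Prod.ext (val_injective S k4 ((v ψ).D.trans (v ψ').D.symm))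
      (Prod.ext (val_injective S k4 ((v ψ).C.trans (v ψ').C.symm))
        ((congrArg (·.1) (v ψ).e).trans (congrArg (·.1) (v ψ').e).symm)),
      val_injective S k4 ((v ψ).g.trans (v ψ').g.symm)⟩
  refine ⟨(a ψ 0).1, (a ψ 0).2, funext fun i => Subtype.ext ?_⟩
  have b : ∀ ψ ψ', ((F (0, 0, 0, 0, ψ)).1.2.1 i : L2c (Fin N)) = crow (ct i) 𝔉.B (𝔉.G 0).F (ε.σ 0 i)
      (s.cfg c 0 (0, 0, 0, ψ')) (c.ψ0 i + (ψ i).1) := fun ψ _ => congrFun (congrArg (·.2.1) (v ψ).e) i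
  refine (b ψ 0).trans ((crow_add _ _ _ _ (s.cfg c 0 (0, 0, 0, 0)) _ (ψ i)).trans ?_)
  exact congrArg₂ (· + ·) ((b 0 0).trans (congrArg _ (add_zero _))).symm rfl

theorem row_co (v : (ow H δ).C r k) (hv : v.2.2 = 0) : (F (co r H ct δ k ((v, 0), 0))).2.1 =
    Add.add (α := (s.Fw δ).H k s.Pg) (sig (fun t => (𝔉.G t).F) k (y0 H c δ) v)
      ((drH s δ k ∘L jC (ow H δ) r k) v) := by
  rw [show co r H ct δ k ((v, 0), 0) = (jC (ow H δ) r k v, 0) by rw [co_apply, hv]; rfl]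
  refine (row_eq H hδ hk hr _).trans ((_root_.add_apply _ _ _).trans ?_)
  exact congrArg₂ (· + ·) (rw0_jC H c δ v) rfl

omit hr hk in
include H in
theorem fr_cD (i : h) (hc : (ct i).OK 𝔉.B (𝔉.G 0).F) (hσ : ∀ x, IsCompactOperator (ε.σ 0 i x)) :
    Fr (cD c s ε i) 0 := by
  have e := cfg_eq H c δ (y0 H c δ) (w := 0) (funext fun x => by simp [y0]) 0
  rw [show (y0 H c δ).z - c.z0 = 0 from sub_self _] at e
  have e' : s.md.IsConn 𝔉.B (𝔉.G 0) (s.cfg c 0 (0, 0, 0, 0)).W :=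
    (@eq_of_heq s.md.Cn _ _ (congr_arg_heq Cfg.W e)).symm ▸ ((y0 H c δ).ad0 (ok_wf H hδ)).conn
  exact Hol14.fr_sub (m := (s.cfg c 0 (0, 0, 0, 0)).m) H.fam.B H.ok hc (Hol14.cn0_of e') (hσ _)

variable [FiniteDimensional ℝ T] [FiniteDimensional ℝ U] [FiniteDimensional ℝ Up]
  [FiniteDimensional ℝ R]

/-- **the index of the Banach model** -/
theorem frx (he : Aff (ow H δ) (fun t => (𝔉.G t).F) r n m ε.e)
    (hc : ∀ i, (ct i).OK 𝔉.B (𝔉.G 0).F) (hσ : ∀ i x, IsCompactOperator (ε.σ 0 i x)) :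
    Fr (fderiv ℝ F 0) (n0 (y0 H c δ) + 2 * r + finrank ℝ T - 2 * n - m - 2 * Fintype.card h +
      finrank ℝ U - finrank ℝ Up - finrank ℝ R) := by
  have w := ok_wf H hδ
  have := FiniteDimensional.complete ℝ T
  have d : DifferentiableAt ℝ F 0 := (hr.sm.contDiffAt ((H.fam.opn.preimage (by fun_prop)).mem_nhds
    H.q0)).differentiableAt (by simp)
  have k1 : IsCompactOperator (drH s δ k) := (Cht98.rellich k.lt_succ_self).clm_comp _
  have z : ∀ ψ, co r H ct δ k ((0, ψ), 0) = (0, 0, 0, 0, ψ) := fun ψ =>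
    Prod.ext (map_zero (jC (ow H δ) r k)) rfl
  have A := fun σ κ dd => fr_main (X := (ow H δ).C r k) (K := ∀ i, (ct i).H 𝔉.B s.md)
    (Y := (ow H δ).Y n m k) (G := (s.Fw δ).H k s.Pg) (F₁ := h → ℝ) (F₂ := Up × (h → ℝ) × R)
    (Z := EuclideanSpace ℂ (Fin r) × T) (co r H ct δ k) (H := F) d (pt_y0 (c := c) H hδ hk)
    (σ := σ) (κ := κ) (d := dd)
  have B := A _ (drH s δ k ∘L jC (ow H δ) r k) _
    ((adj_closed w).fred he hk (y0 H c δ) (fr_n0 w _ k) (repF H hδ hk hr))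
    (k1.comp_clm _) (.snd ℝ _ _ ∘L .snd ℝ _ _) (.inr ℝ _ _ ∘L .inr ℝ _ _) (fun _ => rfl)
    (row_co H hδ hk hr) (D := dgl (cD c s ε)) (fr_dgl fun i => fr_cD H hδ i (hc i) (hσ i))
  refine (B fun ψ => ?_).cast ?_
  · rw [z ψ, show co r H ct δ k 0 = _ from z 0]
    exact cut_eq H hδ hk hr ψ
  · simp only [finrank_prod, finrank_fintype_fun_eq_card]
    push_cast; ring

end Crest.Agent.X212.Frx57
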