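import Crest.Agent.X212.Num57.Mat
import Crest.Agent.X212.Dr59.Defs

/-!
X212 / NUM (helper57), part 3: germs of smooth forms at a point form a super-commutative
differential algebra `sc I x`.
-/

set_option autoImplicit false
set_option linter.unusedSectionVars false

open Set Filter Topology Function
open scoped ContDiff Manifold
open Crest.Agent.R208 Crest.Agent.R208.F Crest.Agent.X212.Dr59

noncomputable section

namespace Crest.Agent.X212.Num57

section ext

variable {E : Type*} [AddCommGroup E] [Module ℝ E]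

theorem ext_comm (x : Ext E) : ∀ y, (x + F.inv x) * y = y * (x + F.inv x) ∧
    (x - F.inv x) * y = F.inv y * (x - F.inv x) := by
  induction x using CliffordAlgebra.left_induction with
  | algebraMap r =>
    intro y
    rw [AlgHom.commutes, sub_self, zero_mul, mul_zero, ← map_add, Algebra.commutes]
    exact ⟨rfl, rfl⟩
  | add a b ha hb =>
    intro y
    obtain ⟨h1, h2⟩ := ha y
    obtain ⟨h3, h4⟩ := hb y
    constructor
    · rw [map_add, add_add_add_comm, add_mul, mul_add, h1, h3]
    · rw [map_add, add_sub_add_comm, add_mul, mul_add, h2, h4]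
  | ι_mul a l ha =>
    intro y
    obtain ⟨h1, h2⟩ := ha y
    change (io l * a + F.inv (io l * a)) * y = y * (io l * a + F.inv (io l * a)) ∧
      (io l * a - F.inv (io l * a)) * y = F.inv y * (io l * a - F.inv (io l * a))
    rw [map_mul, inv_io, neg_mul, ← sub_eq_add_neg, sub_neg_eq_add, ← mul_sub, ← mul_add]
    constructor
    · rw [mul_assoc, h2, ← mul_assoc, io_mul, F.inv_inv, mul_assoc]
    · rw [mul_assoc, h1, ← mul_assoc, io_mul, mul_assoc]

theorem ext_ev {x : Ext E} (h : F.inv x = x) (y : Ext E) : x * y = y * x := by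
  have h1 := (ext_comm x y).1
  rw [h, ← two_smul ℝ x, smul_mul_assoc, mul_smul_comm] at h1
  exact smul_right_injective _ (two_ne_zero) h1

theorem ext_od' {x : Ext E} (h : F.inv x = -x) (y : Ext E) : x * y = F.inv y * x := by
  have h1 := (ext_comm x y).2
  rw [h, sub_neg_eq_add, ← two_smul ℝ x, smul_mul_assoc, mul_smul_comm] at h1
  exact smul_right_injective _ (two_ne_zero) h1

theorem ext_od {x y : Ext E} (h : F.inv x = -x) (h' : F.inv y = -y) : x * y = -(y * x) := by
  rw [ext_od' h, h', neg_mul]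

end ext

variable {E : Type*} [NormedAddCommGroup E] [NormedSpace ℝ E] [FiniteDimensional ℝ E]
  {H : Type*} [TopologicalSpace H] {I : ModelWithCorners ℝ E H}
  {M : Type*} [TopologicalSpace M] [ChartedSpace H M] [I.Boundaryless] [IsManifold I ∞ M]

/-- pointwise involution -/
def iv (a : M → Ext E) : M → Ext E := fun y => F.inv (a y)

theorem wd_inv (T : E →L[ℝ] Ext E) : F.inv (wd E T) = - wd E (invL.comp T) := by
  rw [wd_apply, wd_apply, map_sum, ← Finset.sum_neg_distrib]
  refine Finset.sum_congr rfl fun i _ => ?_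
  rw [map_mul, inv_io, neg_mul]
  rfl

theorem inv_dM {a : M → Ext E} {x : M} (ha : CAt I 1 a x) :
    F.inv (dM I a x) = - dM I (iv a) x := by
  have h1 : rp I x (iv a) = fun y => invL (rp I x a y) := pm_inv _ _
  rw [dM, dM, h1, F.d, wd_inv]
  exact congrArg Neg.neg (d_of_hasFDerivAt
    ((invL (E := E)).hasFDerivAt.comp _ (ha.diff one_ne_zero).hasFDerivAt)).symm

variable (E) in
/-- germs of forms -/
def Gm (x : M) := Germ (𝓝 x) (Ext E)

instance (x : M) : Ring (Gm E x) := inferInstanceAs (Ring (Germ (𝓝 x) (Ext E)))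
instance (x : M) : Module ℝ (Gm E x) := inferInstanceAs (Module ℝ (Germ (𝓝 x) (Ext E)))

instance (x : M) : Algebra ℝ (Gm E x) :=
  Algebra.ofModule
    (fun r a b => Germ.inductionOn₂ a b fun f g =>
      congrArg (Germ.ofFun) (smul_mul_assoc r f g))
    (fun r a b => Germ.inductionOn₂ a b fun f g =>
      congrArg (Germ.ofFun) (mul_smul_comm r f g))

/-- the germ of a form -/
def gm (x : M) : (M → Ext E) →ₐ[ℝ] Gm E x :=
  AlgHom.ofLinearMap
    { toFun := fun a => (a : Germ (𝓝 x) (Ext E))
      map_add' := fun _ _ => rfl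
      map_smul' := fun _ _ => rfl } rfl fun _ _ => rfl

theorem gm_eq {x : M} {a b : M → Ext E} : gm x a = gm x b ↔ a =ᶠ[𝓝 x] b := Germ.coe_eq

theorem gm_surj {x : M} (g : Gm E x) : ∃ a, gm x a = g := Germ.inductionOn g fun a => ⟨a, rfl⟩

variable (I) in
/-- `d` on germs -/
def dG (x : M) (g : Gm E x) : Gm E x :=
  Germ.liftOn g (fun a => gm x (dM I a)) fun _ _ h => gm_eq.2 (dM_congr_nhds h)

/-- the involution on germs -/
def iG (x : M) (g : Gm E x) : Gm E x :=
  Germ.liftOn g (fun a => gm x (iv a)) fun _ _ h => gm_eq.2 (h.mono fun _ hy => congrArg F.inv hy)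

theorem dG_gm (x : M) (a : M → Ext E) : dG I x (gm x a) = gm x (dM I a) := rfl
theorem iG_gm (x : M) (a : M → Ext E) : iG x (gm x a) = gm x (iv a) := rfl

variable (I) in
/-- smooth germs -/
def Sg (x : M) : Subalgebra ℝ (Gm E x) where
  carrier := {g | ∃ a, SmAt I a x ∧ gm x a = g}
  mul_mem' := by
    rintro _ _ ⟨a, ha, rfl⟩ ⟨b, hb, rfl⟩
    exact ⟨a * b, ha.mul hb, map_mul _ _ _⟩
  add_mem' := by
    rintro _ _ ⟨a, ha, rfl⟩ ⟨b, hb, rfl⟩
    exact ⟨a + b, ha.add hb, map_add _ _ _⟩
  algebraMap_mem' r := ⟨r • 1, cAt_one.smul r, by rw [map_smul, map_one, Algebra.algebraMap_eq_smul_one]⟩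

/-- a smooth germ -/
def sg {x : M} (a : M → Ext E) (h : SmAt I a x) : Sg I x := ⟨gm x a, a, h, rfl⟩

theorem sg_ind {x : M} {p : Sg I x → Prop} (h : ∀ a h, p (sg a h)) (g : Sg I x) : p g := by
  obtain ⟨_, a, ha, rfl⟩ := g
  exact h a ha

theorem sg_eq {x : M} {a b : M → Ext E} {ha : SmAt I a x} {hb : SmAt I b x} :
    sg a ha = sg b hb ↔ a =ᶠ[𝓝 x] b := Subtype.ext_iff.trans gm_eq

theorem ev1 {x : M} {a : M → Ext E} (ha : SmAt I a x) : ∀ᶠ y in 𝓝 x, CAt I 1 a y :=
  (ha.of_le (by norm_cast)).eventually (by norm_cast)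

theorem ev2 {x : M} {a : M → Ext E} (ha : SmAt I a x) : ∀ᶠ y in 𝓝 x, CAt I 2 a y :=
  (ha.of_le (by norm_cast)).eventually (by norm_cast)

/-- `d` on smooth germs -/
def dS {x : M} (g : Sg I x) : Sg I x := ⟨dG I x g.1, by
  obtain ⟨_, a, ha, rfl⟩ := g
  exact ⟨dM I a, ha.dM, rfl⟩⟩

/-- the involution on smooth germs -/
def iS {x : M} (g : Sg I x) : Sg I x := ⟨iG x g.1, by
  obtain ⟨_, a, ha, rfl⟩ := g
  exact ⟨iv a, ha.inv, rfl⟩⟩

theorem iS_add {x : M} (g h : Sg I x) : iS (g + h) = iS g + iS h := by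
  induction g using sg_ind with | _ a ha => ?_
  induction h using sg_ind with | _ b hb => ?_
  exact Subtype.ext (gm_eq.2 (Eventually.of_forall fun y => map_add F.inv (a y) (b y)))

theorem iS_smul {x : M} (r : ℝ) (g : Sg I x) : iS (r • g) = r • iS g := by
  induction g using sg_ind with | _ a ha => ?_
  exact Subtype.ext (gm_eq.2 (Eventually.of_forall fun y => map_smul F.inv r (a y)))

theorem iS_mul {x : M} (g h : Sg I x) : iS (g * h) = iS g * iS h := by
  induction g using sg_ind with | _ a ha => ?_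
  induction h using sg_ind with | _ b hb => ?_
  exact Subtype.ext (gm_eq.2 (Eventually.of_forall fun y => map_mul F.inv (a y) (b y)))

theorem iS_one {x : M} : iS (1 : Sg I x) = 1 :=
  Subtype.ext (gm_eq.2 (Eventually.of_forall fun _ => map_one F.inv))

theorem dS_add {x : M} (g h : Sg I x) : dS (g + h) = dS g + dS h := by
  induction g using sg_ind with | _ a ha => ?_
  induction h using sg_ind with | _ b hb => ?_
  refine Subtype.ext (gm_eq.2 ?_)
  filter_upwards [ev1 ha, ev1 hb] with y h1 h2
  exact dM_add one_ne_zero h1 h2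

theorem dS_smul {x : M} (r : ℝ) (g : Sg I x) : dS (r • g) = r • dS g := by
  induction g using sg_ind with | _ a ha => ?_
  refine Subtype.ext (gm_eq.2 ?_)
  filter_upwards [ev1 ha] with y h1
  exact dM_smul one_ne_zero r h1

variable (I) in
/-- smooth germs as a super-commutative differential algebra -/
def sc (x : M) : SC (Sg I x) where
  inv := AlgHom.ofLinearMap { toFun := iS, map_add' := iS_add, map_smul' := iS_smul } iS_one iS_mul
  d := { toFun := dS, map_add' := dS_add, map_smul' := dS_smul }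
  inv_inv g := by
    induction g using sg_ind with | _ a ha => ?_
    exact Subtype.ext (gm_eq.2 (Eventually.of_forall fun y => F.inv_inv (a y)))
  inv_d g := by
    induction g using sg_ind with | _ a ha => ?_
    refine Subtype.ext (gm_eq.2 ?_)
    filter_upwards [ev1 ha] with y h1
    exact inv_dM h1
  d_mul g h := by
    induction g using sg_ind with | _ a ha => ?_
    induction h using sg_ind with | _ b hb => ?_
    refine Subtype.ext (gm_eq.2 ?_)
    filter_upwards [ev1 ha, ev1 hb] with y h1 h2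
    exact dM_mul one_ne_zero h1 h2
  d_d g := by
    induction g using sg_ind with | _ a ha => ?_
    refine Subtype.ext (gm_eq.2 ?_)
    filter_upwards [ev2 ha] with y h1
    exact dM_dM h1
  comm_ev g h := by
    induction g using sg_ind with | _ a ha => ?_
    induction h using sg_ind with | _ b hb => ?_
    intro h
    refine Subtype.ext (gm_eq.2 ?_)
    filter_upwards [gm_eq.1 (congrArg Subtype.val h)] with y h1
    exact ext_ev h1 _
  comm_od g h := by
    induction g using sg_ind with | _ a ha => ?_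
    induction h using sg_ind with | _ b hb => ?_
    intro h h'
    refine Subtype.ext (gm_eq.2 ?_)
    filter_upwards [gm_eq.1 (congrArg Subtype.val h), gm_eq.1 (congrArg Subtype.val h')] with y h1 h2
    exact ext_od h1 h2

theorem sc_d_val {x : M} (g : Sg I x) : ((sc I x).d g).1 = dG I x g.1 := rfl
theorem sc_inv_val {x : M} (g : Sg I x) : ((sc I x).inv g).1 = iG x g.1 := rfl

end Crest.Agent.X212.Num57
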