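import Crest.Agent.X212.Num57.Ckd
import Crest.Agent.X212.Lix26.Geo
import Crest.Agent.X212.Sep15.LxAs
import Crest.Agent.X212.Sep15.Cls
import Crest.Agent.X212.Dfl49.Fil
import Crest.Agent.X212.Lns4.Lin

/-!
# Row 212 (helper57): the Dirac index of the fillers of level `0` and `1/4` is nonnegative
-/

set_option autoImplicit false
set_option linter.unusedSectionVars false
noncomputable section
open scoped Manifold ContDiff Topology InnerProductSpace Real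
open MeasureTheory Set Function Filter
open Crest.Agent.R208.F (Ext)

namespace Crest.Agent.X212.Sec57
open An Nd18 Num57 Cyf70 Qab60 Lns95 Rdc90 Wz78 Lix26
open M (Mf)
open Abel74 (fm)
open Dr59 (dM)

section mdl
variable {Y : Mf 3} [CompactSpace Y.M] {κ : Type} [Fintype κ] {lam : Type} [Fintype lam]
  {E : Type} [NormedAddCommGroup E] [NormedSpace ℝ E] [FiniteDimensional ℝ E]
  [MeasurableSpace E] [BorelSpace E]
  {HM : Type} [TopologicalSpace HM] {I : ModelWithCorners ℝ E HM} [I.Boundaryless]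
  {M : Type} [TopologicalSpace M] [ChartedSpace HM M] [IsManifold I ∞ M] [T2Space M]
  [MeasurableSpace M] [BorelSpace M] [SecondCountableTopology M]

section pt
variable {ι : Type} [Fintype ι] {B : Base M ι lam} {G : Geo I M ι lam} {Ω : Set M} {x : M} {d : ℝ}

theorem sdn_norm (k : ι × ι → ℝ) :
    sdn B x k = ‖(WithLp.toLp 2 fun s => ∑ t, B.sd x s t * k t : EuclideanSpace ℝ (ι × ι))‖ := by
  simp [sdn, EuclideanSpace.norm_eq]

theorem sdn_lin (u : ℝ) (k l : ι × ι → ℝ) :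
    sdn B x (fun s => u * k s + l s) ≤ |u| * sdn B x k + sdn B x l := by
  simp only [sdn_norm]
  rw [← Real.norm_eq_abs, ← norm_smul]
  refine le_of_eq_of_le (congrArg _ (PiLp.ext fun s => ?_)) (norm_add_le _ _)
  simp [mul_add, Finset.sum_add_distrib, Finset.mul_sum, mul_left_comm u]

variable (hB : B.OK I)
include hB

theorem sdn_le (k : ι × ι → ℝ) : sdn B x k ^ 2 ≤ ∑ s, k s ^ 2 := by
  have e : ∑ s, (∑ t, B.sd x s t * k t) ^ 2 = ∑ s, k s * ∑ t, B.sd x s t * k t := by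
    have : ∀ s, ∑ t, B.sd x s t * k t = ∑ u, B.sd x u s * ∑ t, B.sd x u t * k t := fun s => by
      simp only [Finset.mul_sum, ← mul_assoc, sd_symm hB x _ s]
      rw [Finset.sum_comm]
      simp only [← Finset.sum_mul, sd_sd hB]
    obtain ⟨v, hv⟩ : ∃ v : ι × ι → ℝ, ∀ u, ∑ t, B.sd x u t * k t = v u := ⟨_, fun _ => rfl⟩
    simp only [hv] at this ⊢
    rw [Finset.sum_congr rfl fun s _ => congrArg (k s * ·) (this s)]
    simp only [Finset.mul_sum]
    rw [Finset.sum_comm]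
    refine Finset.sum_congr rfl fun u _ => ?_
    rw [sq, ← hv u, Finset.sum_mul, hv]
    exact Finset.sum_congr rfl fun s _ => by ring
  have := Finset.sum_nonneg (s := Finset.univ) fun s _ => sq_nonneg (k s - ∑ t, B.sd x s t * k t)
  simp only [sub_sq, Finset.sum_add_distrib, Finset.sum_sub_distrib, mul_assoc,
    ← Finset.mul_sum] at this
  rw [sdn, Real.sq_sqrt (Finset.sum_nonneg fun _ _ => sq_nonneg _)]
  linarith

variable (hG : G.OK B)
include hG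

theorem ng_flat {m : Md M ι lam} {W : m.Cn} (H : m.OK I B) (C : m.IsConn B G W)
    (hp : Pos (rev B) G (fL B G x) d x) (f : m.Fg G.F W x = 0) : Ng B G W d x := fun a ha => by
  rw [inner_wK (rev_ok hB) (rev_geo hG) (rev_md H) (rev_conn C) ((pp_rev (m := m) x).symm ▸ ha), f,
    inner_zero_left, real_inner_self_eq_norm_sq, mul_zero, add_zero]
  exact (PosP.fP (rev_ok hB) hp).le (rev_ok hB) (rev_md H) _

theorem asd_pt {m : Md M ι lam} {W : m.Cn} (H : m.OK I B) (C : m.IsConn B G W) (hS : IsOpen Ω)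
    (hi : IntegrableOn (fun x => ‖m.Fg G.F W x‖ ^ 2) Ω G.F.μ)
    (h1 : ∫ x in Ω, ‖m.p2 B x (m.Fg G.F W x)‖ ^ 2 ∂G.F.μ ≤ 0) :
    ∀ x ∈ Ω, m.p2 B x (m.Fg G.F W x) = 0 := fun x hx => by
  have := Sob92.openPos G.F.toPre
  have c1 := (Mp86.sm_Fg hB hG H C).continuous
  have c2 : Continuous fun x => ‖m.p2 B x (m.Fg G.F W x)‖ ^ 2 :=
    (((c1.norm.pow 2).sub ((Loc66.sm_kd hB hG H C).continuous.const_mul (128 * π ^ 2))).div_const
      2).congr fun x => by simp only [Pi.sub_apply, Pi.pow_apply, Wz78.norm_Fg_sq hG C hB]; ring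
  have z := (setIntegral_eq_zero_iff_of_nonneg_ae (.of_forall fun x => by positivity)
    (hi.mono' c2.aestronglyMeasurable (.of_forall fun x => by
      rw [norm_pow, norm_norm]
      exact pow_le_pow_left₀ (norm_nonneg _) (Mp86.norm_p2 hB m x _) 2))).1
    (le_antisymm h1 (integral_nonneg fun x => by positivity))
  simpa using Measure.eqOn_open_of_ae_eq z hS c2.continuousOn continuousOn_const hx

theorem ng_ab {r : ℕ} {c : Cfg M ι lam r} {ξ : M → c.m.A} (A : Ab B G Ω c ξ) (hx : x ∈ Ω)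
    (hp : ∀ ε : ℝ, ε = 1 ∨ ε = -1 →
      Pos (rev B) G (fun s => fL B G x s + ε * (2 * k2 G.F (fm G.F c.m c.W ξ) s.1 s.2 x)) d x) :
    Ng B G c.W d x := fun a ha => by
  simp only [Abel74.k2_fm hG A.adm.conn] at hp
  refine wK_ab (rev_ok hB) (rev_geo hG) (rev_md A.adm.ok) A.adm.conn.cc (A.rd.mem x hx)
    (A.rd.sq x hx) (k := fL B G x) (l := fun s => Abel74.fF G.F c.m c.W ξ s.1 s.2 x) (fL_swap hG)
    (fun s => Abel74.fF_swap hG A.adm.conn _ _ x) (fun a b => ?_) (by simpa using hp 1 (.inl rfl))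
    (by simpa [sub_eq_add_neg] using hp (-1) (.inr rfl)) ((pp_rev (m := c.m) x).symm ▸ ha)
  rw [tw_eq hB hG A.adm.ok A.adm.conn, A.rd.Fg_eq hB hG A.adm.ok A.adm.conn hx, map_smul]

variable {r : ℕ} {c : Cfg M ι lam r} {ξ : M → c.m.A} (hΩ : IsClopen Ω) (ok : OK G.F B.o)
  (A : Ab B G Ω c ξ)
include hΩ ok A

theorem kd_int : ∫ x in Ω, c.m.kd B G.F c.W x ∂G.F.μ = -(4 * π ^ 2)⁻¹ *
    Int54.integ I (vol G.F B.o) (fm G.F c.m c.W ξ * fm G.F c.m c.W ξ) := by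
  obtain ⟨-, -, z, -⟩ := Qa50.addStmt I M _ lam r B G Ω c ξ hB hG hΩ A
  rw [setIntegral_congr_fun hΩ.isOpen.measurableSet fun x hx => kd_ab hB hG A hx,
    integral_const_mul, Qab60.integ_mul ok z.fo.dg,
    setIntegral_eq_integral_of_forall_compl_eq_zero fun x hx => by
      rw [c2_of_zero (z.off x hx), inner_zero_left]]
  field_simp
  ring

/-- an anti-self-dual abelian point of level `1/4` -/
theorem sl_on (i : IntegrableOn (fun x => ‖c.m.Fg G.F c.W x‖ ^ 2) Ω G.F.μ)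
    (e : ∀ x ∈ Ω, c.m.p2 B x (c.m.Fg G.F c.W x) = 0)
    (l : ∫ x in Ω, c.m.kd B G.F c.W x ∂G.F.μ = 1 / 4) : Sl B G Ω (fm G.F c.m c.W ξ) := by
  obtain ⟨-, h2, h3, h4⟩ := Qa50.addStmt I M ι lam r B G Ω c ξ hB hG hΩ A
  refine ⟨h3, fun x hx => ?_, (memLp_two_iff_integrable_sq_norm
    (sm_c2 h3.fo.sm).continuous.aestronglyMeasurable).2 ?_, ?_⟩
  · have := (h2 x hx).1
    rw [A.z x hx, e x hx, show c.m.mu B x 0 0 = 0 by
      simp [Md.mu, ← Wz78.qL_apply, WithLp.toLp_zero, Pi.zero_def.symm], sub_zero] at this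
    exact PiLp.ext fun s => (smul_eq_zero.1 (congrArg (· s) this.symm : _ • ξ x = 0)).resolve_right
      (h4 x hx)
  · refine IntegrableOn.integrable_of_forall_notMem_eq_zero (IntegrableOn.congr_fun
      (i.const_mul 16⁻¹) (fun x hx => ?_) hΩ.isOpen.measurableSet) fun x hx => by
        simp [c2_of_zero (h3.off x hx)]
    simp only [PiLp.norm_sq_eq_of_L2, A.rd.Fg_eq hB hG A.adm.ok A.adm.conn hx, Qab60.c2,
      Abel74.k2_fm hG A.adm.conn, norm_smul, mul_pow, ← Finset.sum_mul,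
      Abel74.norm_sq A.adm.ok (A.rd.mem x hx) (A.rd.sq x hx)]
    ring
  · rw [kd_int hB hG hΩ ok A] at l
    have := Real.pi_pos
    field_simp at l
    linarith

end pt

variable [DecidableEq lam] {D : YD Y.I Y.M κ (lam ⊕ lam)}
  {B : Base M (Option κ) (lam ⊕ lam)} {G : Geo I M (Option κ) (lam ⊕ lam)} {K : Nk D B G}
  {Ω : Set M} {d : Mdl K Ω} (h : d.OK)
include h

theorem tw_L : d.Ds.Tw d.P d.h G.F.e (fL B G) (fun x => d.μ * d.P.f2 x / d.P.f x)
    fun x => 2 * (d.μ * ((4 : ℕ) + x * d.P.p3 x)) := by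
  have m := h.mo
  have f := fun y => fL_geo (y := y) h.lo G.F ((congrArg (·.OK I) h.eB).mp m.hB)
  rw [← h.eB, ← h.eG] at f
  rw [funext₂ f]
  exact Dsc.LF.tw (D := d.Ds) (P := d.P) (h := d.h) (fun b => ⟨_, h.fr b⟩)
    (ψ1 := fun x => d.μ * d.P.f2 x) (c := -d.μ) (h.lo.mono (subset_univ Ω)) (gfrm m.hG)
    (fun b y hy h0 => by
      have x0 : 0 < ‖d.Ds.w b y‖ ^ 2 := by positivity
      have p := m.pr b y hy h0
      have e : (fun x => d.μ * ((4 : ℕ) + x * d.P.p3 x)) =ᶠ[𝓝 (‖d.Ds.w b y‖ ^ 2)]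
          fun x => d.μ * d.P.f1 x :=
        eventually_of_mem (Ioi_mem_nhds x0) fun x hx => congrArg (d.μ * ·) (d.P.ef1 x hx).symm
      exact ⟨p.pf.ne', (contDiffAt_const.mul p.sf1).congr_of_eventuallyEq e,
        ((p.df1.const_mul d.μ).congr_of_eventuallyEq e).congr_deriv (mul_assoc ..).symm⟩)
    fun x _ => by field_simp; ring

/-- the line is positive on `V⁻` -/
theorem neg_L {x : M} (hx : x ∈ Ω) : Pos (rev B) G (fL B G x) (1 / 3) x := by
  refine h.mo.neg (tw_L h) (fun s => (sm_fL h.mo.hB h.mo.hG s x).continuousAt) hx fun x hx hf => ?_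
  have h1 := d.P.le1 _ hx
  have h2 := d.P.ge0 _ hx
  have h3 := div_nonneg (neg_nonneg.2 (d.P.ccv _ hx)) hf.le
  have h4 : d.P.f1 x ≤ 4 := by exact_mod_cast d.P.len _ hx
  have h5 : 1 / 2 ≤ d.P.f1 x → 2 * 4 - 1 ≤ -d.P.f2 x / d.P.f x := by exact_mod_cast d.P.big _ hx
  have h6 : d.P.f x ^ 2 ≤ 1 := by nlinarith
  rw [← d.P.ef1 x hx, show d.μ * d.P.f2 x / d.P.f x - 2 * (d.μ * d.P.f1 x) =
    -d.μ * (2 * d.P.f1 x + -d.P.f2 x / d.P.f x) by ring, abs_mul, abs_neg, h.hμ,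
    abs_of_nonneg (add_nonneg (by linarith) h3)]
  rcases le_total (1 / 2) (d.P.f1 x) with k | k
  · linarith [h5 k]
  · linarith

open Lns4 Line51 in
/-- the global form `f² σ₁` -/
theorem exists_th : ∃ θ : M → Ext E, Fo I 1 θ ∧ Off Ω θ ∧ (∀ x ∈ Ω, ∑ a, k1 G.F θ a x ^ 2 ≤ 1) ∧
    d.Ds.Tw d.P d.h G.F.e (fun y s => k2 G.F (dM I θ) s.1 s.2 y)
      (fun x => 2 * d.P.f x * d.P.f1 x / d.P.f x) fun x => 2 * (16 * x * d.P.p1 x ^ 2) := by
  classical
  have m := h.mo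
  let A := fun b => al I (fun x => 16 * x * d.P.p1 x ^ 2) (fun x => 4 * d.P.p1 x ^ 2) (d.Ds.u b) (d.Ds.w b)
  have ch : ∀ y ∈ d.Ds.O false ∩ d.Ds.O true, A true y = A false y := fun y hy => by
    have nb := ((d.Ds.ch false).op.inter (d.Ds.ch true).op).mem_nhds hy
    have su := (d.Ds.ch false).su y hy.1
    have c := Rod53.cm_dir su (d.Ds.ne false y hy)
    have e1 : ang I (fun x => Glue52.dir (d.Ds.u true x)) y =
        -ang I (fun x => Glue52.dir (d.Ds.u false x)) y :=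
      (ang_congr (eventually_of_mem nb d.Ds.du)).trans (ang_inv c)
    have e2 : om I (d.Ds.w true) y = om I (d.Ds.w false) y +
        ‖d.Ds.w false y‖ ^ 2 • ((4 : ℕ) : ℝ) • ang I (fun x => Glue52.dir (d.Ds.u false x)) y := by
      rw [← ang_pow c]
      exact (om_congr (eventually_of_mem nb d.Ds.tw)).trans
        (om_circ ((d.Ds.ch false).sw y hy.1) (c.pow 4))
    have e3 : ‖d.Ds.u true y‖ ^ 2 = 1 - ‖d.Ds.u false y‖ ^ 2 := eq_sub_of_add_eq' (d.Ds.nrm y hy)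
    simp only [A]
    rw [al_eq, al_eq, d.Ds.nw hy, e2, om_dir su (d.Ds.ne false y hy),
      om_dir ((d.Ds.ch true).su y hy.2) (d.Ds.ne true y hy), e1, e3]
    match_scalars <;> ring
  let θ : M → Ext E := fun x => if x ∈ d.Ds.O false then A false x else Ω.indicator (A true) x
  have e : ∀ b, ∀ x ∈ d.Ds.O b, θ x = A b x := fun b x hx => by
    cases b
    · exact if_pos hx
    · by_cases k : x ∈ d.Ds.O false
      · exact (if_pos k).trans (ch x ⟨k, hx⟩).symm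
      · exact (if_neg k).trans (indicator_of_mem (d.Ds.sub _ hx) _)
  have off : Off Ω θ := fun x hx =>
    (if_neg fun k => hx (d.Ds.sub _ k)).trans (indicator_of_notMem hx _)
  have fo : Fo I 1 θ := ⟨fun x => by
    by_cases hx : x ∈ Ω
    · obtain ⟨b, k⟩ := (d.Ds.cov x).1 hx
      have C := d.Ds.ch b
      have n := sa_nsq (C.sw x k)
      have p : Pj41.FSm I (fun y => d.P.p1 (‖d.Ds.w b y‖ ^ 2) ^ 2) x :=
        ((d.P.s1 _ (sq_nonneg _)).pow 2).comp_contMDiffAt (f := fun y => ‖d.Ds.w b y‖ ^ 2) n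
      exact (((smAt_om (C.su x k)).fsmul le_rfl (((Pj41.FSm.mul' (contMDiffAt_const (c := 16)) n)).mul'
        p)).add ((smAt_om (C.sw x k)).fsmul le_rfl
        (Pj41.FSm.mul' (contMDiffAt_const (c := 4)) p))).congr
        (eventually_of_mem (C.op.mem_nhds k) fun y hy => (e b y hy).trans (al_eq _ _))
    · exact (Fo.zero (k := 1)).sm x |>.congr
        (eventually_of_mem (h.ins.cl.1.isOpen_compl.mem_nhds hx) off), fun x => by
    by_cases hx : x ∈ Ω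
    · obtain ⟨b, k⟩ := (d.Ds.cov x).1 hx
      exact e b x k ▸ Dr59.isDeg_io _
    · exact off x hx ▸ R208.FI.IsDeg.zero⟩
  have ot := on_triv (U := univ) (fun x _ => fo.sm x) fun x _ => fo.dg x
  have ff : ∀ x, 0 < x → 16 * x * d.P.p1 x ^ 2 = d.P.f x ^ 2 := fun x hx => by
    rw [d.P.ef x hx, mul_pow, mul_pow, Real.sq_sqrt hx.le]; norm_num
  refine ⟨θ, fo, off, fun x hx => ?_, ?_⟩
  · obtain ⟨b, k⟩ := (d.Ds.cov x).1 hx
    refine le_of_tendsto_of_tendsto_of_frequently (ContinuousAt.tendsto (f := fun x => ∑ a, k1 G.F θ a x ^ 2)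
      (tendsto_finsetSum _ fun a _ => (sa_k1 G.F (fo.sm x) a).continuousAt.pow 2)) tendsto_const_nhds
      (((d.Ds.ch b).dense k).mono fun y hy => ?_)
    have x0 : 0 < ‖d.Ds.w b y‖ ^ 2 := by have := hy.2; positivity
    have o := (m.on0 hy.1 hy.2).on 1 1
    have q : ∀ a, k1 G.F θ a y = d.P.f (‖d.Ds.w b y‖ ^ 2) * d.Ds.V d.P d.h G.F.e b 1 a y := fun a => by
      rw [k1, e b y hy.1]
      refine (Num57.e1_io _ _).trans ?_
      simp only [Dsc.V, vG, Matrix.cons_val, sg1, Lns95.nu, mu_eq ((d.Ds.ch b).su y hy.1),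
        mu_eq ((d.Ds.ch b).sw y hy.1), ← mul_assoc, ← sq, ← ff _ x0]
      show _ * lm _ (Sob92.dv I (G.F.e a) _ y) + _ * lm _ (Sob92.dv I (G.F.e a) _ y) = _
      have := norm_ne_zero_iff.2 hy.2
      field_simp
      ring
    simp only [if_true, ← sq] at o
    simp only [q, mul_pow, ← Finset.mul_sum, o, mul_one]
    nlinarith [d.P.le1 _ x0, (m.pr b y hy.1 hy.2).pf]
  · have r := Iso.refl isOpen_univ ot
    have t := Dsc.LF.tw (D := d.Ds) (P := d.P) (h := d.h) (L := triv θ)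
      (ψ := fun x => 16 * x * d.P.p1 x ^ 2) (q := fun x => 4 * d.P.p1 x ^ 2) (fun b => ⟨_,
      r.toUni.mono (subset_univ _), fun x hx => (r.par x trivial).trans (e b x hx)⟩)
      (ψ1 := fun x => 2 * d.P.f x * d.P.f1 x) (c := 0) (ot.mono (subset_univ Ω)) (gfrm m.hG)
      (fun b y hy h0 => by
        have x0 : 0 < ‖d.Ds.w b y‖ ^ 2 := by positivity
        have p := m.pr b y hy h0
        have e : (fun x => 16 * x * d.P.p1 x ^ 2) =ᶠ[𝓝 (‖d.Ds.w b y‖ ^ 2)] fun x => d.P.f x ^ 2 :=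
          eventually_of_mem (Ioi_mem_nhds x0) ff
        exact ⟨p.pf.ne', (p.sf.pow 2).congr_of_eventuallyEq e,
          ((p.df.pow 2).congr_of_eventuallyEq e).congr_deriv (by simp; ring)⟩)
      fun x _ => by push_cast; ring
    rwa [show (triv θ).F I = dM I θ from funext fun x => F_triv isOpen_univ ot.sa ot.dg trivial] at t

/-- the form `f² σ₁`, cut off slowly -/
theorem exists_cut : ∃ (θ : M → Ext E) (T : ℝ), Fo I 1 θ ∧ Off Ω θ ∧ 0 ≤ T ∧
    (∀ x, T < K.tm x → θ x = 0) ∧ ∀ x ∈ Ω, ∀ t : ℝ, t = 0 ∨ t = 1 → Pos (rev B) G (fun s =>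
      2 * t * fL B G x s + (2 * t - 1) * (2 * d.μ) * k2 G.F (dM I θ) s.1 s.2 x) (1 / 3) x := by
  obtain ⟨θ, fo, off, n1, tw⟩ := exists_th h
  have i := h.ins
  have en : Qab60.En K Ω := ⟨i.hD, Qd40.volY i.hD.G.vol, i.tam, i.hG, i.one⟩
  have hμ : |2 * d.μ| = 1 := by rw [abs_mul, h.hμ]; norm_num
  have p : ∀ x ∈ Ω, ∀ t : ℝ, t = 0 ∨ t = 1 → Pos (rev B) G (fun s => 2 * t * fL B G x s +
      (2 * t - 1) * (2 * d.μ) * k2 G.F (dM I θ) s.1 s.2 x) (1 / 2) x := fun x hx t ht => by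
    refine h.mo.neg (k := fun x s => 2 * t * fL B G x s +
      (2 * t - 1) * (2 * d.μ) * k2 G.F (dM I θ) s.1 s.2 x)
      (α := fun x => 2 * t * (d.μ * d.P.f2 x / d.P.f x) +
        (2 * t - 1) * (2 * d.μ) * (2 * d.P.f x * d.P.f1 x / d.P.f x))
      (β := fun x => 2 * t * (2 * (d.μ * ((4 : ℕ) + x * d.P.p3 x))) +
        (2 * t - 1) * (2 * d.μ) * (2 * (16 * x * d.P.p1 x ^ 2)))
      (fun b y hy h0 s => by
        have := tw b y hy h0 s
        simp only [tw_L h b y hy h0 s] at this ⊢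
        rw [this]; ring)
      (fun s => (continuousAt_const.mul (sm_fL i.hB i.hG s x).continuousAt).add
        (continuousAt_const.mul (sa_k2 G.F (fo.d.sm x) _ _).continuousAt)) hx fun x hx hf => ?_
    have h1 := d.P.le1 _ hx
    have h2 := d.P.ge0 _ hx
    have h3 := div_nonneg (neg_nonneg.2 (d.P.ccv _ hx)) hf.le
    have h4 : d.P.f1 x ≤ 4 := by exact_mod_cast d.P.len _ hx
    have h5 : 1 / 2 ≤ d.P.f1 x → 2 * 4 - 1 ≤ -d.P.f2 x / d.P.f x := by exact_mod_cast d.P.big _ hx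
    have h6 : d.P.f x ^ 2 ≤ 1 := by nlinarith
    have h7 := sq_nonneg (d.P.f x)
    rw [← d.P.ef1 x hx, show 16 * x * d.P.p1 x ^ 2 = d.P.f x ^ 2 by
      rw [d.P.ef x hx, mul_pow, mul_pow, Real.sq_sqrt hx.le]; norm_num,
      show 2 * d.P.f x * d.P.f1 x / d.P.f x = 2 * d.P.f1 x by field_simp]
    rcases ht with rfl | rfl
    · rw [show ∀ a b : ℝ, 2 * 0 * a + (2 * 0 - 1) * (2 * d.μ) * (2 * d.P.f1 x) - (2 * 0 * b +
        (2 * 0 - 1) * (2 * d.μ) * (2 * d.P.f x ^ 2)) = 2 * d.μ * (2 * (d.P.f x ^ 2 - d.P.f1 x)) from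
        fun _ _ => by ring, abs_mul, hμ]
      rcases le_total (1 / 2) (d.P.f1 x) with k | k
      · have := h5 k
        cases abs_cases (2 * (d.P.f x ^ 2 - d.P.f1 x)) <;> linarith
      · cases abs_cases (2 * (d.P.f x ^ 2 - d.P.f1 x)) <;> linarith
    · rw [show 2 * 1 * (d.μ * d.P.f2 x / d.P.f x) + (2 * 1 - 1) * (2 * d.μ) * (2 * d.P.f1 x) -
        (2 * 1 * (2 * (d.μ * d.P.f1 x)) + (2 * 1 - 1) * (2 * d.μ) * (2 * d.P.f x ^ 2)) =
        -(2 * d.μ) * (-d.P.f2 x / d.P.f x + 2 * d.P.f x ^ 2) by ring, abs_mul, abs_neg, hμ,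
        abs_of_nonneg (by linarith)]
      linarith
  obtain ⟨C, hC⟩ := Cht98.hcs_deriv_st.exists_bound_of_continuous
    ((Real.smoothTransition.contDiff (n := 1)).continuous_deriv le_rfl)
  have C0 := (norm_nonneg _).trans (hC 0)
  have L0 : 0 < 6 * C + 1 := by linarith
  let χ : ℝ → ℝ := fun s => Real.smoothTransition (2 - s / (6 * C + 1))
  have z : ∀ s, 2 * (6 * C + 1) ≤ s → χ s = 0 := fun s hs =>
    Real.smoothTransition.zero_of_nonpos (sub_nonpos.2 ((le_div_iff₀ L0).2 hs))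
  have ct : Ct 0 χ := ⟨Real.smoothTransition.contDiff.comp (contDiff_const.sub (contDiff_id.div_const _)),
    _, _, L0, fun s hs => Real.smoothTransition.one_of_one_le (by
      linarith [(div_le_one L0).2 hs]), z⟩
  have dχ : ∀ s, deriv χ s ^ 2 ≤ 1 / 36 := fun s => by
    have := (((Real.smoothTransition.contDiff (n := 1)).differentiable one_ne_zero _).hasDerivAt.comp s
      (((hasDerivAt_id s).div_const (6 * C + 1)).const_sub 2)).deriv
    rw [show deriv χ s = _ from this, ← sq_abs, abs_mul, abs_neg, abs_of_pos (one_div_pos.2 L0),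
      mul_one_div, show (1 : ℝ) / 36 = (1 / 6) ^ 2 by norm_num]
    exact pow_le_pow_left₀ (by positivity) ((div_le_iff₀ L0).2 ((hC _).trans (by linarith))) 2
  have sm := en.sm_ec ct
  refine ⟨ec K Ω χ • θ, 2 * (6 * C + 1), fo.fsmul sm, fun x hx => by simp [off x hx], by linarith,
    fun x hx => by simp [ec, indicator, z _ hx.le], fun x hx t ht => ?_⟩
  rcases le_or_gt (K.tm x) 0 with k | k
  · have : dM I (ec K Ω χ • θ) x = dM I θ x :=
      Dr59.dM_congr ((en.ec_lc ct k).mono fun y e => by simp [e, hx])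
    have := p x hx t ht
    simp only [Pos, k2, *] at this ⊢
    linarith
  have f0 : ∀ s, fL B G x s = 0 := fun s => by rw [← i.fl x hx, c2_of_zero (i.off x k)]; rfl
  have ev : ∀ᶠ y in 𝓝 x, ec K Ω χ y = χ (K.ψ.symm y).2 :=
    mem_of_superset ((isOpen_lt continuous_const K.cont).mem_nhds k) fun y hy =>
      (indicator_of_mem (en.mem hy) _).trans (congrArg χ (en.symm2 hy).symm)
  have g := fun a => K.rel'.D (en.tgt k) a (u' := fun z => χ z.2) ev
  have g2 : ∑ a, G.F.D a (ec K Ω χ) x ^ 2 ≤ 1 / 36 := by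
    simp only [Fintype.sum_option, g, show D.Z.D none _ = _ from D_none_snd D.F.toPre ct.sm,
      fun a => show D.Z.D (some a) _ = _ from D_some_snd D.F.toPre ct.sm a]
    simpa using dχ _
  have ε1 : ((2 * t - 1) * (2 * d.μ)) ^ 2 = 1 := by
    rw [mul_pow, ← sq_abs (2 * d.μ), hμ]; rcases ht with rfl | rfl <;> norm_num
  have w := sdn_le (x := x) (rev_ok i.hB) fun s => (2 * t - 1) * (2 * d.μ) *
    (G.F.D s.1 (ec K Ω χ) x * k1 G.F θ s.2 x - G.F.D s.2 (ec K Ω χ) x * k1 G.F θ s.1 x)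
  have w2 := (Finset.sum_le_sum (s := Finset.univ) fun (s : Option κ × Option κ) _ =>
    show (G.F.D s.1 (ec K Ω χ) x * k1 G.F θ s.2 x - G.F.D s.2 (ec K Ω χ) x * k1 G.F θ s.1 x) ^ 2 ≤
      2 * (G.F.D s.1 (ec K Ω χ) x ^ 2 * k1 G.F θ s.2 x ^ 2) +
        2 * (k1 G.F θ s.1 x ^ 2 * G.F.D s.2 (ec K Ω χ) x ^ 2) by
      nlinarith [sq_nonneg (G.F.D s.1 (ec K Ω χ) x * k1 G.F θ s.2 x +
        G.F.D s.2 (ec K Ω χ) x * k1 G.F θ s.1 x)])
  simp only [mul_pow _ (_ - _), ε1, one_mul] at w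
  simp only [Finset.sum_add_distrib, ← Finset.mul_sum, Fintype.sum_prod_type,
    ← Finset.sum_mul] at w2
  have w3 := mul_le_mul g2 (n1 x hx) (Finset.sum_nonneg fun _ _ => sq_nonneg _) (by norm_num)
  have w4 := abs_le_of_sq_le_sq' (b := 1 / 3) (w.trans (by
    simp only [Fintype.sum_prod_type]; linarith)) (by norm_num)
  have w5 := sdn_lin (B := rev B) (x := x) ((1 - 2 * t) * ec K Ω χ x) (fun s => 2 * 0 * fL B G x s +
    (2 * 0 - 1) * (2 * d.μ) * k2 G.F (dM I θ) s.1 s.2 x) fun s => (2 * t - 1) * (2 * d.μ) *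
    (G.F.D s.1 (ec K Ω χ) x * k1 G.F θ s.2 x - G.F.D s.2 (ec K Ω χ) x * k1 G.F θ s.1 x)
  have w6 : |(1 - 2 * t) * ec K Ω χ x| ≤ 1 := by
    rw [abs_mul, ec, indicator_of_mem hx, abs_of_nonneg (Real.smoothTransition.nonneg _)]
    rcases ht with rfl | rfl <;> norm_num <;> exact Real.smoothTransition.le_one _
  have w7 := p x hx 0 (.inl rfl)
  rw [Pos] at w7 ⊢
  refine le_trans (add_le_add_right (div_le_div_of_nonneg_right (le_of_eq_of_le (congrArg _
    (funext fun s => ?_)) (w5.trans (add_le_add (mul_le_of_le_one_left (Real.sqrt_nonneg _) w6) w4.2)))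
      zero_le_two) _) (by linarith)
  rw [fo.d_fsmul sm, k2, Pi.add_apply, e2_add, Pi.smul_apply', e2_smul, Pi.mul_apply,
    e2_mul G.F ((fo_df sm).dg x), f0, ← k1_df, ← k1_df]
  simp only [k1, k2]
  ring

/-- a representative of level `1/4` with a positive Weitzenboeck term -/
theorem rep {r : ℕ} {c : Cfg M (Option κ) (lam ⊕ lam) r} {ξ : M → c.m.A} (A : Ab B G Ω c ξ)
    (S : Sl B G Ω (fm G.F c.m c.W ξ)) {β : YC Y.M κ (lam ⊕ lam)} (hβ : Bs D β)
    (L : K.Lim c.con β 1 atTop) : ∃ W : c.m.Cn, c.m.IsConn B G W ∧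
      (∀ e, K.ELim e (⟨c.m, W, 0, 0⟩ : Cfg M _ _ 0) β 1 atTop) ∧ (∀ x ∈ Ω, Ng B G W (1 / 3) x) ∧
      IntegrableOn (c.m.kd B G.F W) Ω G.F.μ ∧ ∫ x in Ω, c.m.kd B G.F W x ∂G.F.μ = 1 / 4 := by
  have i := h.ins
  have en : Qab60.En K Ω := ⟨i.hD, Qd40.volY i.hD.G.vol, i.tam, i.hG, i.one⟩
  obtain ⟨θ, T, fo, off, T0, z, p⟩ := exists_cut h
  obtain ⟨ε, T', e, a, hε, h0, he, fa, oa, f, dc⟩ := (Sep15.Cls.cls B G K Ω _ _ i S).1
  have ad := fun (c : Cfg M (Option κ) (lam ⊕ lam) 0) ξ A =>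
    (Qa50.addStmt I M _ _ 0 B G Ω c ξ i.hB i.hG i.cl A).1
  have A₀ : Ab B G Ω c.con ξ :=
    ⟨⟨A.adm.ok, A.adm.conn, contMDiff_const, fun _ => map_zero _, .inl rfl⟩, A.rd, fun _ _ => rfl⟩
  obtain ⟨A₁, e₁⟩ := ad _ _ (ab_neg A₀) a fa oa
  have fθ := fo.smul (-ε * d.μ)
  have oθ : Off Ω ((-ε * d.μ) • θ) := fun x hx => by simp [off x hx]
  obtain ⟨A₂, e₂⟩ := ad _ _ A₁ _ fθ oθ
  have e₃ := e₂.trans (congrArg (· + _) (e₁.trans (show _ = (-ε / 2) • d.w by
    rw [Abel74.fm_neg, f]; module)))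
  have li := fun (c : Cfg M (Option κ) (lam ⊕ lam) 0) ξ (A : Ab B G Ω c ξ) T e a (h0 : 0 ≤ T) =>
    Dgr80.lima D I M 0 B G K c ξ β 1 T e a i.hD i.hB i.hG A.adm hβ.adm (fun t ht => en.J (h0.trans_lt ht))
      (A.rd.toRedOn.mono fun x hx => en.mem (h0.trans_lt hx))
  have o : IsOpen (hZ Y T) := isOpen_univ.prod isOpen_Ioi
  have L₂ := li _ _ A₁ T 1 _ T0 one_pos fθ (fun v => ⟨0, fun x hx => by
    rw [(Pj41.FRel.refl D.Z isOpen_univ).Dw (mem_univ x) v (u' := fun _ => 0)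
      ((o.eventually_mem hx).mono fun y hy => (en.c1_pm (T0.trans_lt hy.2) _).trans (by
        have := z (K.ψ y) ((en.tm (T0.trans_lt hy.2)).symm ▸ hy.2)
        ext; simp [Qab60.c1, k1, this, e1])), zero_mul]
    exact (Sob92.CB_const (F := D.Z.toPre) v.length 0 v le_rfl x).trans norm_zero.le⟩)
    (li _ _ (ab_neg A₀) T' e a h0 he fa dc L)
  obtain ⟨W, A₃, e₃, L₃⟩ : ∃ W : c.m.Cn, Ab B G Ω (⟨c.m, W, 0, 0⟩ : Cfg M _ _ 0) (fun x => -ξ x) ∧
      fm G.F c.m W (fun x => -ξ x) = (-ε / 2) • d.w + dM I ((-ε * d.μ) • θ) ∧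
      K.Lim (⟨c.m, W, 0, 0⟩ : Cfg M _ _ 0) β 1 atTop :=
    ⟨_, ⟨⟨A.adm.ok, A₂.adm.conn, contMDiff_const, fun _ => map_zero _, .inl rfl⟩, A₂.rd,
      fun _ _ => rfl⟩, e₃, by
        convert L₂ using 1
        exact congrArg (fun Φ => (⟨c.m, _, Φ, 0⟩ : Cfg M _ _ 0)) (funext fun x =>
          (show (0 : c.m.V) + 0 + 0 = 0 by simp).symm)⟩
  clear e₁ e₂ A₁ A₂ L₂ li ad
  have C : c.m.IsConn B G W := A₃.adm.conn
  have oT : IsOpen (K.tm ⁻¹' Ioi T) := isOpen_Ioi.preimage K.cont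
  have fl : ∀ x, T < K.tm x → c.m.Fg G.F W x = 0 := fun x hx => PiLp.ext fun s => by
    have : dM I ((-ε * d.μ) • θ) x = dM I 0 x :=
      Dr59.dM_congr (mem_of_superset (oT.mem_nhds hx) fun y hy => by simp [z y hy])
    refine (A₃.rd.Fg_eq i.hB i.hG A.adm.ok C (en.mem (T0.trans_lt hx)) s).trans ?_
    rw [← Abel74.k2_fm i.hG C, e₃, k2, Pi.add_apply, this]
    simp [i.off x (T0.trans_lt hx), e2_zero]
  have sJ : Ioi T ⊆ K.J := fun t ht => en.J (T0.trans_lt ht)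
  have fz : Dfl49.Fz G.F (⟨c.m, W, 0, 0⟩ : Cfg M _ _ 0) (K.tm ⁻¹' Ioi T) := ⟨fl, fun _ _ => rfl⟩
  obtain ⟨-, v, pv⟩ := Dfl49.lim_pi i.hD hβ.adm Bki64.isEnd_top oT
    ((Tmp64.admOn_univ.2 A₃.adm).mono (subset_univ _)) fz isOpen_Ioi ordConnected_Ioi
    (Ioi_mem_atTop T) sJ Subset.rfl L₃
  have hc : HasCompactSupport (dM I ((-ε * d.μ) • θ)) := hcs_dM (.intro (en.cpt T) fun x hx => by
    by_cases k : x ∈ Ω
    exacts [by simp [z x (lt_of_not_ge fun e => hx ⟨k, e⟩)], oθ x k])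
  refine ⟨W, C, (Dfl49.lims_pi hβ A₃.adm isOpen_Ioi (Ioi_mem_atTop T) sJ (fz.pb sJ Subset.rfl) pv 1).2,
    fun x hx => ng_ab i.hB i.hG A₃ hx fun η hη => ?_, ?_, ?_⟩
  · convert p x hx ((1 - η * ε) / 2) (by
      rcases hε with rfl | rfl <;> rcases hη with rfl | rfl <;> norm_num) using 2 with s
    rw [e₃, k2_add, fo.d_smul, k2_smul, k2_smul, ← i.fl x hx]
    simp only [Qab60.c2]
    ring
  · exact (((Loc66.sm_kd i.hB i.hG A.adm.ok C).continuous.continuousOn.integrableOn_compact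
      (en.cpt T)).union (integrableOn_zero.congr_fun (fun x hx => by simp [Md.kd, fl x hx])
        oT.measurableSet)).mono_set fun x hx => (le_or_gt (K.tm x) T).imp (⟨hx, ·⟩) id
  · refine (kd_int i.hB i.hG i.cl i.tam.ok A₃).trans ?_
    rw [e₃, (Sep15.Cls.pc en i.cs i.span (by rw [i.sq, neg_lt_zero]; positivity)).integ_sq
      ((cz_of_cs i.cs).smul _) (i.cs.smul _).hc fθ oθ (sq_of_hcs fθ.d.sm hc), Sep15.Cls.sq_smul, i.sq]
    rcases hε with rfl | rfl <;> field_simp <;> norm_num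

end mdl

end Crest.Agent.X212.Sec57
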