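import Crest.Agent.X212.Num57.Alg

/-!
X212 / NUM (helper57), part 2: matrices over a super-commutative differential algebra.

* `SC Ω`      : super-commutative `SD`;
* `S.mat κ`   : the traced algebra of square matrices (`τ = trace`);
* `Itw C C' u`: the rectangular even matrix `u` intertwines `d + C` and `d + C'`;
* `tpt`       : transport of a connection along `v u = p`, `u v = q`; `Itw.tr1`, `Itw.tr2` the traces;
* `c1_map`, `c2_map` : naturality.
-/

set_option autoImplicit false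
set_option linter.unusedSectionVars false

open Matrix

namespace Crest.Agent.X212.Num57

/-- super-commutative differential algebra -/
structure SC (Ω : Type*) [Ring Ω] [Algebra ℝ Ω] extends SD Ω where
  comm_ev : ∀ x y, inv x = x → x * y = y * x
  comm_od : ∀ x y, inv x = -x → inv y = -y → x * y = -(y * x)

namespace SC

variable {Ω : Type*} [Ring Ω] [Algebra ℝ Ω] (S : SC Ω)
variable {κ κ' κ'' : Type*} [Fintype κ] [Fintype κ'] [Fintype κ''] [DecidableEq κ] [DecidableEq κ']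
  [DecidableEq κ'']

/-- entrywise `d` -/
def md {m n : Type*} (X : Matrix m n Ω) : Matrix m n Ω := X.map S.d
/-- entrywise involution -/
def mi {m n : Type*} (X : Matrix m n Ω) : Matrix m n Ω := X.map S.inv

@[simp] theorem md_apply {m n : Type*} (X : Matrix m n Ω) (i : m) (j : n) :
    S.md X i j = S.d (X i j) := rfl
@[simp] theorem mi_apply {m n : Type*} (X : Matrix m n Ω) (i : m) (j : n) :
    S.mi X i j = S.inv (X i j) := rfl

theorem md_mul {m n : Type*} (X : Matrix m κ Ω) (Y : Matrix κ n Ω) :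
    S.md (X * Y) = S.md X * Y + S.mi X * S.md Y := by
  ext i j
  simp only [md_apply, Matrix.mul_apply, map_sum, S.d_mul, Matrix.add_apply, mi_apply,
    Finset.sum_add_distrib]

theorem mi_mul {m n : Type*} (X : Matrix m κ Ω) (Y : Matrix κ n Ω) :
    S.mi (X * Y) = S.mi X * S.mi Y := by
  ext i j
  simp only [mi_apply, Matrix.mul_apply, map_sum, map_mul]

theorem md_add {m n : Type*} (X Y : Matrix m n Ω) : S.md (X + Y) = S.md X + S.md Y := by
  ext i j; simp
theorem md_sub {m n : Type*} (X Y : Matrix m n Ω) : S.md (X - Y) = S.md X - S.md Y := by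
  ext i j; simp
theorem mi_add {m n : Type*} (X Y : Matrix m n Ω) : S.mi (X + Y) = S.mi X + S.mi Y := by
  ext i j; simp
theorem mi_sub {m n : Type*} (X Y : Matrix m n Ω) : S.mi (X - Y) = S.mi X - S.mi Y := by
  ext i j; simp
theorem md_md {m n : Type*} (X : Matrix m n Ω) : S.md (S.md X) = 0 := by
  ext i j; simp [S.d_d]
theorem mi_md {m n : Type*} (X : Matrix m n Ω) : S.mi (S.md X) = - S.md (S.mi X) := by
  ext i j; simp [S.inv_d]
theorem md_neg {m n : Type*} (X : Matrix m n Ω) : S.md (-X) = - S.md X := by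
  ext i j; simp
theorem md_zero {m n : Type*} : S.md (0 : Matrix m n Ω) = 0 := by
  ext i j; simp
theorem mi_zero {m n : Type*} : S.mi (0 : Matrix m n Ω) = 0 := by
  ext i j; simp
theorem md_one : S.md (1 : Matrix κ κ Ω) = 0 := by
  ext i j
  by_cases h : i = j
  · subst h; simp [SD.d_one]
  · simp [Matrix.one_apply_ne h]
theorem mi_one : S.mi (1 : Matrix κ κ Ω) = 1 := by
  ext i j
  by_cases h : i = j
  · subst h; simp
  · simp [Matrix.one_apply_ne h]

theorem trace_ev (X : Matrix κ κ' Ω) (Y : Matrix κ' κ Ω) (h : S.mi X = X) :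
    trace (X * Y) = trace (Y * X) := by
  simp only [trace, diag, Matrix.mul_apply]
  rw [Finset.sum_comm]
  refine Finset.sum_congr rfl fun i _ => Finset.sum_congr rfl fun j _ => ?_
  exact S.comm_ev _ _ (congrFun (congrFun h j) i)

theorem trace_od (X : Matrix κ κ' Ω) (Y : Matrix κ' κ Ω) (h : S.mi X = -X) (h' : S.mi Y = -Y) :
    trace (X * Y) = - trace (Y * X) := by
  simp only [trace, diag, Matrix.mul_apply]
  rw [Finset.sum_comm, ← Finset.sum_neg_distrib]
  refine Finset.sum_congr rfl fun i _ => ?_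
  rw [← Finset.sum_neg_distrib]
  refine Finset.sum_congr rfl fun j _ => ?_
  exact S.comm_od _ _ (congrFun (congrFun h j) i) (congrFun (congrFun h' i) j)

variable (κ) in
/-- the traced algebra of square matrices -/
def mat : TD (Matrix κ κ Ω) Ω where
  inv := S.inv.mapMatrix
  d := S.d.mapMatrix
  inv_inv x := by ext i j; simp [S.inv_inv]
  inv_d x := S.mi_md x
  d_mul x y := S.md_mul x y
  d_d x := S.md_md x
  τ := traceLinearMap κ ℝ Ω
  δ := S.d
  τ_d x := by simp [trace, map_sum]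
  τ_ev x y h := S.trace_ev x y h
  τ_od x y h h' := S.trace_od x y h h'

theorem mat_d (X : Matrix κ κ Ω) : (S.mat κ).d X = S.md X := rfl
theorem mat_inv (X : Matrix κ κ Ω) : (S.mat κ).inv X = S.mi X := rfl
theorem mat_τ (X : Matrix κ κ Ω) : (S.mat κ).τ X = trace X := rfl
theorem mat_δ (x : Ω) : (S.mat κ).δ x = S.d x := rfl

/-- curvature matrix -/
abbrev cu (C : Matrix κ κ Ω) : Matrix κ κ Ω := (S.mat κ).cur C
/-- odd matrix (a connection) -/
abbrev Co (C : Matrix κ κ Ω) : Prop := (S.mat κ).Od C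
/-- parallel endomorphism -/
abbrev Pa (C T : Matrix κ κ Ω) : Prop := (S.mat κ).Par C T

theorem cu_eq (C : Matrix κ κ Ω) : S.cu C = S.md C + C * C := rfl
theorem co_iff {C : Matrix κ κ Ω} : S.Co C ↔ ∀ i j, S.Od (C i j) := by
  constructor
  · intro h i j; exact congrFun (congrFun h i) j
  · intro h; ext i j; exact h i j
theorem ev_iff {m n : Type*} {X : Matrix m n Ω} : S.mi X = X ↔ ∀ i j, S.Ev (X i j) := by
  constructor
  · intro h i j; exact congrFun (congrFun h i) j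
  · intro h; ext i j; exact h i j
theorem pa_iff {C T : Matrix κ κ Ω} :
    S.Pa C T ↔ S.mi T = T ∧ S.md T + C * T - T * C = 0 :=
  ⟨fun h => ⟨h.ev, h.par⟩, fun h => ⟨h.1, h.2⟩⟩

/-- first characteristic form -/
def c1 (C T : Matrix κ κ Ω) : Ω := trace (T * S.cu C)
/-- second characteristic form -/
def c2 (C T : Matrix κ κ Ω) : Ω := trace (T * (S.cu C * S.cu C))

variable {S}

theorem c1_closed {C T : Matrix κ κ Ω} (hC : S.Co C) (h : S.Pa C T) : S.d (S.c1 C T) = 0 :=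
  (S.mat κ).c1_closed hC h
theorem c2_closed {C T : Matrix κ κ Ω} (hC : S.Co C) (h : S.Pa C T) : S.d (S.c2 C T) = 0 :=
  (S.mat κ).c2_closed hC h
theorem c1_sub {C C' T : Matrix κ κ Ω} (hC : S.Co C) (hC' : S.Co C') (h : S.Pa C T)
    (h' : S.Pa C' T) : S.c1 C' T = S.c1 C T + S.d (trace (T * (C' - C))) :=
  (S.mat κ).c1_sub hC hC' h h'
theorem c2_sub {C C' T : Matrix κ κ Ω} (hC : S.Co C) (hC' : S.Co C') (h : S.Pa C T)
    (h' : S.Pa C' T) :
    S.c2 C' T = S.c2 C T + S.d (trace (T * TD.cs (S.mat κ).toSD C (C' - C))) :=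
  (S.mat κ).c2_sub hC hC' h h'

theorem ev_trace {X : Matrix κ κ Ω} (h : S.mi X = X) : S.Ev (trace X) := by
  unfold trace
  exact SD.Ev.sum _ fun i _ => (S.ev_iff.1 h) i i

theorem c1_ev {C T : Matrix κ κ Ω} (hC : S.Co C) (h : S.mi T = T) : S.Ev (S.c1 C T) :=
  ev_trace (SD.Ev.mul (S := (S.mat κ).toSD) h hC.cur)

theorem c1_add (C T U : Matrix κ κ Ω) : S.c1 C (T + U) = S.c1 C T + S.c1 C U := by
  simp [c1, add_mul]
theorem c2_add (C T U : Matrix κ κ Ω) : S.c2 C (T + U) = S.c2 C T + S.c2 C U := by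
  simp [c2, add_mul]
theorem c1_smul (C T : Matrix κ κ Ω) (r : ℝ) : S.c1 C (r • T) = r • S.c1 C T := by
  simp [c1]
theorem c2_smul (C T : Matrix κ κ Ω) (r : ℝ) : S.c2 C (r • T) = r • S.c2 C T := by
  simp [c2]

/-! ### intertwiners -/

variable (S) in
/-- `u (d + C) = (d + C') u` -/
structure Itw (C : Matrix κ κ Ω) (C' : Matrix κ' κ' Ω) (u : Matrix κ' κ Ω) : Prop where
  ev : S.mi u = u
  eq : S.md u + C' * u - u * C = 0

theorem Itw.md_eq {C : Matrix κ κ Ω} {C' : Matrix κ' κ' Ω} {u : Matrix κ' κ Ω}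
    (h : S.Itw C C' u) : S.md u = u * C - C' * u := by
  have := h.eq
  rw [← sub_eq_zero, ← this]; abel

theorem Itw.of_md {C : Matrix κ κ Ω} {C' : Matrix κ' κ' Ω} {u : Matrix κ' κ Ω}
    (he : S.mi u = u) (h : S.md u = u * C - C' * u) : S.Itw C C' u :=
  ⟨he, by rw [h]; abel⟩

theorem itw_iff {C T : Matrix κ κ Ω} : S.Itw C C T ↔ S.Pa C T :=
  ⟨fun h => ⟨h.1, h.2⟩, fun h => ⟨h.1, h.2⟩⟩

theorem Itw.mul {C : Matrix κ κ Ω} {C' : Matrix κ' κ' Ω} {C'' : Matrix κ'' κ'' Ω}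
    {u : Matrix κ' κ Ω} {w : Matrix κ'' κ' Ω} (hw : S.Itw C' C'' w) (hu : S.Itw C C' u) :
    S.Itw C C'' (w * u) := by
  refine Itw.of_md (by rw [S.mi_mul, hw.ev, hu.ev]) ?_
  rw [S.md_mul, hw.ev, hw.md_eq, hu.md_eq]
  simp only [Matrix.sub_mul, Matrix.mul_sub, Matrix.mul_assoc]
  abel

theorem Itw.cu {C : Matrix κ κ Ω} {C' : Matrix κ' κ' Ω} {u : Matrix κ' κ Ω}
    (hC' : S.Co C') (h : S.Itw C C' u) : u * S.cu C = S.cu C' * u := by
  have h1 := S.md_md u
  have h2 : S.mi C' = -C' := hC'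
  rw [h.md_eq, S.md_sub, S.md_mul, S.md_mul, h.ev, h2, h.md_eq] at h1
  rw [cu_eq, cu_eq, ← sub_eq_zero, ← h1]
  simp only [Matrix.sub_mul, Matrix.mul_sub, Matrix.mul_assoc, Matrix.add_mul, Matrix.mul_add,
    Matrix.neg_mul]
  abel

theorem Itw.pa {C T : Matrix κ κ Ω} {C' : Matrix κ' κ' Ω} {u : Matrix κ' κ Ω} {v : Matrix κ κ' Ω}
    (hu : S.Itw C C' u) (hv : S.Itw C' C v) (hT : S.Pa C T) : S.Pa C' (u * T * v) :=
  itw_iff.1 ((hu.mul (itw_iff.2 hT)).mul hv)

theorem Itw.tr1 {C T : Matrix κ κ Ω} {C' : Matrix κ' κ' Ω} {u : Matrix κ' κ Ω} {v : Matrix κ κ' Ω}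
    (hC : S.Co C) (hu : S.Itw C C' u) (hv : S.Itw C' C v) (hT : T * (v * u) = T) :
    S.c1 C' (u * T * v) = S.c1 C T := by
  have hp : v * u * S.cu C = S.cu C * (v * u) := (hv.mul hu).cu hC
  rw [c1, c1, Matrix.mul_assoc, hv.cu hC, Matrix.mul_assoc, S.trace_ev u _ hu.ev, Matrix.mul_assoc,
    Matrix.mul_assoc, ← hp, ← Matrix.mul_assoc, hT]

theorem Itw.tr2 {C T : Matrix κ κ Ω} {C' : Matrix κ' κ' Ω} {u : Matrix κ' κ Ω} {v : Matrix κ κ' Ω}
    (hC : S.Co C) (hu : S.Itw C C' u) (hv : S.Itw C' C v) (hT : T * (v * u) = T) :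
    S.c2 C' (u * T * v) = S.c2 C T := by
  have hp : v * u * S.cu C = S.cu C * (v * u) := (hv.mul hu).cu hC
  have h2 : v * (S.cu C' * S.cu C') = S.cu C * S.cu C * v := by
    rw [← Matrix.mul_assoc, hv.cu hC, Matrix.mul_assoc, hv.cu hC, Matrix.mul_assoc]
  have h3 : S.cu C * S.cu C * (v * u) = v * u * (S.cu C * S.cu C) := by
    rw [Matrix.mul_assoc, ← hp, ← Matrix.mul_assoc, ← hp, Matrix.mul_assoc]
  rw [c2, c2, Matrix.mul_assoc, h2, Matrix.mul_assoc, S.trace_ev u _ hu.ev, Matrix.mul_assoc,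
    Matrix.mul_assoc, h3, ← Matrix.mul_assoc, hT]

variable (S) in
/-- the transported connection -/
def tpt (C : Matrix κ κ Ω) (u : Matrix κ' κ Ω) (v : Matrix κ κ' Ω) : Matrix κ' κ' Ω :=
  u * S.md v + u * C * v - (1 - u * v) * S.md (u * v)

theorem tpt_co {C : Matrix κ κ Ω} {u : Matrix κ' κ Ω} {v : Matrix κ κ' Ω} (hC : S.Co C)
    (hu : S.mi u = u) (hv : S.mi v = v) : S.Co (S.tpt C u v) := by
  have h2 : S.mi C = -C := hC
  change S.mi _ = _
  simp only [tpt, S.mi_sub, S.mi_add, S.mi_mul, S.mi_md, hu, hv, h2, S.mi_one, Matrix.mul_neg,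
    Matrix.neg_mul]
  abel

theorem tpt_u {C : Matrix κ κ Ω} {u : Matrix κ' κ Ω} {v : Matrix κ κ' Ω}
    (hu : S.mi u = u) (hv : S.mi v = v) (hp : S.Pa C (v * u)) (h1 : u * (v * u) = u) :
    S.Itw C (S.tpt C u v) u := by
  refine ⟨hu, ?_⟩
  have e1 : S.md (v * u) = S.md v * u + v * S.md u := by rw [S.md_mul, hv]
  have h1' : u * v * u = u := by rw [Matrix.mul_assoc, h1]
  have e2 : S.md (u * v) * u + u * v * S.md u = S.md u := by
    have := S.md_mul (u * v) u
    rw [h1', S.mi_mul, hu, hv] at this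
    exact this.symm
  have e3 : (1 - u * v) * (u * v) = 0 := by
    rw [Matrix.sub_mul, Matrix.one_mul, ← Matrix.mul_assoc, h1', sub_self]
  have e4 : (1 - u * v) * (S.md (u * v) * u) = (1 - u * v) * S.md u := by
    conv_rhs => rw [← e2]
    rw [Matrix.mul_add, ← Matrix.mul_assoc _ (u * v) (S.md u), e3, Matrix.zero_mul, add_zero]
  have e5 : u * (S.md (v * u) + C * (v * u) - v * u * C) = 0 := by
    rw [(S.pa_iff.1 hp).2, Matrix.mul_zero]
  rw [e1, Matrix.mul_sub, ← Matrix.mul_assoc u (v * u) C, h1] at e5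
  rw [tpt, Matrix.sub_mul, Matrix.mul_assoc (1 - u * v), e4, ← e5]
  simp only [Matrix.sub_mul, Matrix.mul_assoc, Matrix.add_mul, Matrix.mul_add, Matrix.one_mul]
  abel

theorem tpt_v {C : Matrix κ κ Ω} {u : Matrix κ' κ Ω} {v : Matrix κ κ' Ω}
    (hv : S.mi v = v) (hp : S.Pa C (v * u)) (h1 : v * u * v = v) :
    S.Itw (S.tpt C u v) C v := by
  refine ⟨hv, ?_⟩
  have e0 : v * (1 - u * v) = 0 := by
    rw [Matrix.mul_sub, Matrix.mul_one, ← Matrix.mul_assoc, h1, sub_self]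
  have e2 : S.md (v * u) * v + v * u * S.md v = S.md v := by
    have := S.md_mul (v * u) v
    rw [h1, (S.pa_iff.1 hp).1] at this
    exact this.symm
  have e5 : (S.md (v * u) + C * (v * u) - v * u * C) * v = 0 := by
    rw [(S.pa_iff.1 hp).2, Matrix.zero_mul]
  rw [Matrix.sub_mul, Matrix.add_mul, Matrix.mul_assoc C, h1] at e5
  rw [tpt, Matrix.mul_sub, ← Matrix.mul_assoc v (1 - u * v), e0, Matrix.zero_mul, sub_zero, ← e5]
  nth_rewrite 1 [← e2]
  simp only [Matrix.mul_assoc, Matrix.mul_add]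
  abel

/-! ### naturality -/

section nat

variable {Ω' : Type*} [Ring Ω'] [Algebra ℝ Ω'] {S' : SC Ω'} (φ : Ω →+* Ω')

theorem cu_map (hd : ∀ x, φ (S.d x) = S'.d (φ x)) (C : Matrix κ κ Ω) :
    S'.cu (C.map φ) = (S.cu C).map φ := by
  rw [cu_eq, cu_eq, Matrix.map_add _ (map_add φ), Matrix.map_mul]
  congr 1
  ext i j; simp [hd]

theorem map_trace' (X : Matrix κ κ Ω) : trace (X.map φ) = φ (trace X) := by
  simp [trace, map_sum]

theorem c1_map (hd : ∀ x, φ (S.d x) = S'.d (φ x)) (C T : Matrix κ κ Ω) :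
    S'.c1 (C.map φ) (T.map φ) = φ (S.c1 C T) := by
  rw [c1, c1, cu_map φ hd, ← Matrix.map_mul, map_trace']

theorem c2_map (hd : ∀ x, φ (S.d x) = S'.d (φ x)) (C T : Matrix κ κ Ω) :
    S'.c2 (C.map φ) (T.map φ) = φ (S.c2 C T) := by
  rw [c2, c2, cu_map φ hd, ← Matrix.map_mul, ← Matrix.map_mul, map_trace']

theorem Co.map (hi : ∀ x, φ (S.inv x) = S'.inv (φ x)) {C : Matrix κ κ Ω} (h : S.Co C) :
    S'.Co (C.map φ) := by
  refine S'.co_iff.2 fun i j => ?_
  have := S.co_iff.1 h i j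
  unfold SD.Od at *
  rw [Matrix.map_apply, ← hi, this, map_neg]

theorem Itw.map (hi : ∀ x, φ (S.inv x) = S'.inv (φ x)) (hd : ∀ x, φ (S.d x) = S'.d (φ x))
    {C : Matrix κ κ Ω} {C' : Matrix κ' κ' Ω} {u : Matrix κ' κ Ω} (h : S.Itw C C' u) :
    S'.Itw (C.map φ) (C'.map φ) (u.map φ) := by
  constructor
  · ext i j
    have := congrFun (congrFun h.ev i) j
    simp only [mi_apply, Matrix.map_apply] at this ⊢
    rw [← hi, this]
  · have h1 : S'.md (u.map φ) = (S.md u).map φ := by ext i j; simp [hd]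
    rw [h1, ← Matrix.map_mul, ← Matrix.map_mul, ← Matrix.map_add _ (map_add φ),
      ← Matrix.map_sub _ (map_sub φ), h.eq]
    ext i j; simp

theorem Pa.map (hi : ∀ x, φ (S.inv x) = S'.inv (φ x)) (hd : ∀ x, φ (S.d x) = S'.d (φ x))
    {C T : Matrix κ κ Ω} (h : S.Pa C T) : S'.Pa (C.map φ) (T.map φ) :=
  itw_iff.1 ((itw_iff.2 h).map φ hi hd)

end nat

end SC

end Crest.Agent.X212.Num57
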