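import Crest.Agent.X212.Num57.Nb
import Crest.Agent.X212.Dr59.Tor
import Crest.Agent.X212.Line51.Atl
import Crest.Agent.X212.Sym24.Alg

/-!
# X212 / Num57 (helper57): twisting a line along a neck

* `ex_twist` : two isometries that differ by the phase `g` on the overlap;
* `Nk φ τ A` : a neck with its time;  `nkf` : the form `d st(τ) ∧ β`;  `Nk.cs`, `Nk.ip`, `nkf_sq`;
* `isq_add` : the square of `F + r Φ`.
-/

set_option autoImplicit false
set_option linter.unusedSectionVars false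

open Set Filter Topology Function Module Matrix MeasureTheory
open scoped ContDiff Manifold Kronecker
open Crest.Agent.R208.F (Ext io)
open Crest.Agent.R208.FI

noncomputable section

namespace Crest.Agent.X212.Cap57
open Dr59 Int54 Pj41
open Num57 (isq isq_coh)
open Line51 hiding tp

/-- zero below `a`, one above `b` -/
def st (a b t : ℝ) : ℝ := sw (b - a) (t - (2 * a - b))

section st

variable {a b t : ℝ}

theorem contDiff_st (a b : ℝ) : ContDiff ℝ ∞ (st a b) := (contDiff_sw _).comp (contDiff_id.sub contDiff_const)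

theorem st_zero (h : a < b) (ht : t < a) : st a b =ᶠ[𝓝 t] 0 :=
  eventually_of_mem (Iio_mem_nhds ht) fun s (k : s < a) => sw_zero (sub_pos.2 h) (by linarith)

theorem st_one (h : a < b) (ht : b < t) : st a b =ᶠ[𝓝 t] 1 :=
  eventually_of_mem (Ioi_mem_nhds ht) fun s (k : b < s) => sw_one (sub_pos.2 h) (by linarith)

theorem st_lc (h : a < b) (ht : t ∉ Icc a b) : ∃ r : ℝ, st a b =ᶠ[𝓝 t] fun _ => r :=
  (not_and_or.1 ht).elim (fun k => ⟨0, st_zero h (not_le.1 k)⟩) fun k => ⟨1, st_one h (not_le.1 k)⟩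

theorem integral_st (h : a < b) : ∫ t, deriv (st a b) t = 1 := by
  rw [← integral_deriv_sw (sub_pos.2 h), ← integral_sub_right_eq_self (deriv (sw (b - a))) (2 * a - b)]
  exact congrArg _ (funext fun t => deriv_comp_sub_const _ _ _)

end st

variable {E : Type*} [NormedAddCommGroup E] [NormedSpace ℝ E] [FiniteDimensional ℝ E]
  {H : Type*} [TopologicalSpace H] {I : ModelWithCorners ℝ E H} [I.Boundaryless]
  {M : Type*} [TopologicalSpace M] [ChartedSpace H M] [IsManifold I ∞ M]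
  {E' : Type*} [NormedAddCommGroup E'] [NormedSpace ℝ E'] [FiniteDimensional ℝ E']
  {H' : Type*} [TopologicalSpace H'] {J : ModelWithCorners ℝ E' H'} [J.Boundaryless]
  {Y : Type*} [TopologicalSpace Y] [ChartedSpace H' Y] [IsManifold J ∞ Y]
  {κ l : Type*} [Fintype κ] [Fintype l] {U V K : Set M} {χ : M → ℝ} {k : ℕ} {x : M}

theorem th_phase {g : M → Circle} {u : M → Matrix l κ ℂ} (hg : CSm I g x) (hu : MSm I u x)
    (h : ((u x)ᴴ * u x).trace = 1) : th I (fun y => (g y : ℂ) • u y) x = ang I g x + th I u x := by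
  rw [ang, ← th_kron (msm_sc hg) hu (by rw [(piso_sc g x).src]; simp) h,
    ← th_submatrix (Equiv.uniqueProd l Unit).symm (Equiv.uniqueProd κ Unit).symm]
  rfl

/-- the connecting form of two primitives -/
theorem mv_prim (hU : IsOpen U) (hV : IsOpen V) (h : Cut I U V χ) {a e p q : M → Ext E} (hp : Sm I U p)
    (hq : Sm I V q) (dp : ∀ x ∈ U, dM I p x = a x) (dq : ∀ x ∈ V, dM I q x = a x) (he : Cl I k (U ∩ V) e)
    (hx : ∀ x ∈ U ∩ V, p x = q x + e x) : Ex I (U ∪ V) (a + df I χ * e) := by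
  have e1 := (h.czU.sm_smul he.sm).neg
  have e2 := h.czV.sm_smul he.sm
  refine ex_glue hU hV (hp.add e1) (hq.add e2) (fun x k => ?_) (fun x k => ?_) fun x k => ?_
  · simp only [Pi.add_apply, Pi.sub_apply, Pi.neg_apply, Pi.smul_apply', sub_smul, one_smul, hx x k]
    abel
  · rw [dM_add ne0 (hp x k) (e1 x k), dp x k, h.d_left he k]
    rfl
  · rw [dM_add ne0 (hq x k) (e2 x k), dq x k, h.d_right he k]
    rfl

/-- **the twist** -/
theorem ex_twist (hU : IsOpen U) (hV : IsOpen V) (h : Cut I U V χ) {p : M → Matrix κ κ ℂ} {q : M → Matrix l l ℂ}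
    (hp : (⟨p, 0⟩ : Ln E M κ).On I (U ∪ V)) (hq : (⟨q, 0⟩ : Ln E M l).On I (U ∪ V)) {u v : M → Matrix l κ ℂ}
    (hv : Uni I p q v U) (hu : Uni I p q u V) {g : M → Circle} (hg : ∀ x ∈ U ∩ V, CSm I g x)
    (e : ∀ x ∈ U ∩ V, v x = (g x : ℂ) • u x) :
    Ex I (U ∪ V) (Ln.F I ⟨q, 0⟩ - Ln.F I ⟨p, 0⟩ + df I χ * ang I g) := by
  have d : ∀ {W : Set M} {w}, IsOpen W → W ⊆ U ∪ V → Uni I p q w W → ∀ x ∈ W,
      dM I (th I w) x = (Ln.F I ⟨q, 0⟩ - Ln.F I ⟨p, 0⟩) x := fun o s hw x hx => by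
    rw [Pi.sub_apply, Uni.F_sub (L := ⟨p, 0⟩) (L' := ⟨q, 0⟩) o hw (hp.mono s) (hq.mono s) hx]
    simp
  refine mv_prim hU hV h hv.sm_th hu.sm_th (d hU subset_union_left hv) (d hV subset_union_right hu) (cl_ang hg)
    fun x hx => ?_
  rw [th_congr (eventually_of_mem ((hU.inter hV).mem_nhds hx) e), th_phase (hg x hx) (hu.sm x hx.2)
    (by rw [(hu.iso x hx.2).src]; exact hp.tr x (.inr hx.2)), add_comm]

variable {φ : PartialDiffeomorph (J.prod 𝓘(ℝ, ℝ)) I (Y × ℝ) M ∞} {τ : M → ℝ} {A : Set ℝ} {a b : ℝ}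
  {β : Y → Ext E'}

variable (φ τ A) in
/-- a neck with its time -/
structure Nk : Prop where
  src : φ.source = Prod.snd ⁻¹' A
  tgt : φ.target = τ ⁻¹' A
  tm : ∀ q, q.2 ∈ A → τ (φ q) = q.2
  cont : Continuous τ
  prop : ∀ a b, IsCompact (τ ⁻¹' Icc a b)

variable (φ) in
/-- the projection of a neck -/
def nkp (x : M) : Y := (φ.symm x).1

variable (φ τ) in
/-- the dual form of a neck -/
def nkf (a b : ℝ) (β : Y → Ext E') : M → Ext E := df I (fun x => st a b (τ x)) * pm I J (nkp φ) β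

theorem nkf_sq (hβ : Dg 1 univ β) (a' b' : ℝ) : nkf φ τ a b β * nkf φ τ a' b' β = 0 := funext fun x => by
  obtain ⟨m, hm⟩ : ∃ m, β (nkp φ x) = io m := Sym24.exists_io (hβ _ trivial)
  simp only [nkf, Pi.mul_apply, pm_apply, hm, R208.F.pb_io, df, mul_assoc, Orx52.io_three, mul_zero, Pi.zero_apply]

namespace Nk

variable (h : Nk φ τ A)
include h

theorem op : IsOpen (τ ⁻¹' A) := h.tgt ▸ φ.open_target

theorem sm_symm (hx : τ x ∈ A) : ContMDiffAt I (J.prod 𝓘(ℝ, ℝ)) ∞ φ.symm x :=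
  φ.contMDiffOn_invFun.contMDiffAt (φ.open_target.mem_nhds (h.tgt ▸ hx))

theorem mem (hx : τ x ∈ A) : (φ.symm x).2 ∈ A := show _ ∈ Prod.snd ⁻¹' A from h.src ▸ φ.map_target (h.tgt ▸ hx)

theorem tm' (hx : τ x ∈ A) : (φ.symm x).2 = τ x :=
  (h.tm _ (h.mem hx)).symm.trans (congrArg τ (φ.right_inv (h.tgt ▸ hx)))

theorem ev (hx : τ x ∈ A) : τ =ᶠ[𝓝 x] fun y => (φ.symm y).2 :=
  eventually_of_mem (h.op.mem_nhds hx) fun _ k => (h.tm' k).symm

theorem mp : Mp I J (τ ⁻¹' A) univ (nkp φ) := ⟨fun _ hx => (h.sm_symm hx).fst, mapsTo_univ _ _⟩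

theorem sm_τ (hx : τ x ∈ A) : ContMDiffAt I 𝓘(ℝ, ℝ) ∞ τ x := (h.sm_symm hx).snd.congr_of_eventuallyEq (h.ev hx)

theorem lc (hab : a < b) (hx : τ x ∉ Icc a b) : ∃ r : ℝ, (fun x => st a b (τ x)) =ᶠ[𝓝 x] fun _ => r :=
  let ⟨r, k⟩ := st_lc hab hx; ⟨r, h.cont.continuousAt.eventually k⟩

theorem cf (hab : a < b) (hA : Icc a b ⊆ A) : Cf I univ (τ ⁻¹' Icc a b) fun x => st a b (τ x) :=
  ⟨fun x _ => by
    by_cases hx : τ x ∈ Icc a b
    · exact (contDiff_st a b).contMDiff.contMDiffAt.comp x (h.sm_τ (hA hx))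
    · obtain ⟨r, k⟩ := h.lc hab hx
      exact contMDiffAt_const.congr_of_eventuallyEq k, fun _ _ => h.lc hab⟩

theorem cut (hab : a < b) (hA : Icc a b ⊆ A) (hU : ∀ x ∈ V, x ∉ U → τ x < a) (hV : ∀ x ∈ U, x ∉ V → b < τ x) :
    Cut I U V fun x => st a b (τ x) :=
  ⟨fun x _ => (h.cf hab hA).sm x trivial, fun x k k' => h.cont.continuousAt.eventually (st_zero hab (hU x k k')),
    fun x k k' => h.cont.continuousAt.eventually (st_one hab (hV x k k'))⟩

theorem zero (hab : a < b) (hA : Icc a b ⊆ A) (hx : τ x ∉ Icc a b) : nkf φ τ a b β x = 0 :=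
  ((h.cf hab hA).df_mul_zero trivial hx _).self_of_nhds

theorem cs [T2Space M] (hab : a < b) (hA : Icc a b ⊆ A) (hβ : Cl J k univ β) :
    Cs I (k + 1) (τ ⁻¹' Icc a b) (nkf φ τ a b β) :=
  ⟨(h.cf hab hA).cl_mul ((hβ.pm h.mp).mono (preimage_mono hA)), .intro (h.prop a b) fun _ => h.zero hab hA,
    closure_minimal (fun _ k => by_contra fun e => k (h.zero hab hA e)) (h.prop a b).isClosed⟩

theorem ang_eq {θ : Y → Circle} (hθ : ∀ y, CSm J θ y) (m : ℤ) (hab : a < b) (hA : Icc a b ⊆ A) :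
    df I (fun x => st a b (τ x)) * ang I (fun x => θ (nkp φ x) ^ m) = (m : ℝ) • nkf φ τ a b (ang J θ) :=
  funext fun x => by
    by_cases hx : τ x ∈ Icc a b
    · have s := h.mp.sm x (hA hx)
      rw [Pi.mul_apply, Pi.smul_apply, nkf, Pi.mul_apply, pm_ang (hθ _) (s.mdifferentiableAt ne0), ← mul_smul_comm,
        ← ang_zpow ((hθ _).comp x s)]
      rfl
    · rw [((h.cf hab hA).df_mul_zero trivial hx _).self_of_nhds, Pi.smul_apply, h.zero hab hA hx, smul_zero]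
      rfl

end Nk

variable [MeasurableSpace E] [BorelSpace E] [T2Space M] [SecondCountableTopology M] [MeasurableSpace M] [BorelSpace M]
  [MeasurableSpace E'] [BorelSpace E'] [T2Space Y] [SecondCountableTopology Y] [MeasurableSpace Y] [BorelSpace Y]

/-- **pairing with the dual form of a neck** -/
theorem Nk.ip [CompactSpace Y] (h : Nk φ τ A) (hab : a < b) (hA : Icc a b ⊆ A) (hβ : Cl J 1 univ β)
    {o c : M → Ext E} {v cY : Y → Ext E'} (ho : Ori I o) (hv : Ori J v)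
    (hp : Orx52.Pos (J.prod 𝓘(ℝ, ℝ)) I φ (Prod.snd ⁻¹' A) (cy v) o) (hc : Sm I (τ ⁻¹' A) c) (hY : Cl J 2 univ cY)
    (hx : Ex (J.prod 𝓘(ℝ, ℝ)) (Prod.snd ⁻¹' A) 
      (pm (J.prod 𝓘(ℝ, ℝ)) I φ c - pm (J.prod 𝓘(ℝ, ℝ)) J Prod.fst cY)) :
    ip I o c (nkf φ τ a b β) = -integ J v (cY * β) := by
  have n : Nk (I := J.prod 𝓘(ℝ, ℝ)) (J := J) (Diffeomorph.refl _ (Y × ℝ) ∞).toPartialDiffeomorph Prod.snd univ :=
    ⟨rfl, rfl, fun _ _ => rfl, continuous_snd, fun a b => by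
      rw [show (Prod.snd ⁻¹' Icc a b : Set (Y × ℝ)) = univ ×ˢ Icc a b from by ext; simp]
      exact isCompact_univ.prod isCompact_Icc⟩
  have c0 := (n.cs hab (subset_univ _) hβ).mono (preimage_mono hA)
  have mf : Mp (J.prod 𝓘(ℝ, ℝ)) J (Prod.snd ⁻¹' A) univ (Prod.fst : Y × ℝ → Y) :=
    ⟨fun _ _ => contMDiffAt_fst, mapsTo_univ _ _⟩
  have mφ : Mp (J.prod 𝓘(ℝ, ℝ)) I (Prod.snd ⁻¹' A) (τ ⁻¹' A) φ :=
    (pd_mp φ h.src.ge).mono subset_rfl (by rintro _ ⟨q, k, rfl⟩; exact show τ _ ∈ A from (h.tm q k).symm ▸ k)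
  have e : nkf φ τ a b β =
      psh φ (nkf (Diffeomorph.refl (J.prod 𝓘(ℝ, ℝ)) (Y × ℝ) ∞).toPartialDiffeomorph Prod.snd a b β) := funext fun x => by
      by_cases hx : τ x ∈ A
      · have d := (h.sm_symm hx).mdifferentiableAt ne0
        rw [psh, indicator_of_mem (h.tgt ▸ hx), nkf, nkf, pm_mul, Pi.mul_apply, Pi.mul_apply,
          pm_df d (((n.cf hab (subset_univ _)).sm _ trivial).mdifferentiableAt ne0),
          pm_comp ((n.mp.sm _ trivial).mdifferentiableAt ne0) d]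
        exact congrArg (· * _) (Orx52.df_congr ((h.ev hx).mono fun _ k => congrArg (st a b) k))
      · rw [psh, indicator_of_notMem (h.tgt ▸ hx), h.zero hab hA fun k => hx (hA k)]
  rw [e, c0.ip_psh φ h.src.ge ho hv.cy (Orx52.same_symm hp), c0.ip_coh hv.cy (hc.pm mφ) (hY.pm mf).sm hx,
    ← mul_one (integ J v _), ← integral_st hab, ← integ_neck hv.cd _ ((contDiff_st a b).differentiable (by simp)),
    ← integ_neg]
  refine integ_congr fun z => congrArg _ ?_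
  obtain ⟨m, hm⟩ : ∃ m, β z.1 = io m := Sym24.exists_io (hβ.dg _ trivial)
  rw [Pi.neg_apply, pm_mul, Pi.mul_apply, Pi.mul_apply, Pi.mul_apply, mul_assoc, ← mul_neg, nkf, Pi.mul_apply]
  refine congrArg _ ?_
  change _ * pm (J.prod 𝓘(ℝ, ℝ)) J Prod.fst β z = _
  rw [pm_apply, hm, R208.F.pb_io, df, R208.F.io_anti]

variable {ι : Type*} [Fintype ι] [DecidableEq ι] {o F F' Φ : M → Ext E} {e : ι → M → Ext E} {G : Matrix ι ι ℝ}

theorem isq_cs (h : Lat I o U K e G) (hF : Cl I 2 U F) (hΦ : Cs I 2 U Φ) : isq I o e G F Φ = ip I o F Φ :=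
  (h.ip_eq hF hΦ).symm

theorem isq_comm (h : Lat I o U K e G) (a b : M → Ext E) : isq I o e G a b = isq I o e G b a := by
  rw [isq, isq, dotProduct_mulVec, ← mulVec_transpose, transpose_nonsing_inv, h.symm, dotProduct_comm]

/-- the square of a class with a compactly supported representative -/
theorem isq_rep (h : Lat I o U K e G) (hF : Sm I U F) (hΦ : Cs I 2 U Φ) (hx : Ex I U (F - Φ)) :
    isq I o e G F F = ip I o Φ Φ := by
  rw [isq_coh h hF (hΦ.on U).sm hF (hΦ.on U).sm hx hx, isq_cs h (hΦ.on U) hΦ]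

/-- the square of `F + r Φ` -/
theorem isq_add (h : Lat I o U K e G) (hF : Cl I 2 U F) (hF' : Sm I U F') (hΦ : Cs I 2 U Φ) {r : ℝ}
    (hx : Ex I U (F' - F - r • Φ)) :
    isq I o e G F' F' = isq I o e G F F + 2 * r * ip I o F Φ + r ^ 2 * ip I o Φ Φ := by
  have s := (hΦ.on U).sm
  rw [sub_sub] at hx
  rw [isq_coh h hF' (hF.sm.add (s.smul r)) hF' (hF.sm.add (s.smul r)) hx hx, ← isq_cs h hF hΦ,
    ← isq_cs h (hΦ.on U) hΦ]
  have k := isq_comm h Φ F
  simp only [isq, fun i => (h.csU i).ip_add h.ori hF.sm (s.smul r), ip_smul] at k ⊢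
  change (_ + r • _) ⬝ᵥ G⁻¹ *ᵥ (_ + r • _) = _
  simp only [mulVec_add, mulVec_smul, add_dotProduct, dotProduct_add, smul_dotProduct, dotProduct_smul, smul_eq_mul]
  linear_combination r * k

end Crest.Agent.X212.Cap57
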