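import Crest.Agent.X212.Num57.Idm
import Crest.Agent.X212.Num36.Cka
import Crest.Agent.X212.Lxd19.Br
import Crest.Agent.X212.Lk34.Fz
import Crest.Agent.X212.Flp68.Main
import Crest.Agent.X212.Flp40.End
import Crest.Agent.X212.Cqn41.Cj
import Crest.Agent.X212.Pyl42.Main
import Crest.Agent.X212.Dck68.Main

/-!
# Row 212 (helper57): the numbers of the fillers
-/

set_option autoImplicit false
noncomputable section

namespace Crest.Agent.X212.Sec57
open An Nd18 M Rf65 G75 Lix26 Num99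

variable {κ lam : Type} [Fintype κ] [Fintype lam] [DecidableEq lam] {Lm : LM κ lam}

theorem flipS : Flp68.FlipStmt κ lam :=
  fun _ _ _ _ _ _ _ _ _ _ _ _ _ _ _ d s hP ho hF hd hB hG fl A e i l hβ L a =>
    let ⟨n, _, _, N, _, f, k⟩ := Flp40.flip (Cqn41.cjx _ _ _ _) (Cqn41.cju _ _ _ _) (Dgr80.lima _ _ _)
      Sep15.Cls.cls
      s hP ho hF d hd hB hG fl A e i l hβ L a
    ⟨n, N.adm, f, k⟩

/-- **LEAF NUM** -/
theorem numLS (H : Lns95.LH Lm) (L : IxL κ (lam ⊕ lam) 8) : NumLS Lm :=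
  have geo := geo2 H Dck68.deck
  have ex : AllL Lm fun J c δ l => ∀ z : J.Obc c, Go δ z {hp l false} →
      Ix δ z {hp l false} ∅ (ia δ z (hp l false)) :=
    fun _ D i _ _ _ _ _ _ _ _ _ _ l hS hJ hm hl hN py _ =>
      let ⟨u, u0, T⟩ := Add46.loc L D.nrm (D.lnrm i) hJ hm ⟨hl, hS.lsp l l.2⟩ (piece hS l hl) hN.1 ⟨0, py⟩
      ⟨u, u0, fun δ k z g => ((T δ k).ex z g).1⟩
  have fa := Num36.faS H ex
  have fd := fqdS geo L
  Num99.numLS (Pyl42.pyl H Dck68.deck) fa fd.1 (Lxd19.qa (fun _ _ _ _ => Lk34.ker _ _ _) geo ex) fd.2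
    (Flp68.one H L flipS geo fa fd.1)

end Crest.Agent.X212.Sec57
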