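import Crest.Agent.X212.Num57.RadE
import Crest.Agent.X212.Cht98.Br
import Crest.Agent.X212.Loc74.SwD

/-!
# X212 / Num57, part Rad (helper57): LOC-RAD

* `ex_th`, `ex_form`, `dd_form` : a one-form in a chart;  `tr` : integrals in a chart;  `rad : RadStmt`.
-/

set_option autoImplicit false
set_option linter.unusedSectionVars false

open Set MeasureTheory Filter Function Metric
open scoped ContDiff ENNReal NNReal Manifold Topology InnerProductSpace

noncomputable section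

namespace Crest.Agent.X212.Rad57
open Cht98 Sob92
open An hiding Eu
open Lw78 (da)

section euc
variable {G : Type} [NormedAddCommGroup G] [InnerProductSpace ℝ G] [FiniteDimensional ℝ G]
  {ι : Type} [Fintype ι]

/-- a smooth dual family -/
theorem ex_th {w : ι → G → G} {U : Set G} (hw : ∀ k, ContDiffOn ℝ ∞ (w k) U)
    (hs : ∀ y ∈ U, Submodule.span ℝ (range fun k => w k y) = ⊤) : ∃ θ : ι → G → G →L[ℝ] ℝ,
    (∀ k, ContDiffOn ℝ ∞ (θ k) U) ∧ ∀ y ∈ U, ∀ v, ∑ k, θ k y v • w k y = v := by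
  have := FiniteDimensional.complete ℝ G
  let T : G → G →L[ℝ] G := fun y => ∑ k, (innerSL ℝ (w k y)).smulRight (w k y)
  have e : ∀ y v, T y v = ∑ k, ⟪w k y, v⟫_ℝ • w k y := fun y v => by simp [T]
  have i : ∀ y ∈ U, (T y).IsInvertible := fun y hy => by
    have h : Injective (T y).toLinearMap := (injective_iff_map_eq_zero _).2 fun v hv => by
      have h1 : ∑ k, ⟪w k y, v⟫_ℝ ^ 2 = 0 := by
        have := congrArg (⟪·, v⟫_ℝ) ((e y v).symm.trans hv)
        simpa [sum_inner, inner_smul_left, sq] using this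
      have h2 : (innerSL ℝ v).toLinearMap = 0 := LinearMap.ext_on_range (hs y hy) fun k => by
        have := (Finset.sum_eq_zero_iff_of_nonneg fun _ _ => sq_nonneg _).1 h1 k (Finset.mem_univ k)
        simpa [real_inner_comm] using this
      simpa using LinearMap.congr_fun h2 v
    exact ⟨(LinearEquiv.ofInjectiveEndo _ h).toContinuousLinearEquiv, by ext; rfl⟩
  have c : ∀ k, ContDiffOn ℝ ∞ (fun y => innerSL ℝ (w k y)) U := fun k =>
    (innerSL ℝ (E := G)).contDiff.comp_contDiffOn (hw k)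
  have t : ContDiffOn ℝ ∞ T U := ContDiffOn.sum fun k _ => (c k).smulRight (hw k)
  refine ⟨fun k y => innerSL ℝ (w k y) ∘L (T y).inverse, fun k => (c k).clm_comp fun y hy =>
    (i y hy).contDiffAt_map_inverse.comp_contDiffWithinAt y (t y hy), fun y hy v => ?_⟩
  exact (e y _).symm.trans ((i y hy).self_apply_inverse v)

theorem sm_cut {N : Type} [NormedAddCommGroup N] [NormedSpace ℝ N] {χ : G → ℝ} {β : G → N} {U : Set G}
    (hU : IsOpen U) (hχ : ContDiff ℝ ∞ χ) (hs : tsupport χ ⊆ U) (hβ : ContDiffOn ℝ ∞ β U) :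
    ContDiff ℝ ∞ fun y => χ y • β y := contDiff_iff_contDiffAt.2 fun y => by
  by_cases h : y ∈ U
  · exact hχ.contDiffAt.smul (hβ.contDiffAt (hU.mem_nhds h))
  · exact (contDiffAt_const (c := (0 : N))).congr_of_eventuallyEq
      ((notMem_tsupport_iff_eventuallyEq.1 fun k => h (hs k)).mono fun x hx => by simp [hx])

end euc

variable {E : Type} [NormedAddCommGroup E] [NormedSpace ℝ E] [FiniteDimensional ℝ E]
  [MeasurableSpace E] [BorelSpace E]
  {HM : Type} [TopologicalSpace HM] {I : ModelWithCorners ℝ E HM} [I.Boundaryless]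
  {M : Type} [TopologicalSpace M] [ChartedSpace HM M] [IsManifold I ∞ M] [T2Space M]
  [MeasurableSpace M] [BorelSpace M] {ι : Type} [Fintype ι] {F : Fr I M ι} (c : Ch I F.μ (Eu E))

theorem ex_form : ∃ θ : ι → Eu E → Eu E →L[ℝ] ℝ, (∀ k, ContDiffOn ℝ ∞ (θ k) c.φ.target) ∧
    ∀ a : ι → M → ℝ, (∀ k x, ∑ j, F.P k j x * a j x = a k x) → ∀ y ∈ c.φ.target, ∀ l,
      (∑ k, a k (c.φ.symm y) • θ k y) (c.vf (F.e l) y) = a l (c.φ.symm y) := by
  classical
  obtain ⟨θ, h1, h2⟩ := ex_th (fun k => c.vf_on (F.sm k)) fun y hy => c.vf_span F.span hy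
  refine ⟨θ, h1, fun a ha y hy l => ?_⟩
  let L : E →ₗ[ℝ] Eu E := (mfderiv I 𝓘(ℝ, Eu E) c.φ (c.φ.symm y)).toLinearMap
  have i : Injective L := (LinearMap.injective_iff_surjective_of_finrank_eq_finrank
    finrank_Eu.symm).2 (c.mfderiv_surj hy)
  let ξ : ι → ℝ := fun k => θ k y (c.vf (F.e l) y) - (Pi.single l 1 : ι → ℝ) k
  have k := F.P_ker (c.φ.symm y) ξ (i (by
    have e : ∀ k, L (F.e k (c.φ.symm y)) = c.vf (F.e k) y := fun _ => rfl
    erw [map_sum, map_zero]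
    refine (Finset.sum_congr rfl fun k _ => (L.map_smul _ _).trans (congrArg _ (e k))).trans ?_
    simp [ξ, sub_smul, h2 y hy, Pi.single_apply]))
  have z : ∑ k, a k (c.φ.symm y) * ξ k = 0 := by
    rw [Finset.sum_congr rfl fun k _ => by rw [← ha k (c.φ.symm y), Finset.sum_mul], Finset.sum_comm]
    refine Finset.sum_eq_zero fun j _ => ?_
    rw [← mul_zero (a j (c.φ.symm y)), ← k j, Finset.mul_sum]
    exact Finset.sum_congr rfl fun m _ => by rw [F.P_symm]; ring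
  simpa [ξ, mul_sub, Pi.single_apply, sub_eq_zero] using z

theorem dd_form {a : ι → M → ℝ} (ha : ∀ k, Sm I (a k)) {β : Eu E → Eu E →L[ℝ] ℝ} {y : Eu E}
    (hy : y ∈ c.φ.target) (hβ : DifferentiableAt ℝ β y)
    (h : ∀ᶠ p in 𝓝 y, ∀ l, β p (c.vf (F.e l) p) = a l (c.φ.symm p)) (k l : ι) :
    dd β y (c.vf (F.e k) y) (c.vf (F.e l) y) = da F a (c.φ.symm y) (k, l) := by
  have hx := c.φ.map_target hy
  have e := c.φ.right_inv hy
  have v : ∀ l, DifferentiableAt ℝ (c.vf (F.e l)) y := fun l =>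
    ((c.vf_on (F.sm l)).contDiffAt (c.φ.open_target.mem_nhds hy)).differentiableAt (by simp)
  have d1 : ∀ k l, F.D k (a l) (c.φ.symm y) = fderiv ℝ β y (c.vf (F.e k) y) (c.vf (F.e l) y) +
      β y (fderiv ℝ (c.vf (F.e l)) y (c.vf (F.e k) y)) := fun k l => by
    have : c.pf (a l) =ᶠ[𝓝 y] fun p => β p (c.vf (F.e l) p) :=
      (c.pf_ev _ hy).trans (h.mono fun p hp => (hp l).symm)
    rw [Pre.D_def, c.dv_chart _ hy (ha l _), this.fderiv_eq, fderiv_clm_apply hβ (v l)]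
    simp [add_comm]
  have d0 : ∀ l, ∀ x ∈ c.φ.source, F.D l (fun x => β y (c.φ x)) x = β y (c.vf (F.e l) (c.φ x)) :=
    fun l x hx => by rw [Pre.D_def, c.dv_comp_chart _ hx (β y).differentiableAt, (β y).fderiv]
  have d2 : ∀ k l, F.D k (F.D l fun x => β y (c.φ x)) (c.φ.symm y) =
      β y (fderiv ℝ (c.vf (F.e l)) y (c.vf (F.e k) y)) := fun k l => by
    have u := ((β y).hasFDerivAt.comp y (v l).hasFDerivAt)
    rw [Pre.D_def, dv_congr (eventuallyEq_of_mem (c.φ.open_source.mem_nhds hx) (d0 l)),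
      c.dv_comp_chart (w := fun p => β y (c.vf (F.e l) p)) _ hx (e.symm ▸ u.differentiableAt), e]
    exact DFunLike.congr_fun u.fderiv _
  have b := F.br k l (fun x => β y (c.φ x)) _
    (((β y).contDiff.contMDiff _).comp _ ((c.smAt hx).of_le (by norm_cast)))
  simp only [d2, d0 _ _ hx, e, h.self_of_nhds] at b
  simp only [dd, da, d1, sub_apply, ContinuousLinearMap.flip_apply]
  linarith

/-- integrals over the preimage of a ball -/
theorem tr {L B : Set (Eu E)} (hL : IsCompact L) (hs : L ⊆ c.φ.target) (hB : IsOpen B) (hBL : B ⊆ L) :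
    ∃ A : ℝ≥0, ∀ g : M → ℝ≥0∞, Measurable g →
      ∫⁻ x in c.φ.source ∩ c.φ ⁻¹' B, g x ∂F.μ ≤ A * ∫⁻ y in B, g (c.φ.symm y) ∧
      ∫⁻ y in B, g (c.φ.symm y) ≤ A * ∫⁻ x in c.φ.source ∩ c.φ ⁻¹' B, g x ∂F.μ := by
  have hc := c.ρs.continuousOn.mono hs
  obtain ⟨m, hm, hm'⟩ := hL.exists_forall_le' hc fun y hy => c.ρp y (hs hy)
  obtain ⟨A, hA⟩ := hL.exists_bound_of_continuousOn hc
  have hV := (c.φ.isOpen_inter_preimage hB).measurableSet
  refine ⟨(max A m⁻¹).toNNReal, fun g hg => ?_⟩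
  have e : ∫⁻ x in c.φ.source ∩ c.φ ⁻¹' B, g x ∂F.μ =
      ∫⁻ y in B, ENNReal.ofReal (c.ρ y) * g (c.φ.symm y) := by
    have e1 := c.lint _ (hg.indicator hV)
    rw [lintegral_indicator hV, Measure.restrict_restrict hV, inter_eq_left.2 inter_subset_left] at e1
    have e2 := lintegral_indicator (μ := volume.restrict c.φ.target) hB.measurableSet
      fun y => ENNReal.ofReal (c.ρ y) * g (c.φ.symm y)
    rw [Measure.restrict_restrict hB.measurableSet, inter_eq_left.2 (hBL.trans hs)] at e2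
    rw [e1, ← e2]
    refine setLIntegral_congr_fun c.φ.open_target.measurableSet fun y hy => ?_
    by_cases h : y ∈ B <;> simp [indicator, h, c.φ.map_target hy, c.φ.right_inv hy]
  rw [e, ← lintegral_const_mul' _ _ ENNReal.coe_ne_top, ← lintegral_const_mul' _ _ ENNReal.coe_ne_top]
  refine ⟨setLIntegral_mono' hB.measurableSet fun y hy => mul_le_mul_left (ENNReal.ofReal_le_ofReal
    (((le_abs_self _).trans (hA y (hBL hy))).trans (le_max_left _ _))) _,
    setLIntegral_mono' hB.measurableSet fun y hy => ?_⟩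
  rw [← mul_assoc]
  refine le_mul_of_one_le_left' ?_
  rw [← ENNReal.ofReal, ← ENNReal.ofReal_mul (le_max_of_le_right (inv_pos.2 hm).le), ENNReal.one_le_ofReal]
  calc (1 : ℝ) = m⁻¹ * m := (inv_mul_cancel₀ hm.ne').symm
    _ ≤ _ := mul_le_mul (le_max_right _ _) (hm' y (hBL hy)) hm.le (le_max_of_le_right (inv_pos.2 hm).le)

theorem sq_le {u v K : ℝ≥0} (h : (u : ℝ) ≤ K * v) : (u : ℝ≥0∞) ^ 2 ≤ (K ^ 2 : ℝ≥0) * v ^ 2 := by
  norm_cast at h ⊢
  rw [← mul_pow]
  exact pow_le_pow_left' h 2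

theorem enorm_sum_le {A : Type} [NormedAddCommGroup A] {u : A} {v : ι → ℝ} {K : ℝ≥0}
    (h : ‖u‖ ≤ K * ∑ k, ‖v k‖) : ‖u‖ₑ ^ 2 ≤ (K ^ 2 * Fintype.card ι : ℝ≥0) * ∑ k, ‖v k‖ₑ ^ 2 := by
  simp only [enorm_eq_nnnorm]
  norm_cast
  rw [← NNReal.coe_le_coe]
  push_cast
  refine (pow_le_pow_left₀ (norm_nonneg _) h 2).trans ?_
  rw [mul_pow, mul_assoc]
  exact mul_le_mul_of_nonneg_left (sq_sum_le_card_mul_sum_sq (s := Finset.univ)) (sq_nonneg _)

theorem cont_da {a : ι → M → ℝ} (ha : ∀ k, Sm I (a k)) : Continuous (da F a) :=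
  (PiLp.continuous_toLp 2 _).comp (continuous_pi fun _ => ((F.sm_D (ha _) _).continuous.sub
    (F.sm_D (ha _) _).continuous).sub (continuous_finsetSum _ fun _ _ =>
      (F.c_sm _ _ _).continuous.mul (ha _).continuous))

/-- **LOC-RAD** -/
theorem rad : Loc74.RadStmt := by
  intro X ι _ F z O hO
  obtain ⟨c, hz⟩ := atl F.toPre z
  obtain ⟨r, r0, hr⟩ := nhds_basis_closedBall.mem_iff.1 (inter_mem (c.φ.open_target.mem_nhds (c.φ.map_source hz))
    (c.φ.continuousAt_symm (c.φ.map_source hz) (show O ∈ 𝓝 (c.φ.symm (c.φ z)) by rwa [c.φ.left_inv hz])))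
  lift r to ℝ≥0 using r0.le
  have hL := isCompact_closedBall (c.φ z) (r : ℝ)
  have hs := hr.trans inter_subset_left
  have r1 : (0 : ℝ) < r / 2 := half_pos r0
  let χ : ContDiffBump (c.φ z) := ⟨r / 2, r, r1, half_lt_self r0⟩
  have hχ : tsupport χ ⊆ c.φ.target := χ.tsupport_eq ▸ hs
  set B := ball (c.φ z) (r / 2 : ℝ)
  have hB : B ⊆ closedBall (c.φ z) r := ball_subset_closedBall.trans (closedBall_subset_closedBall (half_le_self r0.le))
  have e1 : ∀ y ∈ B, ∀ᶠ p in 𝓝 y, χ p = 1 ∧ p ∈ c.φ.target := fun y hy =>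
    eventually_of_mem (isOpen_ball.mem_nhds hy) fun p hp =>
      ⟨χ.one_of_mem_closedBall (ball_subset_closedBall hp), hs (hB hp)⟩
  have hd : ∀ x ∈ B, ∀ y ∈ B, dist x y ≤ r := fun x hx y hy => by
    linarith [dist_triangle_right x y (c.φ z), mem_ball.1 hx, mem_ball.1 hy]
  obtain ⟨A, hA⟩ := tr c hL hs isOpen_ball hB
  obtain ⟨θ, t1, t2⟩ := ex_form c
  have cv := fun k => (c.vf_on (F.sm k)).continuousOn.mono hs
  obtain ⟨S, hS⟩ := span_bound hL cv fun y hy => c.vf_span F.span (hs hy)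
  obtain ⟨K, hK⟩ := hL.exists_bound_of_continuousOn (continuousOn_pi.2 cv)
  replace hK : ∀ y ∈ B, ∀ k, ‖c.vf (F.e k) y‖ ≤ K.toNNReal := fun y hy k =>
    ((norm_le_pi_norm _ k).trans (hK y (hB hy))).trans (Real.le_coe_toNNReal K)
  obtain ⟨N, hN⟩ : ∃ N : ℝ≥0, r ^ 2 * 2 ^ Module.finrank ℝ X.E = N := ⟨_, rfl⟩
  obtain ⟨Q, hQ⟩ : ∃ Q : ℝ≥0, Q = S * (Fintype.card ι * (S * Fintype.card ι)) := ⟨_, rfl⟩
  obtain ⟨R, hR⟩ : ∃ R : ℝ≥0, S ^ 2 * Fintype.card ι = R := ⟨_, rfl⟩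
  have ml : ∀ {u v : Eu X.E → ℝ≥0∞} {k : ℝ≥0}, (∀ y ∈ B, u y ≤ k * v y) →
      ∫⁻ y in B, u y ≤ k * ∫⁻ y in B, v y := fun h =>
    (setLIntegral_mono' measurableSet_ball h).trans_eq (lintegral_const_mul' _ _ ENNReal.coe_ne_top)
  refine ⟨_, c.φ.isOpen_inter_preimage isOpen_ball, ⟨hz, mem_ball_self r1⟩,
    fun x hx => c.φ.left_inv hx.1 ▸ (hr (hB hx.2)).2,
    A * (K.toNNReal ^ 2 * (N * (Q ^ 2 * A))) + A * (N * (R * A)), fun a ha => ?_, fun f hf => ?_⟩
  · let β := fun y => χ y • ∑ k, a k (c.φ.symm y) • θ k y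
    have hβ : ContDiff ℝ ∞ β := sm_cut c.φ.open_target χ.contDiff hχ
      (ContDiffOn.sum fun k _ => (c.loc_on (ha.sm k)).smul (t1 k))
    have e2 : ∀ y ∈ B, ∀ᶠ p in 𝓝 y, ∀ l, β p (c.vf (F.e l) p) = a l (c.φ.symm p) := fun y hy =>
      (e1 y hy).mono fun p hp l => by rw [← t2 a ha.pr p hp.2 l]; simp only [β, hp.1, one_smul]
    clear_value β
    obtain ⟨φ, f1, f2⟩ := pot isOpen_ball (convex_ball _ _) (nonempty_ball.2 r1) measure_ball_lt_top.ne hd hβ
    have f0 : ContDiff ℝ ∞ fun y => χ y • φ y := χ.contDiff.smul f1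
    have f3 : Sm X.I (c.pb fun y => χ y • φ y) := c.pb_smooth hL hs
      (fun y hy => ball_subset_closedBall (χ.support_eq ▸ fun h : χ y = 0 => hy (by simp [h]))) f0
    have b1 : ∀ y ∈ B, ‖dd β y‖ ≤ Q * ‖da F a (c.φ.symm y)‖ := fun y hy => by
      refine (hS y (hB hy) _ _).trans ?_
      rw [hQ]
      push_cast
      rw [mul_assoc]
      refine mul_le_mul_of_nonneg_left ((Finset.sum_le_card_nsmul _ _ _ fun k _ => (hS y (hB hy) _ _).trans
        (mul_le_mul_of_nonneg_left (Finset.sum_le_card_nsmul _ _ ‖da F a (c.φ.symm y)‖ fun l _ => ?_)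
          S.2)).trans_eq (by simp; ring)) S.2
      rw [dd_form c ha.sm (hs (hB hy)) (hβ.differentiable (by simp) y) (e2 y hy)]
      exact PiLp.norm_apply_le _ _
    have b2 : ∀ k, ∀ y ∈ B, ‖a k (c.φ.symm y) - F.D k (c.pb fun y => χ y • φ y) (c.φ.symm y)‖ ≤
        K.toNNReal * ‖β y - fderiv ℝ φ y‖ := fun k y hy => by
      have : (fun y => χ y • φ y) =ᶠ[𝓝 y] φ := (e1 y hy).mono fun p hp => by simp [hp.1]
      rw [Pre.D_def, c.dv_pb _ (hs (hB hy)) (f0.differentiable (by simp) y), this.fderiv_eq,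
        ← (e2 y hy).self_of_nhds, ← sub_apply, mul_comm]
      exact (ContinuousLinearMap.le_opNorm _ _).trans (by gcongr; exact hK y hy k)
    refine ⟨_, f3, fun k => (hA _ (((ha.sm k).continuous.sub
      (F.sm_D f3 k).continuous).enorm.measurable.pow_const 2)).1.trans ?_⟩
    rw [hN] at f2
    have b3 := ml (u := fun y => ‖dd β y‖ₑ ^ 2) (v := fun y => ‖da F a (c.φ.symm y)‖ₑ ^ 2)
      fun y hy => sq_le (u := ‖dd β y‖₊) (b1 y hy)
    have b4 := ml (v := fun y => ‖β y - fderiv ℝ φ y‖ₑ ^ 2) fun y hy => sq_le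
      (u := ‖a k (c.φ.symm y) - F.D k (c.pb fun y => χ y • φ y) (c.φ.symm y)‖₊) (b2 k y hy)
    refine (mul_le_mul_right (b4.trans (mul_le_mul_right (f2.trans (mul_le_mul_right (b3.trans (mul_le_mul_right
      (hA _ ((cont_da ha.sm).enorm.measurable.pow_const 2)).2 _)) _)) _)) _).trans ?_
    push_cast
    simp only [add_mul, mul_assoc, le_self_add]
  · obtain ⟨m, hm⟩ := poi isOpen_ball (convex_ball _ _) (nonempty_ball.2 r1) measure_ball_lt_top.ne hd
      (((c.loc_on hf).mono (hB.trans hs)).of_le (by simp))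
    have me := fun k => (F.sm_D hf k).continuous.enorm.measurable.pow_const 2
    have b : ∀ y ∈ B, ‖fderiv ℝ (fun y => f (c.φ.symm y)) y‖ ≤ S * ∑ k, ‖F.D k f (c.φ.symm y)‖ := fun y hy => by
      rw [← (c.pf_ev f (hs (hB hy))).fderiv_eq]
      exact (hS y (hB hy) _ _).trans_eq (by simp only [Pre.D_def, c.dv_chart _ (hs (hB hy)) (hf _)])
    refine ⟨m, (hA _ ((hf.continuous.sub continuous_const).enorm.measurable.pow_const 2)).1.trans ?_⟩
    rw [hN] at hm
    refine (mul_le_mul_right (hm.trans (mul_le_mul_right ((ml fun y hy => enorm_sum_le (b y hy)).trans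
      (mul_le_mul_right (hA _ (Finset.measurable_sum _ fun k _ => me k)).2 _)) _)) _).trans ?_
    rw [hR, lintegral_finsetSum _ fun k _ => me k]
    push_cast
    simp only [add_mul, mul_assoc, le_add_self]

end Crest.Agent.X212.Rad57
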