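import Crest.Agent.R236.Poinc
import Crest.Agent.PVc.R192.TP

/-!
# X212 / Num57, part RadE (helper57): radial potentials on a convex set

* `ex_ctr` : a good centre;  `pot` : a potential of a one-form;  `poi` : the Poincaré inequality.
-/

set_option autoImplicit false
set_option linter.unusedSectionVars false

open Set MeasureTheory
open scoped ContDiff ENNReal NNReal

noncomputable section

namespace Crest.Agent.X212.Rad57

theorem sq_lint {f : ℝ → ℝ≥0∞} (hf : Measurable f) :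
    (∫⁻ t in Icc (0 : ℝ) 1, f t) ^ 2 ≤ ∫⁻ t in Icc (0 : ℝ) 1, f t ^ 2 := by
  have h := ENNReal.lintegral_mul_le_Lp_mul_Lq (volume.restrict (Icc (0 : ℝ) 1))
    Real.HolderConjugate.two_two hf.aemeasurable (aemeasurable_const (b := (1 : ℝ≥0∞)))
  simp only [Pi.mul_apply, mul_one, lintegral_const, Measure.restrict_apply,
    MeasurableSet.univ, univ_inter, Real.volume_Icc, sub_zero, ENNReal.ofReal_one,
    ENNReal.rpow_ofNat, one_pow, ENNReal.one_rpow] at h
  refine (pow_le_pow_left' h 2).trans_eq ?_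
  rw [← ENNReal.rpow_natCast, ← ENNReal.rpow_mul]
  norm_num

section rad
variable {E : Type} [NormedAddCommGroup E] [NormedSpace ℝ E] [FiniteDimensional ℝ E]

/-- the exterior derivative of a one-form -/
def dd (β : E → E →L[ℝ] ℝ) (y : E) : E →L[ℝ] E →L[ℝ] ℝ := fderiv ℝ β y - (fderiv ℝ β y).flip

/-- the radial potential -/
def rp (β : E → E →L[ℝ] ℝ) (z y : E) : ℝ := ∫ t in (0 : ℝ)..1, β ((1 - t) • y + t • z) (y - z)

variable {β : E → E →L[ℝ] ℝ} (hβ : ContDiff ℝ ∞ β) (z : E)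
include hβ

theorem cont_dd : Continuous (dd β) :=
  have := hβ.continuous_fderiv (by simp)
  this.sub ((ContinuousLinearMap.flipₗᵢ ℝ E E ℝ).continuous.comp this)

theorem me_dd [MeasurableSpace E] [BorelSpace E] : Measurable fun y => ‖dd β y‖ₑ :=
  (cont_dd hβ).nnnorm.measurable.coe_nnreal_ennreal

theorem sm_int : ContDiff ℝ ∞ fun p : E × ℝ => β ((1 - p.2) • p.1 + p.2 • z) (p.1 - z) :=
  (hβ.comp (by fun_prop)).clm_apply (by fun_prop)

theorem sm_rp : ContDiff ℝ ∞ (rp β z) := R192.contDiff_intervalIntegral (sm_int hβ z) 0 1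

theorem sub_rp (y : E) :
    β y - fderiv ℝ (rp β z) y = ∫ t in (0 : ℝ)..1, (1 - t) • dd β ((1 - t) • y + t • z) (y - z) := by
  have c0 : Continuous fun t : ℝ => (1 - t) • y + t • z := by fun_prop
  have c1 := hβ.continuous.comp c0
  have c2 := (hβ.continuous_fderiv (by simp)).comp c0
  have c3 := (cont_dd hβ).comp c0
  have hd := fun p => (hβ.differentiable (by simp) p).hasFDerivAt
  ext v
  rw [ContinuousLinearMap.intervalIntegral_apply (Continuous.intervalIntegrable (by fun_prop) _ _)]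
  have h1 : fderiv ℝ (rp β z) y v = ∫ t in (0 : ℝ)..1,
      ((1 - t) * fderiv ℝ β ((1 - t) • y + t • z) v (y - z) + β ((1 - t) • y + t • z) v) := by
    refine (R192.fderiv_intervalIntegral (sm_int hβ z) 0 1 y v).trans ?_
    refine intervalIntegral.integral_congr fun t _ => ?_
    have a : HasFDerivAt (fun x : E => (1 - t) • x + t • z) ((1 - t) • .id ℝ E) y :=
      ((hasFDerivAt_id y).const_smul _).add_const _
    have b' := (((sm_int hβ z).differentiable (by simp)) (y, t)).hasFDerivAt.comp y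
      (hasFDerivAt_prodMk_left (𝕜 := ℝ) y t)
    have b := (((hd _).comp y a).clm_apply ((hasFDerivAt_id y).sub_const z)).unique b'
    refine (congrArg (· v) b).symm.trans ?_
    simp [add_comm]
  have h2 : ∫ t in (0 : ℝ)..1, (-β ((1 - t) • y + t • z) v -
      (1 - t) * fderiv ℝ β ((1 - t) • y + t • z) (y - z) v) = -β y v := by
    rw [intervalIntegral.integral_eq_sub_of_hasDerivAt
      (f := fun t => (1 - t) * β ((1 - t) • y + t • z) v) (fun t _ => ?_)
      (Continuous.intervalIntegrable (by fun_prop) _ _)]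
    · simp
    have a : HasDerivAt (fun t : ℝ => (1 - t) • y + t • z) (-(y - z)) t :=
      ((((hasDerivAt_id t).const_sub 1).smul_const y).add ((hasDerivAt_id t).smul_const z)).congr_deriv
        (by simp; abel)
    exact (((hasDerivAt_id t).const_sub 1).mul
      (((hd _).comp_hasDerivAt t a).clm_apply (hasDerivAt_const t v))).congr_deriv (by simp; ring)
  rw [sub_apply, h1, ← neg_neg (β y v), ← h2, ← intervalIntegral.integral_neg,
    ← intervalIntegral.integral_sub (Continuous.intervalIntegrable (by fun_prop) _ _)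
      (Continuous.intervalIntegrable (by fun_prop) _ _)]
  refine intervalIntegral.integral_congr fun t _ => ?_
  simp only [dd, smul_apply, sub_apply,
    ContinuousLinearMap.flip_apply, smul_eq_mul]
  ring

theorem le_rp {y : E} {d : ℝ≥0} (h : ‖y - z‖ ≤ d) : ‖β y - fderiv ℝ (rp β z) y‖ₑ ≤
    d * ∫⁻ t in Icc (0 : ℝ) 1, ‖dd β ((1 - t) • y + t • z)‖ₑ := by
  rw [sub_rp hβ, intervalIntegral.integral_of_le zero_le_one, ← integral_Icc_eq_integral_Ioc,
    ← lintegral_const_mul' _ _ ENNReal.coe_ne_top]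
  refine (enorm_integral_le_lintegral_enorm _).trans (setLIntegral_mono' measurableSet_Icc fun t ht => ?_)
  rw [enorm_eq_nnnorm, enorm_eq_nnnorm, ← ENNReal.coe_mul, ENNReal.coe_le_coe, ← NNReal.coe_le_coe]
  push_cast
  rw [norm_smul, Real.norm_of_nonneg (by linarith [ht.2]), mul_comm (d : ℝ)]
  exact (mul_le_of_le_one_left (norm_nonneg _) (by linarith [ht.1])).trans
    ((ContinuousLinearMap.le_opNorm _ _).trans (by gcongr))

end rad

variable {n : ℕ} {S : Set (EuclideanSpace ℝ (Fin n))} (hS : IsOpen S) (hc : Convex ℝ S)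
  (h0 : S.Nonempty) (h1 : volume S ≠ ⊤) {d : ℝ≥0} (hd : ∀ x ∈ S, ∀ y ∈ S, dist x y ≤ d)
include hS hc h0 h1

/-- a good centre -/
theorem ex_ctr {G : EuclideanSpace ℝ (Fin n) → ℝ≥0∞} (hG : Measurable G) (d : ℝ≥0) : ∃ z ∈ S,
    ∀ u : EuclideanSpace ℝ (Fin n) → ℝ≥0∞,
      (∀ y ∈ S, u y ≤ d * ∫⁻ t in Icc (0 : ℝ) 1, G ((1 - t) • y + t • z)) →
      ∫⁻ y in S, u y ^ 2 ≤ (d ^ 2 * 2 ^ n : ℝ≥0) * ∫⁻ y in S, G y ^ 2 := by
  have v0 := hS.measure_ne_zero volume h0
  obtain ⟨z, hz, h⟩ := exists_le_setLAverage (f := fun z => ∫⁻ y in S, ∫⁻ t in Icc (0 : ℝ) 1,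
    G ((1 - t) • y + t • z) ^ 2) v0 h1 (Measurable.aemeasurable (by
      refine Measurable.lintegral_prod_right' (f := fun p : _ × _ => ∫⁻ t in Icc (0 : ℝ) 1,
        G ((1 - t) • p.2 + t • p.1) ^ 2) ?_
      exact Measurable.lintegral_prod_right' (f := fun p : (_ × _) × ℝ =>
        G ((1 - p.2) • p.1.2 + p.2 • p.1.1) ^ 2) (by fun_prop)))
  refine ⟨z, hz, fun u hu => ?_⟩
  rw [setLAverage_eq] at h
  have h2 := h.trans (ENNReal.div_le_of_le_mul
    ((R236.Poinc.seg hS.measurableSet hc (hG.pow_const 2)).trans_eq (mul_right_comm _ _ _)))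
  push_cast
  rw [mul_assoc]
  refine le_trans ?_ (mul_le_mul_right h2 _)
  rw [← lintegral_const_mul' _ _ (ENNReal.pow_ne_top ENNReal.coe_ne_top)]
  refine setLIntegral_mono' hS.measurableSet fun y hy => (pow_le_pow_left' (hu y hy) 2).trans ?_
  rw [mul_pow]
  exact mul_le_mul_right (sq_lint (by fun_prop)) _

include hd

theorem pot {β : EuclideanSpace ℝ (Fin n) → EuclideanSpace ℝ (Fin n) →L[ℝ] ℝ} (hβ : ContDiff ℝ ∞ β) :
    ∃ φ, ContDiff ℝ ∞ φ ∧ ∫⁻ y in S, ‖β y - fderiv ℝ φ y‖ₑ ^ 2 ≤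
      (d ^ 2 * 2 ^ n : ℝ≥0) * ∫⁻ y in S, ‖dd β y‖ₑ ^ 2 :=
  let ⟨z, hz, h⟩ := ex_ctr hS hc h0 h1 (me_dd hβ) d
  ⟨_, sm_rp hβ z, h _ fun y hy => le_rp hβ z (by rw [← dist_eq_norm]; exact hd y hy z hz)⟩

theorem poi {f : EuclideanSpace ℝ (Fin n) → ℝ} (hf : ContDiffOn ℝ 1 f S) : ∃ m,
    ∫⁻ y in S, ‖f y - m‖ₑ ^ 2 ≤ (d ^ 2 * 2 ^ n : ℝ≥0) * ∫⁻ y in S, ‖fderiv ℝ f y‖ₑ ^ 2 :=
  let ⟨z, hz, h⟩ := ex_ctr hS hc h0 h1 (measurable_fderiv ℝ f).enorm d
  ⟨f z, h _ fun y hy => by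
    rw [enorm_sub_rev, ← ENNReal.ofReal_coe_nnreal]
    exact R236.Poinc.diff_le hS hc hf hy hz (hd y hy z hz)⟩

end Crest.Agent.X212.Rad57
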