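import Crest.Agent.X212.Ulc97.Add
import Crest.Agent.X212.Cok75.Abs
import Crest.Agent.X212.Dfl49.Wk

/-!
# Row 212 (helper57): at `Φ = 0` the linearisation is the sum of the form sector and the Dirac sector
-/

set_option autoImplicit false
set_option linter.unusedSectionVars false
noncomputable section
open scoped Manifold ContDiff Topology InnerProductSpace
open MeasureTheory Set Function Filter

namespace Crest.Agent.X212.Sec57
open An An.Pre Sob92 Ell97 Prm93 Mod61 Map77 Nk89 Wz78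
open Fred93 hiding ind

theorem fr_snd {X Y X' Y' : Type} [NormedAddCommGroup X] [NormedSpace ℝ X] [NormedAddCommGroup Y]
    [NormedSpace ℝ Y] [NormedAddCommGroup X'] [NormedSpace ℝ X'] [NormedAddCommGroup Y']
    [NormedSpace ℝ Y'] [CompleteSpace X] [CompleteSpace Y] [CompleteSpace X'] [CompleteSpace Y']
    {A : X →L[ℝ] Y} {D : X' →L[ℝ] Y'} {d e : ℤ} (h : Fr (A.prodMap D) d) (hA : Fr A e) :
    Fr D (d - e) := by
  have := h.1.finite_ker
  have : FiniteDimensional ℝ ((Y × Y') ⧸ (A.prodMap D).range) := h.1.finite_coker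
  have k : D.IsFredholm := isFredholm_of_finite
    (.of_injective ((LinearMap.inr ℝ X X').restrict (p := D.ker) (q := (A.prodMap D).ker)
      fun x hx => Prod.ext (map_zero A) hx) fun a b e =>
        Subtype.ext (congrArg (fun v => v.1.2) e))
    (.of_surjective (Submodule.mapQ (A.prodMap D).range D.range (LinearMap.snd ℝ Y Y')
      (by rintro _ ⟨v, rfl⟩; exact ⟨v.2, rfl⟩)) fun q =>
        Quotient.inductionOn' q fun y => ⟨Submodule.Quotient.mk (0, y), rfl⟩)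
  exact (Fr.of k).cast (by have := h.unique (hA.prodMap (.of k)); omega)

variable {E : Type} [NormedAddCommGroup E] [NormedSpace ℝ E] [FiniteDimensional ℝ E]
  [MeasurableSpace E] [BorelSpace E]
  {HM : Type} [TopologicalSpace HM] {I : ModelWithCorners ℝ E HM} [I.Boundaryless]
  {M : Type} [TopologicalSpace M] [ChartedSpace HM M] [IsManifold I ∞ M]
  [MeasurableSpace M] [T2Space M] [BorelSpace M] [SecondCountableTopology M]
  {ι ι' : Type} [Fintype ι] [Fintype ι']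

section gen
variable {V W : Type} [NormedAddCommGroup V] [InnerProductSpace ℝ V]
  [NormedAddCommGroup W] [InnerProductSpace ℝ W] {F : Pre I M ι'} {π π₁ π₂ : V →L[ℝ] V}
  {τ₁ τ₂ : W →L[ℝ] W} {p p₁ p₂ : M → V →L[ℝ] V} {q q₁ q₂ : M → W →L[ℝ] W}

variable (π p p₁) in
/-- `p₁` is the part of `p` cut out by the constant projection `π` -/
structure Hf : Prop where
  i : ∀ v, π (π v) = π v
  e : ∀ x v, p₁ x v = π (p x v)
  c : ∀ x v, p x (π v) = π (p x v)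

theorem Hf.r (h : Hf π p p₁) (k : ℕ) : F.Rep (F.mulH k p p₁ fun _ => π) fun u x => π (u x) :=
  rep_mulH (Cb_const _) fun x v e => by rw [h.e, h.c, h.i, e]

theorem Hf.j (h : Hf π p p₁) (k : ℕ) : F.Rep (F.mulH k p₁ p fun _ => π) fun u x => π (u x) :=
  rep_mulH (Cb_const _) fun x v e => by rw [h.c, ← h.e, e, ← e, h.e, h.i]

theorem Hf.rj (h : Hf π p p₁) (k : ℕ) (a : F.H k p₁) :
    F.mulH k p p₁ (fun _ => π) (F.mulH k p₁ p (fun _ => π) a) = a :=
  DFunLike.congr_fun (RepT_eq (RepT_comp (h.r k) (h.j k)) Rep_id fun u => funext fun x => by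
    rw [h.i, id, ← u.2.2.2 x, h.e, h.i]) a

theorem Hf.rj' (h₁ : Hf π₁ p p₁) (h₂ : Hf π₂ p p₂) (o : ∀ v, π₁ (π₂ v) = 0) (k : ℕ) (a : F.H k p₂) :
    F.mulH k p p₁ (fun _ => π₁) (F.mulH k p₂ p (fun _ => π₂) a) = 0 :=
  DFunLike.congr_fun (RepT_eq (RepT_comp (h₁.r k) (h₂.j k)) RepT_zero fun _ => funext fun _ => o _) a

variable (π₁ π₂ p p₁ p₂) in
/-- a bundle which is the sum of two sectors -/
structure Sq : Prop where
  l : Hf π₁ p p₁
  r : Hf π₂ p p₂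
  add : ∀ v, π₁ v + π₂ v = v

theorem Sq.o (s : Sq π₁ π₂ p p₁ p₂) (v : V) : π₁ (π₂ v) = 0 ∧ π₂ (π₁ v) = 0 := by
  have a := congrArg π₁ (s.add v)
  have b := congrArg π₂ (s.add v)
  rw [map_add, s.l.i] at a
  rw [map_add, s.r.i] at b
  exact ⟨add_eq_left.1 a, add_eq_right.1 b⟩

variable (F) in
/-- the splitting of the Sobolev spaces -/
def Sq.eq (s : Sq π₁ π₂ p p₁ p₂) (k : ℕ) : F.H k p ≃L[ℝ] F.H k p₁ × F.H k p₂ :=
  .equivOfInverse ((F.mulH k p p₁ fun _ => π₁).prod (F.mulH k p p₂ fun _ => π₂))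
    ((F.mulH k p₁ p fun _ => π₁).coprod (F.mulH k p₂ p fun _ => π₂))
    (DFunLike.congr_fun (RepT_eq (RepT_add (RepT_comp (s.l.j k) (s.l.r k))
      (RepT_comp (s.r.j k) (s.r.r k))) Rep_id fun u => funext fun x => by
        rw [Pi.add_apply, s.l.i, s.r.i, s.add, id]))
    fun a => by
      simp only [ContinuousLinearMap.coprod_apply, ContinuousLinearMap.prod_apply, map_add,
        s.l.rj, s.r.rj, s.l.rj' s.r fun v => (s.o v).1, s.r.rj' s.l fun v => (s.o v).2,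
        Prod.mk_add_mk, add_zero, zero_add]

theorem Sq.conj (s : Sq π₁ π₂ p p₁ p₂) (t : Sq τ₁ τ₂ q q₁ q₂) {j k : ℕ} {A : F.H j p →L[ℝ] F.H k q}
    {A₁ : F.H j p₁ →L[ℝ] F.H k q₁} {A₂ : F.H j p₂ →L[ℝ] F.H k q₂} {L L₁ L₂ : (M → V) → M → W}
    (h : F.Rep A L) (h₁ : F.Rep A₁ L₁) (h₂ : F.Rep A₂ L₂)
    (n : ∀ (w : Sec I p) x, τ₁ (L w x) = L₁ (fun y => π₁ (w.1 y)) x ∧
      τ₂ (L w x) = L₂ (fun y => π₂ (w.1 y)) x) (v : F.H j p) :
    t.eq F k (A v) = A₁.prodMap A₂ (s.eq F j v) :=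
  Prod.ext (DFunLike.congr_fun (RepT_eq (RepT_comp (t.l.r k) h) (RepT_comp h₁ (s.l.r j))
      fun u => funext fun x => (n u x).1) v)
    (DFunLike.congr_fun (RepT_eq (RepT_comp (t.r.r k) h) (RepT_comp h₂ (s.r.r j))
      fun u => funext fun x => (n u x).2) v)

theorem q_app {G : An.Fr I M ι} {P : ι → ι → M → ℝ} {A : Op M ι V W} (h : Alg P A) (u : M → V)
    (x : M) : A.q x (A.app G u x) = A.app G u x := by
  simp only [Op.app, Pre.op, map_add, map_sum, h.qσ, h.qB]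

open Cok75 in
/-- coercivity survives a small weight (`Cok75.coer_wt` with a smaller constant) -/
theorem coer3 [FiniteDimensional ℝ V] [FiniteDimensional ℝ W] {F G : An.Fr I M ι} {A : Op M ι V W}
    {ψ : M → ℝ} (h : Wt F G ψ) (ha : Alg F.P A) (cl : (A.adj F).CliffL F)
    (sσ : ∀ a, Sm I ((A.adj F).σ a)) (sB : Sm I (A.adj F).B)
    (hψ : ∀ x, ∑ a, F.D a ψ x ^ 2 ≤ 1 / 4)
    (co : ∀ w : Sec I A.q, 1 / 3 * ∫ x, ‖w.1 x‖ ^ 2 ∂F.μ ≤ ∫ x, ‖(A.adj F).app F w.1 x‖ ^ 2 ∂F.μ)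
    (w : Sec I A.q) :
    1 / 168 * ∫ x, ‖w.1 x‖ ^ 2 ∂G.μ ≤ ∫ x, ‖(A.adj G).app G w.1 x‖ ^ 2 ∂G.μ := by
  let v := Ell97.cut (sm_exp h.sm) w
  have e : ∀ (x) {N : Type} [NormedAddCommGroup N] [NormedSpace ℝ N] (u : N),
      Real.exp (2 * ψ x) • ‖u‖ ^ 2 = ‖Real.exp (ψ x) • u‖ ^ 2 := fun x N _ _ u => by
    rw [norm_smul, mul_pow, Real.norm_eq_abs, sq_abs, ← Real.exp_nat_mul]; rfl
  have sa : Sm I ((A.adj F).app F v.1) := sm_op sσ sB v.2.1
  have ca : HasCompactSupport ((A.adj F).app F v.1) :=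
    v.2.2.1.of_isClosed_subset (isClosed_tsupport _) (tsupport_op _ _ _)
  have sb : Sm I fun x => sy F (A.adj F) ψ x (v.1 x) :=
    (contMDiff_finsetSum fun a _ => (F.sm_D h.sm a).smul (sσ a)).clm_apply v.2.1
  have cb : HasCompactSupport fun x => sy F (A.adj F) ψ x (v.1 x) :=
    v.2.2.1.mono fun x hx k => hx (by simp [k])
  have i : ∀ {N : Type} [NormedAddCommGroup N] [NormedSpace ℝ N] {u : M → N}, Sm I u →
      HasCompactSupport u → Integrable (fun x => ‖u x‖ ^ 2) F.μ := fun hu hc =>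
    int_sq (FL_of_hcs (F := F.toPre) 0 hu hc)
  simp only [h.toWtP.integral, e, adj_wt h ha w.2.1]
  have k := integral_mono (((i sa ca).const_mul (1 / 8)).sub ((i v.2.1 v.2.2.1).const_mul (1 / 28)))
    (i (sa.add sb) (ca.add cb)) fun x => by
      have h1 := norm_sy cl ψ (v.2.2.2 x)
      have h2 := mul_le_mul_of_nonneg_right (hψ x) (sq_nonneg ‖v.1 x‖)
      have h3 := norm_sub_le ((A.adj F).app F v.1 x + sy F (A.adj F) ψ x (v.1 x))
        (sy F (A.adj F) ψ x (v.1 x))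
      rw [add_sub_cancel_right] at h3
      have h4 := pow_le_pow_left₀ (norm_nonneg _) h3 2
      simp only [Pi.sub_apply, Pi.add_apply]
      nlinarith [sq_nonneg (7 * ‖(A.adj F).app F v.1 x + sy F (A.adj F) ψ x (v.1 x)‖ -
        ‖sy F (A.adj F) ψ x (v.1 x)‖)]
  rw [integral_sub' ((i sa ca).const_mul _) ((i v.2.1 v.2.2.1).const_mul _), integral_const_mul,
    integral_const_mul] at k
  have := co v
  change 1 / 168 * ∫ x, ‖v.1 x‖ ^ 2 ∂F.μ ≤
    ∫ x, ‖(A.adj F).app F v.1 x + sy F (A.adj F) ψ x (v.1 x)‖ ^ 2 ∂F.μ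
  simp only [Pi.add_apply] at k
  linarith

end gen

variable {κ : Type} [Fintype κ] [DecidableEq κ] {d : Bd M ι κ} {O O' : Set M}

variable (ι κ) in
/-- the form part -/
def πa : CL (Cf ι κ) (Cf ι κ) := i1 _ _ ∘L fa
variable (ι κ) in
/-- the spinor part -/
def πs : CL (Cf ι κ) (Cf ι κ) := i2 _ _ ∘L fp
variable (ι κ) in
/-- the rows of the forms -/
def τa : CL (Dfl49.Tg ι κ) (Dfl49.Tg ι κ) := sm2 (.id ℝ _) (i2 _ _ ∘L s2 _ _)
variable (ι κ) in
/-- the Dirac row -/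
def τs : CL (Dfl49.Tg ι κ) (Dfl49.Tg ι κ) := sm2 0 (i1 _ _ ∘L f2 _ _)

theorem idx_zero {α X : Type} [Fintype α] [NormedAddCommGroup X] [InnerProductSpace ℝ X]
    (S : α → α → ℝ) : idx S (0 : X →L[ℝ] X) = 0 :=
  ContinuousLinearMap.ext fun v => fm_ext fun a => by simp

theorem sqC : Sq (πa ι κ) (πs ι κ) (ind d O O').pC (ind d O ∅).pC (ind d ∅ O').pC := by
  refine ⟨⟨fun v => ?_, fun x v => ?_, fun x v => ?_⟩, ⟨fun v => ?_, fun x v => ?_, fun x v => ?_⟩,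
    fun v => ?_⟩ <;> exact ext2 (by simp [πa, πs, ind, idx_zero]) (by simp [πa, πs, ind])

theorem sqT : Sq (τa ι κ) (τs ι κ) (ps (ind d O O').g (ind d O O').pE)
    (ps (ind d O ∅).g (ind d O ∅).pE) (ps (ind d ∅ O').g (ind d ∅ O').pE) := by
  refine ⟨⟨fun v => ?_, fun x v => ?_, fun x v => ?_⟩, ⟨fun v => ?_, fun x v => ?_, fun x v => ?_⟩,
    fun v => ?_⟩ <;> exact ext2 (by simp [τa, τs, ind])
      (ext2 (by simp [τa, τs, ind]) (by simp [τa, τs, ind, idx_zero]))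

variable {F : An.Fr I M ι'} {G : An.Fr I M ι} {Γ : ι → ι → ι → M → ℝ} {W : ι → M → En κ}

theorem hy_dir (a : (ind d O O').Hy F G) (k : d.OK) : (ind d ∅ O').Hy F G :=
  ⟨a.toTw, ok_ind k _ _, a.P, a.cP, a.cρ, by simpa [ind] using Cb_const 0,
    by simpa [ind, idx_zero] using Cb_const 0, by simpa [ind, idx_zero] using Cb_const 0,
    a.cp, a.cm⟩

theorem sec_op (C : Cp d G Γ W) (hO : IsClopen O) (hO' : IsClopen O') (w : Sec I (ind d O O').pC)
    (x : M) : τa ι κ (((ind d O O').full G (base W 0)).app G w x) =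
      ((ind d O ∅).full G (base W 0)).app G (fun y => πa ι κ (w.1 y)) x ∧
    τs ι κ (((ind d O O').full G (base W 0)).app G w x) =
      ((ind d ∅ O').full G (base W 0)).app G (fun y => πs ι κ (w.1 y)) x := by
  have C0 := C.ind hO hO'
  have C1 := C.ind hO isClopen_empty
  have C2 := C.ind isClopen_empty hO'
  have s := w.2.1 x
  have p := w.2.2.2
  have s1 : SA I (fun y => πa ι κ (w.1 y)) x := SA.clm _ s
  have s2' : SA I (fun y => πs ι κ (w.1 y)) x := SA.clm _ s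
  have S := sqC (d := d) (O := O) (O' := O')
  have q1 : ∀ y, (ind d O ∅).pC y (πa ι κ (w.1 y)) = πa ι κ (w.1 y) := fun y => by
    rw [S.l.e, S.l.c, S.l.i, p]
  have q2 : ∀ y, (ind d ∅ O').pC y (πs ι κ (w.1 y)) = πs ι κ (w.1 y) := fun y => by
    rw [S.r.e, S.r.c, S.r.i, p]
  refine ⟨ext2 ?_ (ext2 ?_ ?_), ext2 ?_ (ext2 ?_ ?_)⟩
  · rw [C1.full_row s1 q1]; simp [τa, πa, C0.full_row s p, rk1]
  · rw [C1.full_dir s1 q1]; simp [τa, πa, dir, nab, dv_const]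
  · rw [C1.full_crv s1 q1]; simp [τa, πa, C0.full_crv s p, rk1]; rfl
  · rw [C2.full_row s2' q2]; simp [τs, πs, rk1, cov, nab, dv_const]
  · rw [C2.full_dir s2' q2]; simp [τs, πs, C0.full_dir s p]; rfl
  · rw [C2.full_crv s2' q2]; simp [τs, ind, idx_zero]

variable (C : Cp d G Γ W) (hO : IsClopen O) (hO' : IsClopen O') (a : (ind d O O').Hy F G)
  (a₁ : (ind d O ∅).Hy F G) (cu : F.Cb (base W 0)) {k : ℕ}
include C hO hO' a a₁ cu

/-- **the sectors** -/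
theorem ff_conj (v : F.H (k + 1) (ind d O O').pC) :
    sqT.eq F.toPre k ((ind d O O').FF F.toPre G k (base W 0) v) =
      ((ind d O ∅).FF F.toPre G k (base W 0)).prodMap ((ind d ∅ O').FF F.toPre G k (base W 0))
        (sqC.eq F.toPre (k + 1) v) :=
  have a₂ := hy_dir a C.ok
  sqC.conj sqT (a.toTw.rep (a.nc_full cu) k) (a₁.toTw.rep (a₁.nc_full cu) k)
    (a₂.toTw.rep (a₂.nc_full cu) k) (sec_op C hO hO') v

/-- the index of the Dirac sector -/
theorem ff_dir {n n₁ : ℤ} (f : Fred93.Fr ((ind d O O').FF F.toPre G k (base W 0)) n)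
    (f₁ : Fred93.Fr ((ind d O ∅).FF F.toPre G k (base W 0)) n₁) :
    Fred93.Fr ((ind d ∅ O').FF F.toPre G k (base W 0)) (n - n₁) :=
  fr_snd ((f.conj (sqC.eq F.toPre (k + 1)).symm (sqT.eq F.toPre k)).congr fun v => by
    obtain ⟨v, rfl⟩ := (sqC.eq F.toPre (k + 1)).surjective v
    simpa using (ff_conj C hO hO' a a₁ cu v).symm) f₁

omit a₁ C in
/-- a coercive Dirac operator on negative spinors makes the Dirac sector onto -/
theorem dir_surj {G₀ : An.Fr I M ι} {ψ : M → ℝ} (C₀ : Cp d G₀ G₀.Gam W) (R : Riem G₀)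
    (w : Wt G₀ G ψ) (hψ : ∀ x, ∑ i, G₀.D i ψ x ^ 2 ≤ 1 / 4)
    (co : ∀ φ : Sec I (O'.indicator d.sm), 1 / 3 * ∫ x, ‖φ.1 x‖ ^ 2 ∂G₀.μ ≤
      ∫ x, ‖dir I G₀.e d.ρ W φ.1 x‖ ^ 2 ∂G₀.μ) (k : ℕ) :
    Surjective ((ind d ∅ O').FF F.toPre G k (base W 0)) := by
  have a₂ := hy_dir a C₀.ok
  have C2 := C₀.ind isClopen_empty hO'
  have n := a₂.nc_full cu
  have e : (ind d ∅ O').full G (base W 0) = (ind d ∅ O').full G₀ (base W 0) := by
    have g : ∀ x, (ind d ∅ O').g x = 0 := fun x => indicator_of_notMem (notMem_empty x) _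
    simp only [Bd.full, Bd.d0, Bd.lin, Map77.cut, Op.adj, Pre.D_def, w.e, Bc, w.c, g,
      ContinuousLinearMap.zero_comp]
  have n₀ : Nc F.toPre G₀.P ((ind d ∅ O').full G₀ (base W 0)) := w.P ▸ e ▸ n
  have sσ := fun a => Cok75.sm_tr (n₀.σ a).choose_spec.1
  refine Cok75.surj a₂.toTw n (C2.ok.cliff_full a₂.P _).2 (c := 1 / 168) (by norm_num) ?_ k
  rw [e]
  refine coer3 w n₀.alg (C2.ok.cliff_full C2.P _).2 (fun a => (sσ a).neg)
    (n₀.p.choose_spec.1.clm_comp ((Cok75.sm_tr n₀.B.choose_spec.1).sub (contMDiff_finsetSum fun a _ =>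
      (G₀.sm_D (sσ a) a).add ((G₀.dv_sm a).smul (sσ a))))) hψ fun y => ?_
  have p : ∀ x, ps (ind d ∅ O').g (ind d ∅ O').pE x (y.1 x) = y.1 x := y.2.2.2
  have z : ∀ x, f2 _ _ (y.1 x) = 0 ∧ s2 _ _ (s2 _ _ (y.1 x)) = 0 := fun x => by
    rw [← p x]; simp [ind, idx_zero]
  have := co ⟨Dfl49.cψ y.1, fun x => Dfl49.sa_cψ (y.2.1 x),
    y.2.2.1.mono fun x hx k => hx (by simp [Dfl49.cψ, k]), fun x => sm_of (d := ind d ∅ O') (p x)⟩
  convert this using 3
  · funext x; simp [Dfl49.nrm_Tg, z, Dfl49.cψ]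
  · rename_i x
    have q : (ind d ∅ O').pC x _ = _ := q_app (G := G₀) (n₀.alg.adj G₀) y.1 x
    have := (Dfl49.Cp.adj_eqs C2 (y.2.1 x) p).2
    simp only [R.dft C2.lc, zero_smul, Finset.sum_const_zero, add_zero] at this
    rw [← q, ← real_inner_self_eq_norm_sq, inner2, f2_ps, s2_ps, ← s2_ps, q, this]
    simp [ind, idx_zero]

end Crest.Agent.X212.Sec57
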