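import Crest.Agent.X212.Num57.Idr

/-!
# Row 212 (helper57): the class of an anti-self-dual abelian point of level `1/4`
-/

set_option autoImplicit false
set_option linter.unusedSectionVars false
noncomputable section
open scoped Manifold ContDiff Real
open MeasureTheory Set

namespace Crest.Agent.X212.Sec57
open An Nd18 Qab60 Lix26
open M (Mf)

variable {Y : Mf 3} [CompactSpace Y.M] {κ : Type} [Fintype κ] {lam : Type} [Fintype lam]
  {E : Type} [NormedAddCommGroup E] [NormedSpace ℝ E] [FiniteDimensional ℝ E]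
  [MeasurableSpace E] [BorelSpace E]
  {HM : Type} [TopologicalSpace HM] {I : ModelWithCorners ℝ E HM} [I.Boundaryless]
  {M : Type} [TopologicalSpace M] [ChartedSpace HM M] [IsManifold I ∞ M] [T2Space M]
  [MeasurableSpace M] [BorelSpace M] [SecondCountableTopology M]
  [DecidableEq lam] {D : YD Y.I Y.M κ (lam ⊕ lam)}
  {B : Base M (Option κ) (lam ⊕ lam)} {G : Geo I M (Option κ) (lam ⊕ lam)} {K : Nk D B G}
  {Ω : Set M} {d : Mdl K Ω} {r : ℕ} {c : Cfg M (Option κ) (lam ⊕ lam) r} {ξ : M → c.m.A}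

theorem sl_kd (h : d.OK) (A : Ab B G Ω c ξ) (e : ∀ x ∈ Ω, c.m.p2 B x (c.m.Fg G.F c.W x) = 0)
    (i : IntegrableOn (c.m.kd B G.F c.W) Ω G.F.μ) (l : ∫ x in Ω, c.m.kd B G.F c.W x ∂G.F.μ = 1 / 4) :
    Lns95.Sl B G Ω (Abel74.fm G.F c.m c.W ξ) :=
  sl_on h.ins.hB h.ins.hG h.ins.cl h.ins.tam.ok A (IntegrableOn.congr_fun (i.const_mul (128 * π ^ 2))
    (fun x hx => by simp [Wz78.norm_Fg_sq h.ins.hG A.adm.conn h.ins.hB, e x hx])
    h.ins.cl.isOpen.measurableSet) e l

end Crest.Agent.X212.Sec57
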